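import Vale.Agent.P092.H923.PJ8
import Vale.Agent.P092.CL.ExDefs

/-!
P092, row [CL-I1] (helper923), part 9: `OvlStmt` of CL/ExDefs for the letters of CL/Lt, every gauge
with `GauOk`.
-/

set_option linter.all false

open scoped Matrix
open Matrix Module Set MeasureTheory Topology

namespace Vale.Agent.P092.H923.CLI

open Vale.Agent.P092.CL (ta nmM NW1 NWr AttS V2 Lt lt Gau GauOk OvlStmt)
open Vale.Agent.P092.H303 (FormGroup Idx hyp)
open Vale.Agent.P092.H714.Cl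
open Vale.Agent.P092.H370.Po (SGr WI)
open Vale.Agent.P092.H486.Eng (Ovl)

section lt

variable {k : Type} [NontriviallyNormedField k] {ι : Type} [Fintype ι]
  [DecidableEq ι] {s : ℕ} {σ : k →+* k} {ε : k} {J₀ : Matrix ι ι k} [MeasurableSpace k]
  {hF : Frm σ ε (hyp (s + 2) ε J₀)} {w : k} {hw : w ≠ 0} {hσ : σ w = w} {μ₁ : Measure k}
  {μ₂ : Measure (V2 σ ε)}

theorem na1_mono {R R' T : ℝ} (h : R ≤ R') {A : Set (SGr σ (hyp (s + 2) ε J₀) 1)}
    {g : FormGroup σ (hyp (s + 2) ε J₀)} (hg : g ∈ (lt hF hw hσ μ₁ μ₂).NA1 R T A) :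
    g ∈ (lt hF hw hσ μ₁ μ₂).NA1 R' T A :=
  ⟨fun i i' j j' => (hg.1 i i' j j').trans
    (mul_le_mul_of_nonneg_right h (norm_nonneg _)), hg.2⟩

theorem na2_mono {R R' T : ℝ} (h : R ≤ R') {B : Set (SGr σ (hyp (s + 2) ε J₀) (s + 2))}
    {g : FormGroup σ (hyp (s + 2) ε J₀)} (hg : g ∈ (lt hF hw hσ μ₁ μ₂).NA2 R T B) :
    g ∈ (lt hF hw hσ μ₁ μ₂).NA2 R' T B := by
  obtain ⟨⟨V, hV, H⟩, h2⟩ := hg
  exact ⟨⟨V, hV, fun v hv => (H v hv).trans
    (mul_le_mul_of_nonneg_right h (norm_nonneg _))⟩, h2⟩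

/-- **[CL-I1]**: the bounded overlap of the cones. -/
theorem ovlStmt [ProperSpace k] {T : Gau (FormGroup σ (hyp (s + 2) ε J₀))
      (SGr σ (hyp (s + 2) ε J₀) 1) (SGr σ (hyp (s + 2) ε J₀) (s + 2))}
    (hT : GauOk (lt hF hw hσ μ₁ μ₂) T) (hi : ∀ x, ‖σ x‖ = ‖x‖)
    (hW : WI σ (hyp (s + 2) ε J₀) (s + 2)) : OvlStmt (lt hF hw hσ μ₁ μ₂) T := by
  intro Γ _ q hq hud A B hA hB hAB
  refine ovl_of (NA := (lt hF hw hσ μ₁ μ₂).na1 q) (NA' := (lt hF hw hσ μ₁ μ₂).na2 q) ?_ ?_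
    fun R R' hR hR' => cnt12 hi hW hq hud hA hB hAB hR hR'
  · intro r
    obtain ⟨R, hR⟩ := hT.dom1 r
    refine ⟨max R 1, lt_max_of_lt_right one_pos, fun t ht => ?_⟩
    obtain ⟨t', ht'⟩ := hR t (one_pos.trans_le ht)
    refine ⟨max r (t' + 1), fun γ A h1 h2 h3 => ?_⟩
    rcases ht' A (q γ) (h2.trans ((le_max_left _ _).trans h1)) h3 with h | h | h
    · exact na1_mono (le_max_left _ _) h
    · have := (le_max_right r (t' + 1)).trans h1
      linarith [h.1]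
    · exact absurd h2 (not_le.2 h.2)
  · intro r
    obtain ⟨R, hR⟩ := hT.dom2 r
    refine ⟨max R 1, lt_max_of_lt_right one_pos, fun t ht => ?_⟩
    obtain ⟨t', ht'⟩ := hR t (one_pos.trans_le ht)
    refine ⟨max r (t' + 1), fun γ A h1 h2 h3 => ?_⟩
    rcases ht' A (q γ) (h2.trans ((le_max_left _ _).trans h1)) h3 with h | h | h
    · exact na2_mono (le_max_left _ _) h
    · have := (le_max_right r (t' + 1)).trans h1
      linarith [h.1]
    · exact absurd h2 (not_le.2 h.2)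

end lt

end Vale.Agent.P092.H923.CLI
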