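import Vale.Agent.P092.H923.PJ9
import Vale.Agent.P092.CL.LtO

/-!
P092, row [CLO-I1] (helper923): the count of (I1) and `OvlStmt` in the letters of CL/LtO (orthogonal
groups).
-/

set_option linter.all false

open scoped Matrix LinearAlgebra.Projectivization
open Matrix Module Set MeasureTheory Topology

namespace Vale.Agent.P092.H923.CLI

open Vale.Agent.P092.CL (ta nmM NW1 NWr AttS scal V2 Lt EUF OF ltO Gau GauOk OvlStmt)
open Vale.Agent.P092.H303 (FormGroup Idx hyp)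
open Vale.Agent.P092.H714.Cl
open Vale.Agent.P092.H714.Sg (Fm)
open Vale.Agent.P092.H370.Po (SGr Inc Sing WI Ort ort_sup_left ort_sup_right ort_span_left
  ort_span_right finrank_sup_span singG_closed)
open Vale.Agent.P092.H100.Gr (Gr)
open Vale.Agent.P092.H644.Gr3 (p1 p1_cont p1_mk p1_surj)
open Vale.Agent.P092.H486.Eng (Ovl)
open Vale.Agent.P092.H923.PJ (P1 Pd IsoM bF AtP AtD)

section gen

variable {k : Type} [NontriviallyNormedField k] {n : Type} [Fintype n] [DecidableEq n]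
  {σ : k →+* k} {ε : k} {J : Matrix n n k}

theorem exists_invF (hF : Fm σ ε J) : ∃ J' : Matrix n n k, J' * Jᵀ = 1 := by
  have h1 : J.det ≠ 0 := by
    intro h0
    obtain ⟨v, hv, hvJ⟩ := Matrix.exists_vecMul_eq_zero_iff.2 h0
    obtain ⟨y, hy⟩ := hF.nondeg v hv
    apply hy
    unfold hf
    rw [Matrix.dotProduct_mulVec, hvJ, zero_dotProduct]
  refine ⟨(Jᵀ)⁻¹, Matrix.nonsing_inv_mul _ ?_⟩
  rw [Matrix.det_transpose]
  exact isUnit_iff_ne_zero.2 h1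

/-- adding a vector to a singular space -/
theorem sing_supF (hF : Fm σ ε J) {X : Submodule k (n → k)} (hX : Sing σ J X) {v : n → k}
    (hv : hf σ J v v = 0) (h : ∀ x ∈ X, hf σ J x v = 0) :
    Sing σ J (X ⊔ Submodule.span k {v}) := by
  unfold Sing
  rw [ort_sup_left, ort_sup_right, ort_sup_right, ort_span_left, ort_span_right]
  refine ⟨⟨hX, h⟩, fun x hx => ?_, ?_⟩
  · rw [hF.herm, h x hx, map_zero, mul_zero]
  · rw [ort_span_left]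
    intro y hy
    obtain ⟨a, rfl⟩ := Submodule.mem_span_singleton.1 hy
    rw [hf_smul_right, hv, mul_zero]

/-- non-incidence in terms of the form -/
theorem sep_ofF {r : ℕ} (hF : Fm σ ε J) (hW : WI σ J r) {A : Set (SGr σ J 1)}
    {B : Set (SGr σ J r)} (hAB : ∀ x ∈ A, ∀ l ∈ B, ¬ Inc x l) :
    ∀ (v : n → k) (hv : v ≠ 0), Projectivization.mk k v hv ∈ imP A → ∀ X ∈ imM B,
      ∃ y ∈ X.1, bF σ Jᵀ v y ≠ 0 := by
  intro v hv hvA X₁ hX₁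
  obtain ⟨X₀, hX, rfl⟩ := hX₁
  obtain ⟨X, hXX⟩ : ∃ X : SGr σ J r, X = X₀ := ⟨X₀, rfl⟩
  subst hXX
  obtain ⟨P, hP, hPv⟩ := p1_of_mem hvA
  by_contra hc
  push Not at hc
  have hc' : ∀ y ∈ X.S, hf σ J y v = 0 := fun y hy => by rw [← bF_hf]; exact hc y hy
  have hvv : hf σ J v v = 0 := P.sing.zero (by rw [hPv]; exact Submodule.mem_span_singleton_self v)
  have h1 := sing_supF hF X.sing hvv hc'
  have h2 := hW.2 _ h1
  have h3 : v ∈ X.S := by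
    by_contra hn
    rw [finrank_sup_span hn, X.dim] at h2
    omega
  exact hAB P hP X hX (by
    change P.S ≤ X.S
    rw [hPv, Submodule.span_singleton_le_iff_mem]
    exact h3)

end gen

section lt

variable {k : Type} [NontriviallyNormedField k] [ProperSpace k] {ι : Type} [Fintype ι]
  [DecidableEq ι] {J₀ : Matrix ι ι k} {h : OF J₀} {s : ℕ} [MeasurableSpace k]
  {a : k} {ha : a ≠ 0} {μ₁ : Measure k} {μ₂ : Measure (ι → k)} {Γ : Type} [Group Γ]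
  {q : Γ → EUF (RingHom.id k) 1 (hyp (s + 2) 1 J₀)}

/-- **[CLO-I1], the count, points first.** -/
theorem cntO12 (hW : WI (RingHom.id k) (hyp (s + 2) 1 J₀) (s + 2))
    (hq : (ltO h s ha μ₁ μ₂).PH q) (hud : (ltO h s ha μ₁ μ₂).UD q)
    {A : Set (SGr (RingHom.id k) (hyp (s + 2) 1 J₀) 1)}
    {B : Set (SGr (RingHom.id k) (hyp (s + 2) 1 J₀) (s + 2))}
    (hA : IsClosed A) (hB : IsClosed B)
    (hAB : ∀ x ∈ A, ∀ l ∈ B, ¬ (ltO h s ha μ₁ μ₂).In x l) {R R' : ℝ} (hR : 0 < R)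
    (hR' : 0 < R') :
    ∃ T₀ : ℝ, 1 ≤ T₀ ∧ ∃ N : ℕ, ∀ T, T₀ ≤ T → ∀ (η : Γ) (S : Finset Γ),
      (∀ γ ∈ S, γ ∈ (ltO h s ha μ₁ μ₂).na1 q R T A ∧ γ * η ∈ (ltO h s ha μ₁ μ₂).na2 q R' T B) →
        S.card ≤ N := by
  have hσc : Continuous (RingHom.id k) := continuous_id
  haveI : Nonempty (Idx (s + 2) ι) := ⟨Sum.inl (Sum.inl 0)⟩
  obtain ⟨J', hJ'⟩ := exists_invF (h.fm s)
  obtain ⟨T₀, h1, N, H⟩ := PJ.cnt12
    (ρ := fun g : EUF (RingHom.id k) 1 (hyp (s + 2) 1 J₀) => ta g.1.1)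
    (Z := (ltO h s ha μ₁ μ₂).Z) (q := q) (fun x => rfl) hJ' ta_one
    (fun g h => ta_mul g.1.1 h.1.1)
    (fun g => isoM_ta g.1.2) (fun z hz => ta_scal hz) hq hud (d := s + 2) (by omega)
    (imP_closed hσc hA) (imM_closed hσc hB) (sep_ofF (h.fm s) hW hAB) hR hR'
  refine ⟨T₀, h1, N, fun T hT η S hS => H T hT η S fun γ hγ => ?_⟩
  obtain ⟨⟨a1, a2⟩, a3, a4⟩ := hS γ hγ
  exact ⟨p1_of hR a1 a2, pd_of hR' a3 a4⟩

/-- **[CLO-I1], the count, maximal spaces first.** -/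
theorem cntO21 (hW : WI (RingHom.id k) (hyp (s + 2) 1 J₀) (s + 2))
    (hq : (ltO h s ha μ₁ μ₂).PH q) (hud : (ltO h s ha μ₁ μ₂).UD q)
    {A : Set (SGr (RingHom.id k) (hyp (s + 2) 1 J₀) 1)}
    {B : Set (SGr (RingHom.id k) (hyp (s + 2) 1 J₀) (s + 2))}
    (hA : IsClosed A) (hB : IsClosed B)
    (hAB : ∀ x ∈ A, ∀ l ∈ B, ¬ (ltO h s ha μ₁ μ₂).In x l) {R R' : ℝ} (hR : 0 < R)
    (hR' : 0 < R') :
    ∃ T₀ : ℝ, 1 ≤ T₀ ∧ ∃ N : ℕ, ∀ T, T₀ ≤ T → ∀ (η : Γ) (S : Finset Γ),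
      (∀ γ ∈ S, γ ∈ (ltO h s ha μ₁ μ₂).na2 q R' T B ∧ γ * η ∈ (ltO h s ha μ₁ μ₂).na1 q R T A) →
        S.card ≤ N := by
  have hσc : Continuous (RingHom.id k) := continuous_id
  haveI : Nonempty (Idx (s + 2) ι) := ⟨Sum.inl (Sum.inl 0)⟩
  obtain ⟨J', hJ'⟩ := exists_invF (h.fm s)
  obtain ⟨T₀, h1, N, H⟩ := PJ.cnt21
    (ρ := fun g : EUF (RingHom.id k) 1 (hyp (s + 2) 1 J₀) => ta g.1.1)
    (Z := (ltO h s ha μ₁ μ₂).Z) (q := q) (fun x => rfl) hJ' ta_one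
    (fun g h => ta_mul g.1.1 h.1.1)
    (fun g => isoM_ta g.1.2) (fun z hz => ta_scal hz) hq hud (d := s + 2) (by omega)
    (imP_closed hσc hA) (imM_closed hσc hB) (sep_ofF (h.fm s) hW hAB) hR hR'
  refine ⟨T₀, h1, N, fun T hT η S hS => H T hT η S fun γ hγ => ?_⟩
  obtain ⟨⟨a1, a2⟩, a3, a4⟩ := hS γ hγ
  exact ⟨pd_of hR' a1 a2, p1_of hR a3 a4⟩

omit [ProperSpace k] [Group Γ] in
theorem na1O_mono {R R' T : ℝ} (hR : R ≤ R') {A : Set (SGr (RingHom.id k) (hyp (s + 2) 1 J₀) 1)}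
    {g : EUF (RingHom.id k) 1 (hyp (s + 2) 1 J₀)} (hg : g ∈ (ltO h s ha μ₁ μ₂).NA1 R T A) :
    g ∈ (ltO h s ha μ₁ μ₂).NA1 R' T A :=
  ⟨fun i i' j j' => (hg.1 i i' j j').trans
    (mul_le_mul_of_nonneg_right hR (norm_nonneg _)), hg.2⟩

omit [ProperSpace k] [Group Γ] in
theorem na2O_mono {R R' T : ℝ} (hR : R ≤ R')
    {B : Set (SGr (RingHom.id k) (hyp (s + 2) 1 J₀) (s + 2))}
    {g : EUF (RingHom.id k) 1 (hyp (s + 2) 1 J₀)} (hg : g ∈ (ltO h s ha μ₁ μ₂).NA2 R T B) :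
    g ∈ (ltO h s ha μ₁ μ₂).NA2 R' T B := by
  obtain ⟨⟨V, hV, H⟩, h2⟩ := hg
  exact ⟨⟨V, hV, fun v hv => (H v hv).trans
    (mul_le_mul_of_nonneg_right hR (norm_nonneg _))⟩, h2⟩

/-- **[CLO-I1]**: the bounded overlap of the cones. -/
theorem ovlStmtO {T : Gau (EUF (RingHom.id k) 1 (hyp (s + 2) 1 J₀))
      (SGr (RingHom.id k) (hyp (s + 2) 1 J₀) 1) (SGr (RingHom.id k) (hyp (s + 2) 1 J₀) (s + 2))}
    (hT : GauOk (ltO h s ha μ₁ μ₂) T)
    (hW : WI (RingHom.id k) (hyp (s + 2) 1 J₀) (s + 2)) : OvlStmt (ltO h s ha μ₁ μ₂) T := by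
  intro Γ _ q hq hud A B hA hB hAB
  refine ovl_of (NA := (ltO h s ha μ₁ μ₂).na1 q) (NA' := (ltO h s ha μ₁ μ₂).na2 q) ?_ ?_
    fun R R' hR hR' => cntO12 hW hq hud hA hB hAB hR hR'
  · intro r
    obtain ⟨R, hR⟩ := hT.dom1 r
    refine ⟨max R 1, lt_max_of_lt_right one_pos, fun t ht => ?_⟩
    obtain ⟨t', ht'⟩ := hR t (one_pos.trans_le ht)
    refine ⟨max r (t' + 1), fun γ A h1 h2 h3 => ?_⟩
    rcases ht' A (q γ) (h2.trans ((le_max_left _ _).trans h1)) h3 with h | h | h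
    · exact na1O_mono (le_max_left _ _) h
    · have := (le_max_right r (t' + 1)).trans h1
      linarith [h.1]
    · exact absurd h2 (not_le.2 h.2)
  · intro r
    obtain ⟨R, hR⟩ := hT.dom2 r
    refine ⟨max R 1, lt_max_of_lt_right one_pos, fun t ht => ?_⟩
    obtain ⟨t', ht'⟩ := hR t (one_pos.trans_le ht)
    refine ⟨max r (t' + 1), fun γ A h1 h2 h3 => ?_⟩
    rcases ht' A (q γ) (h2.trans ((le_max_left _ _).trans h1)) h3 with h | h | h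
    · exact na2O_mono (le_max_left _ _) h
    · have := (le_max_right r (t' + 1)).trans h1
      linarith [h.1]
    · exact absurd h2 (not_le.2 h.2)

end lt

end Vale.Agent.P092.H923.CLI
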