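import Vale.Agent.P092.H923.PI4
import Vale.Agent.P092.H899.T3
import Vale.Agent.P092.H486.EngI

/-!
P092, Team P, row [P-I1] (helper923), part 5: the count of (I1) for the cones of the engine
(helper486's `Ovl`).
-/

set_option linter.all false

namespace Vale.Agent.P092.H923.PI

open Vale.Agent.P092.SP4 (S4 LL on)
open Vale.Agent.P092.RC (YY)
open Vale.Agent.P092.H899.T (l1 l2 bpt bln nw1_iff nw2_iff att1_of att2_of CL CL_nonneg)
open Vale.Agent.P092.H486.Eng (Ovl)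

variable {k : Type} [NontriviallyNormedField k] [ProperSpace k] {Γ : Type} [Group Γ]
  {q : Γ → S4 k}

omit [ProperSpace k] [Group Γ] in
theorem na1_of {r T₀ : ℝ} (hT : 0 < T₀) {A : Set (YY k 3)} {γ : Γ}
    (h1 : Real.log T₀ ≤ l1 (q γ)) (h2 : l2 (q γ) ≤ r) (h3 : bpt (q γ) ∈ A) :
    γ ∈ SP.NA1 q (Real.exp (r / 2)) T₀ A := by
  refine ⟨(nw1_iff (Real.exp_pos _)).2 ?_, att1_of hT h1 h3⟩
  rw [Real.log_exp]
  linarith

omit [ProperSpace k] [Group Γ] in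
theorem na2_of {r T₀ : ℝ} (hT : 0 < T₀) {B : Set (LL k)} {γ : Γ}
    (h1 : Real.log (2 * CL * T₀) ≤ l2 (q γ)) (h2 : l1 (q γ) ≤ r) (h3 : bln (q γ) ∈ B) :
    γ ∈ SP.NA2 q (Real.exp r) T₀ B := by
  refine ⟨(nw2_iff (Real.exp_pos _)).2 ?_, att2_of hT h1 h3⟩
  rw [Real.log_exp]
  exact h2

/-- Point wall, then line wall. -/
theorem ovl12 (hq : SP.PH q) (hud : SP.UD q) {A : Set (YY k 3)} {B : Set (LL k)}
    (hA : IsClosed A) (hB : IsClosed B) (hAB : ∀ x ∈ A, ∀ l ∈ B, ¬ on x l) :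
    Ovl (fun γ => l1 (q γ)) (fun γ => l2 (q γ)) (fun γ => bpt (q γ))
      (fun γ => l2 (q γ)) (fun γ => l1 (q γ)) (fun γ => bln (q γ)) A B := by
  intro r
  obtain ⟨T₀, h1, N, H⟩ := cnt12 hq hud hA hB hAB (Real.exp (r / 2)) (Real.exp r)
  have hT : 0 < T₀ := one_pos.trans_le h1
  refine ⟨max (Real.log T₀) (Real.log (2 * CL * T₀)), N, fun ζ S hS => H T₀ le_rfl ζ S ?_⟩
  intro γ hγ
  obtain ⟨⟨a1, a2, a3⟩, b1, b2, b3⟩ := hS γ hγ
  exact ⟨na1_of hT ((le_max_left _ _).trans a1) a2 a3,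
    na2_of hT ((le_max_right _ _).trans b1) b2 b3⟩

/-- Line wall, then point wall. -/
theorem ovl21 (hq : SP.PH q) (hud : SP.UD q) {A : Set (YY k 3)} {B : Set (LL k)}
    (hA : IsClosed A) (hB : IsClosed B) (hAB : ∀ x ∈ A, ∀ l ∈ B, ¬ on x l) :
    Ovl (fun γ => l2 (q γ)) (fun γ => l1 (q γ)) (fun γ => bln (q γ))
      (fun γ => l1 (q γ)) (fun γ => l2 (q γ)) (fun γ => bpt (q γ)) B A := by
  intro r
  obtain ⟨T₀, h1, N, H⟩ := cnt21 hq hud hA hB hAB (Real.exp (r / 2)) (Real.exp r)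
  have hT : 0 < T₀ := one_pos.trans_le h1
  refine ⟨max (Real.log T₀) (Real.log (2 * CL * T₀)), N, fun ζ S hS => H T₀ le_rfl ζ S ?_⟩
  intro γ hγ
  obtain ⟨⟨a1, a2, a3⟩, b1, b2, b3⟩ := hS γ hγ
  exact ⟨na2_of hT ((le_max_right _ _).trans a1) a2 a3,
    na1_of hT ((le_max_left _ _).trans b1) b2 b3⟩

end Vale.Agent.P092.H923.PI
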