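import Mathlib

/-!
P092, Team P, row [P-I1] (helper923), part 1: the bounded overlap of near-wall elements with
non-incident attracting data (point wall against line wall), as a statement on matrices.
Any normed field, any dimension, any bilinear or sesquilinear form; no Cartan decomposition.
-/

namespace Vale.Agent.P092.H923.PI

open Matrix

variable {k : Type*} [NormedField k] {n : Type*} [Fintype n] [DecidableEq n]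

/-- The properties of the form which are used: `F` is additive in the first variable, linear in
the second one. -/
structure Frm (F : (n → k) →+ (n → k) →ₗ[k] k) (β : ℝ) : Prop where
  nn : 0 ≤ β
  sm : ∀ (a : k) (x y : n → k), ‖F (a • x) y‖ = ‖a‖ * ‖F x y‖
  bd : ∀ x y : n → k, ‖F x y‖ ≤ β * ‖x‖ * ‖y‖
  nd : ∀ (ε : ℝ) (w : n → k), 0 ≤ ε → (∀ j, ‖F (Pi.single j 1) w‖ ≤ ε) → ‖w‖ ≤ β * ε

/-- Invertible isometries. -/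
structure Is (F : (n → k) →+ (n → k) →ₗ[k] k) (g : Matrix n n k) : Prop where
  iso : ∀ x y, F (g *ᵥ x) (g *ᵥ y) = F x y
  sur : ∀ y, ∃ x, g *ᵥ x = y

/-- `g` is near the point wall, with attracting point `v`. -/
def PWall (T : ℝ) (v : n → k) (g : Matrix n n k) : Prop :=
  ∃ ψ : n → k, ∀ j, ‖g *ᵥ (Pi.single j 1) - ψ j • v‖ ≤ T

/-- `g` is near the line wall, with attracting line spanned by the frame `u`. -/
def LWall (F : (n → k) →+ (n → k) →ₗ[k] k) (T E : ℝ) (u : Fin 2 → n → k) (g : Matrix n n k) :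
    Prop :=
  (∀ j, ‖g *ᵥ (Pi.single j 1)‖ ≤ E) ∧ ∀ j l, ‖F (g *ᵥ (Pi.single j 1)) (u l)‖ ≤ T / E

theorem norm_single_le (j : n) : ‖(Pi.single j (1 : k) : n → k)‖ ≤ 1 := by
  rw [pi_norm_le_iff_of_nonneg zero_le_one]
  intro i
  by_cases h : i = j
  · subst h; simp
  · simp [h]

theorem mulVec_sum (g : Matrix n n k) (z : n → k) :
    g *ᵥ z = ∑ j, z j • (g *ᵥ (Pi.single j 1)) := by
  conv_lhs => rw [← Finset.univ_sum_single z]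
  rw [Matrix.mulVec_sum]
  refine Finset.sum_congr rfl fun j _ => ?_
  rw [← Matrix.mulVec_smul]
  congr 1
  ext i
  by_cases h : i = j
  · subst h; simp
  · simp [h]

omit [DecidableEq n] in
theorem sum_le {V : Type*} [SeminormedAddCommGroup V] (f : n → V) (z : n → k) {ε : ℝ}
    (hε : 0 ≤ ε) (h : ∀ j, ‖f j‖ ≤ ‖z j‖ * ε) :
    ‖∑ j, f j‖ ≤ Fintype.card n * (‖z‖ * ε) := by
  calc ‖∑ j, f j‖ ≤ ∑ _j : n, ‖z‖ * ε := by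
        refine norm_sum_le_of_le _ fun j _ => (h j).trans ?_
        exact mul_le_mul_of_nonneg_right (norm_le_pi_norm z j) hε
    _ = _ := by simp

theorem mulVec_le (g : Matrix n n k) {E : ℝ} (hE : 0 ≤ E)
    (h : ∀ j, ‖g *ᵥ (Pi.single j 1)‖ ≤ E) (z : n → k) :
    ‖g *ᵥ z‖ ≤ Fintype.card n * (‖z‖ * E) := by
  rw [mulVec_sum]
  refine sum_le _ z hE fun j => ?_
  rw [norm_smul]
  exact mul_le_mul_of_nonneg_left (h j) (norm_nonneg _)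

variable {F : (n → k) →+ (n → k) →ₗ[k] k} {β : ℝ}

theorem Frm.mulVec_le (hF : Frm F β) (g : Matrix n n k) {ε : ℝ} (hε : 0 ≤ ε) (u : n → k)
    (h : ∀ j, ‖F (g *ᵥ (Pi.single j 1)) u‖ ≤ ε) (z : n → k) :
    ‖F (g *ᵥ z) u‖ ≤ Fintype.card n * (‖z‖ * ε) := by
  rw [mulVec_sum, map_sum, LinearMap.sum_apply]
  refine sum_le _ z hε fun j => ?_
  rw [hF.sm]
  exact mul_le_mul_of_nonneg_left (h j) (norm_nonneg _)

theorem Frm.inv_le (hF : Frm F β) {g : Matrix n n k} (hg : Is F g) {ε : ℝ} (hε : 0 ≤ ε)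
    (w : n → k) (h : ∀ j, ‖F (g *ᵥ (Pi.single j 1)) (g *ᵥ w)‖ ≤ ε) : ‖w‖ ≤ β * ε := by
  refine hF.nd ε w hε fun j => ?_
  rw [← hg.iso]
  exact h j

/-- The inverse of a bounded isometry is bounded. -/
theorem Frm.bd_inv (hF : Frm F β) {g h : Matrix n n k} (hh : Is F h) {C : ℝ} (hC : 0 ≤ C)
    (hgh : ∀ x, h *ᵥ (g *ᵥ x) = x) (hb : ∀ x, ‖h *ᵥ x‖ ≤ C * ‖x‖) (x : n → k) :
    ‖g *ᵥ x‖ ≤ β * (β * C) * ‖x‖ := by
  have h0 := hF.nn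
  have h1 := hF.inv_le hh (ε := β * C * ‖x‖) (by positivity) (g *ᵥ x) fun j => by
    rw [hgh]
    refine (hF.bd _ _).trans ?_
    refine mul_le_mul_of_nonneg_right (mul_le_mul_of_nonneg_left ?_ h0) (norm_nonneg _)
    calc _ ≤ C * ‖(Pi.single j (1 : k) : n → k)‖ := hb _
      _ ≤ C * 1 := mul_le_mul_of_nonneg_left (norm_single_le j) hC
      _ = C := mul_one C
  calc _ ≤ _ := h1
    _ = _ := by ring

/-- The half `E₁ ≤ E₂` of the overlap. -/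
theorem core (hF : Frm F β) {T c δ : ℝ} (hT : 0 ≤ T) (hc : 0 < c) (hδ : 0 < δ) :
    ∃ C : ℝ, 0 ≤ C ∧ ∀ (k₁ k₂ k₁' k₂' g : Matrix n n k), Is F k₁ → Is F k₂ → Is F k₁' →
      Is F k₂' → Is F g → g * k₂ = k₁ → g * k₂' = k₁' →
      ∀ (v₁ v₂ : n → k) (u₁ u₂ : Fin 2 → n → k) (E₁ E₂ : ℝ), 0 < E₁ → E₁ ≤ E₂ →
      ‖v₁‖ ≤ 1 → ‖v₂‖ ≤ 1 → (∀ l, ‖u₁ l‖ ≤ 1) → (∀ l, ‖u₂ l‖ ≤ 1) →
      (∀ a b : k, c * max ‖a‖ ‖b‖ ≤ ‖a • u₂ 0 + b • u₂ 1‖) →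
      (∃ l, δ ≤ ‖F v₁ (u₁ l)‖) → (∃ l, δ ≤ ‖F v₂ (u₂ l)‖) →
      PWall T v₁ k₁ → PWall T v₂ k₂ → LWall F T E₁ u₁ k₁' → LWall F T E₂ u₂ k₂' →
      ∀ w, ‖g *ᵥ w‖ ≤ C * ‖w‖ := by
  have hβ := hF.nn
  obtain ⟨N, hN⟩ : ∃ N : ℝ, N = Fintype.card n := ⟨_, rfl⟩
  have hN0 : 0 ≤ N := by rw [hN]; positivity
  -- the constants
  obtain ⟨C₁, hC₁⟩ : ∃ C₁ : ℝ, C₁ = N * (β ^ 2 * T) * T * (1 + β / δ) +
      2 * N * β * T * (β / δ) := ⟨_, rfl⟩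
  have hC₁0 : 0 ≤ C₁ := by rw [hC₁]; positivity
  obtain ⟨D, hD⟩ : ∃ D : ℝ, D = β ^ 2 * C₁ * (2 * N * β * T) / c := ⟨_, rfl⟩
  have hD0 : 0 ≤ D := by rw [hD]; positivity
  refine ⟨(N * β ^ 2 * T * D + β * C₁) / δ + C₁, by positivity, ?_⟩
  intro k₁ k₂ k₁' k₂' g i₁ i₂ i₁' i₂' ig hg hg' v₁ v₂ u₁ u₂ E₁ E₂ hE₁ hE nv₁ nv₂ nu₁ nu₂ hu
    ⟨l₁, s₁⟩ ⟨l₂, s₂⟩ ⟨ψ₁, p₁⟩ ⟨ψ₂, p₂⟩ ⟨e₁, f₁⟩ ⟨e₂, f₂⟩
  have hE₂ : 0 < E₂ := hE₁.trans_le hE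
  have gk : ∀ z, g *ᵥ (k₂ *ᵥ z) = k₁ *ᵥ z := fun z => by rw [mulVec_mulVec, hg]
  have gk' : ∀ z, g *ᵥ (k₂' *ᵥ z) = k₁' *ᵥ z := fun z => by rw [mulVec_mulVec, hg']
  -- (i)
  have st1 : ∀ a b : k, ‖g *ᵥ (a • u₂ 0 + b • u₂ 1)‖ ≤
      2 * N * β * T * (E₁ / E₂) * max ‖a‖ ‖b‖ := by
    intro a b
    obtain ⟨z, hz⟩ := i₂'.sur (a • u₂ 0 + b • u₂ 1)
    have hm : 0 ≤ max ‖a‖ ‖b‖ := le_max_of_le_left (norm_nonneg _)
    have h1 : ‖z‖ ≤ β * (2 * max ‖a‖ ‖b‖ * (T / E₂)) := by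
      refine hF.inv_le i₂' (by positivity) z fun j => ?_
      rw [hz, map_add, LinearMap.map_smul, LinearMap.map_smul, smul_eq_mul, smul_eq_mul]
      have ht : 0 ≤ T / E₂ := by positivity
      calc _ ≤ ‖a * F (k₂' *ᵥ Pi.single j 1) (u₂ 0)‖ + ‖b * F (k₂' *ᵥ Pi.single j 1) (u₂ 1)‖ :=
            norm_add_le _ _
        _ ≤ max ‖a‖ ‖b‖ * (T / E₂) + max ‖a‖ ‖b‖ * (T / E₂) := by
            rw [norm_mul, norm_mul]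
            exact add_le_add
              (mul_le_mul (le_max_left _ _) (f₂ j 0) (norm_nonneg _) hm)
              (mul_le_mul (le_max_right _ _) (f₂ j 1) (norm_nonneg _) hm)
        _ = _ := by ring
    rw [← hz, gk']
    have h2 := mulVec_le k₁' hE₁.le e₁ z
    rw [← hN] at h2
    calc _ ≤ N * (‖z‖ * E₁) := h2
      _ ≤ N * (β * (2 * max ‖a‖ ‖b‖ * (T / E₂)) * E₁) := by gcongr
      _ = _ := by ring
  have hq : E₁ / E₂ ≤ 1 := (div_le_one hE₂).2 hE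
  -- (ii)
  have st2 : ∀ u, F v₂ u = 0 → ∃ t : k, ‖g *ᵥ u - t • v₁‖ ≤ N * (β ^ 2 * T) * T * ‖u‖ := by
    intro u hu0
    obtain ⟨z, hz⟩ := i₂.sur u
    have h1 : ‖z‖ ≤ β * (β * T * ‖u‖) := by
      refine hF.inv_le i₂ (by positivity) z fun j => ?_
      rw [hz]
      have e : k₂ *ᵥ Pi.single j 1 = ψ₂ j • v₂ + (k₂ *ᵥ Pi.single j 1 - ψ₂ j • v₂) := by abel
      rw [e, map_add, LinearMap.add_apply]
      have e2 : F (ψ₂ j • v₂) u = 0 := by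
        rw [← norm_eq_zero, hF.sm, hu0]; simp
      rw [e2, zero_add]
      refine (hF.bd _ _).trans ?_
      exact mul_le_mul_of_nonneg_right (mul_le_mul_of_nonneg_left (p₂ j) hβ) (norm_nonneg _)
    refine ⟨∑ j, z j * ψ₁ j, ?_⟩
    rw [← hz, gk, hz, mulVec_sum, Finset.sum_smul, ← Finset.sum_sub_distrib]
    have h2 : ‖∑ j, (z j • (k₁ *ᵥ Pi.single j 1) - (z j * ψ₁ j) • v₁)‖ ≤ N * (‖z‖ * T) := by
      rw [hN]
      refine sum_le _ z hT fun j => ?_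
      rw [mul_smul, ← smul_sub, norm_smul]
      exact mul_le_mul_of_nonneg_left (p₁ j) (norm_nonneg _)
    calc _ ≤ N * (‖z‖ * T) := h2
      _ ≤ N * (β * (β * T * ‖u‖) * T) := by gcongr
      _ = _ := by ring
  -- (iii)
  have st3 : ∀ w, ∃ t : k, ‖g *ᵥ w - t • v₁‖ ≤ C₁ * ‖w‖ := by
    intro w
    obtain ⟨a, ha⟩ : ∃ a : k, a = F v₂ w / F v₂ (u₂ l₂) := ⟨_, rfl⟩
    have hne : F v₂ (u₂ l₂) ≠ 0 := by
      rw [← norm_pos_iff]; exact hδ.trans_le s₂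
    have na : ‖a‖ ≤ β / δ * ‖w‖ := by
      rw [ha, norm_div, div_le_iff₀ (hδ.trans_le s₂)]
      have h1 := hF.bd v₂ w
      have h2 : β * ‖v₂‖ * ‖w‖ ≤ β * 1 * ‖w‖ := by gcongr
      have h3 : β / δ * ‖w‖ * δ ≤ β / δ * ‖w‖ * ‖F v₂ (u₂ l₂)‖ := by gcongr
      have h4 : β / δ * ‖w‖ * δ = β * ‖w‖ := by field_simp
      linarith
    have h0 : F v₂ (w - a • u₂ l₂) = 0 := by
      rw [map_sub, LinearMap.map_smul, smul_eq_mul, ha, div_mul_cancel₀ _ hne, sub_self]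
    obtain ⟨t, ht⟩ := st2 _ h0
    refine ⟨t, ?_⟩
    have nw : ‖w - a • u₂ l₂‖ ≤ (1 + β / δ) * ‖w‖ := by
      calc _ ≤ ‖w‖ + ‖a • u₂ l₂‖ := norm_sub_le _ _
        _ ≤ ‖w‖ + β / δ * ‖w‖ * 1 := by
            rw [norm_smul]
            have := nu₂ l₂
            gcongr
        _ = _ := by ring
    have ng : ‖g *ᵥ (a • u₂ l₂)‖ ≤ 2 * N * β * T * ‖a‖ := by
      have h2 : ∃ a' b' : k, a • u₂ l₂ = a' • u₂ 0 + b' • u₂ 1 ∧ max ‖a'‖ ‖b'‖ = ‖a‖ := by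
        fin_cases l₂
        · exact ⟨a, 0, by simp, by simp⟩
        · exact ⟨0, a, by simp, by simp⟩
      obtain ⟨a', b', e, hm⟩ := h2
      rw [e]
      refine (st1 a' b').trans ?_
      rw [hm]
      calc 2 * N * β * T * (E₁ / E₂) * ‖a‖ ≤ 2 * N * β * T * 1 * ‖a‖ := by gcongr
        _ = _ := by ring
    have e : g *ᵥ w - t • v₁ = (g *ᵥ (w - a • u₂ l₂) - t • v₁) + g *ᵥ (a • u₂ l₂) := by
      rw [Matrix.mulVec_sub]; abel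
    rw [e]
    calc _ ≤ ‖g *ᵥ (w - a • u₂ l₂) - t • v₁‖ + ‖g *ᵥ (a • u₂ l₂)‖ := norm_add_le _ _
      _ ≤ N * (β ^ 2 * T) * T * ((1 + β / δ) * ‖w‖) + 2 * N * β * T * (β / δ * ‖w‖) := by
          refine add_le_add (ht.trans ?_) (ng.trans ?_) <;> gcongr
      _ = _ := by rw [hC₁]; ring
  -- (iv)
  have st4 : E₂ / E₁ ≤ D := by
    obtain ⟨a, b, hab, h0⟩ : ∃ a b : k, 0 < max ‖a‖ ‖b‖ ∧
        F v₁ (g *ᵥ (a • u₂ 0 + b • u₂ 1)) = 0 := by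
      by_cases hp : F v₁ (g *ᵥ u₂ 0) = 0
      · refine ⟨1, 0, by simp, ?_⟩
        rw [one_smul, zero_smul, add_zero, hp]
      · refine ⟨F v₁ (g *ᵥ u₂ 1), -F v₁ (g *ᵥ u₂ 0), ?_, ?_⟩
        · refine lt_max_of_lt_right ?_
          rw [norm_neg]
          exact norm_pos_iff.2 hp
        · rw [Matrix.mulVec_add, Matrix.mulVec_smul, Matrix.mulVec_smul, map_add,
            LinearMap.map_smul, LinearMap.map_smul, smul_eq_mul, smul_eq_mul]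
          ring
    obtain ⟨u, hu'⟩ : ∃ u, u = a • u₂ 0 + b • u₂ 1 := ⟨_, rfl⟩
    rw [← hu'] at h0
    have h1 : ‖u‖ ≤ β * (β * C₁ * ‖g *ᵥ u‖) := by
      refine hF.inv_le ig (by positivity) u fun j => ?_
      obtain ⟨t, ht⟩ := st3 (Pi.single j 1)
      have e : g *ᵥ Pi.single j 1 = t • v₁ + (g *ᵥ Pi.single j 1 - t • v₁) := by abel
      rw [e, map_add, LinearMap.add_apply]
      have e2 : F (t • v₁) (g *ᵥ u) = 0 := by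
        rw [← norm_eq_zero, hF.sm, h0]; simp
      rw [e2, zero_add]
      refine (hF.bd _ _).trans ?_
      have h3 : ‖g *ᵥ Pi.single j 1 - t • v₁‖ ≤ C₁ := by
        refine ht.trans ?_
        calc C₁ * ‖(Pi.single j (1 : k) : n → k)‖ ≤ C₁ * 1 :=
              mul_le_mul_of_nonneg_left (norm_single_le j) hC₁0
          _ = C₁ := mul_one _
      exact mul_le_mul_of_nonneg_right (mul_le_mul_of_nonneg_left h3 hβ) (norm_nonneg _)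
    have h2 := hu a b
    have h3 := st1 a b
    rw [← hu'] at h2 h3
    have h4 : c * max ‖a‖ ‖b‖ ≤ β ^ 2 * C₁ * (2 * N * β * T * (E₁ / E₂)) * max ‖a‖ ‖b‖ := by
      calc _ ≤ ‖u‖ := h2
        _ ≤ β * (β * C₁ * ‖g *ᵥ u‖) := h1
        _ ≤ β * (β * C₁ * (2 * N * β * T * (E₁ / E₂) * max ‖a‖ ‖b‖)) := by gcongr
        _ = _ := by ring
    have h5 := le_of_mul_le_mul_right h4 hab
    rw [hD, div_le_div_iff₀ hE₁ hc]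
    have h6 : β ^ 2 * C₁ * (2 * N * β * T * (E₁ / E₂)) =
        β ^ 2 * C₁ * (2 * N * β * T) * E₁ / E₂ := by ring
    rw [h6, le_div_iff₀ hE₂] at h5
    linarith
  -- (v), (vi)
  intro w
  obtain ⟨z, hz⟩ := i₂'.sur w
  have h1 : ‖z‖ ≤ β * (β * E₂ * ‖w‖) := by
    refine hF.inv_le i₂' (by positivity) z fun j => ?_
    rw [hz]
    refine (hF.bd _ _).trans ?_
    exact mul_le_mul_of_nonneg_right (mul_le_mul_of_nonneg_left (e₂ j) hβ) (norm_nonneg _)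
  have h2 : ‖F (g *ᵥ w) (u₁ l₁)‖ ≤ N * β ^ 2 * T * D * ‖w‖ := by
    rw [← hz, gk', hz]
    have h3 := hF.mulVec_le k₁' (ε := T / E₁) (by positivity) (u₁ l₁) (fun j => f₁ j l₁) z
    rw [← hN] at h3
    calc _ ≤ N * (‖z‖ * (T / E₁)) := h3
      _ ≤ N * (β * (β * E₂ * ‖w‖) * (T / E₁)) := by gcongr
      _ = N * β ^ 2 * T * (E₂ / E₁) * ‖w‖ := by ring
      _ ≤ _ := by gcongr
  obtain ⟨t, ht⟩ := st3 w
  have h3 : ‖t‖ * δ ≤ (N * β ^ 2 * T * D + β * C₁) * ‖w‖ := by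
    have e : F (t • v₁) (u₁ l₁) = F (g *ᵥ w) (u₁ l₁) - F (g *ᵥ w - t • v₁) (u₁ l₁) := by
      rw [map_sub, LinearMap.sub_apply]; ring
    have h4 : ‖F (t • v₁) (u₁ l₁)‖ ≤ N * β ^ 2 * T * D * ‖w‖ + β * (C₁ * ‖w‖) * 1 := by
      rw [e]
      refine (norm_sub_le _ _).trans (add_le_add h2 ((hF.bd _ _).trans ?_))
      have := nu₁ l₁
      gcongr
    rw [hF.sm] at h4
    calc _ ≤ ‖t‖ * ‖F v₁ (u₁ l₁)‖ := by gcongr
      _ ≤ _ := h4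
      _ = _ := by ring
  have h5 : ‖t‖ ≤ (N * β ^ 2 * T * D + β * C₁) / δ * ‖w‖ := by
    rw [div_mul_eq_mul_div, le_div_iff₀ hδ]; exact h3
  calc ‖g *ᵥ w‖ = ‖t • v₁ + (g *ᵥ w - t • v₁)‖ := by congr 1; abel
    _ ≤ ‖t • v₁‖ + ‖g *ᵥ w - t • v₁‖ := norm_add_le _ _
    _ ≤ (N * β ^ 2 * T * D + β * C₁) / δ * ‖w‖ * 1 + C₁ * ‖w‖ := by
        rw [norm_smul]
        gcongr
    _ = _ := by ring

/-- **Bounded overlap**: if `k₁, k₂` are near the point wall, `k₁', k₂'` near the line wall, with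
non-incident attracting data, and `k₁ k₂⁻¹ = k₁' k₂'⁻¹ = g`, then `g` is bounded. -/
theorem ovl (hF : Frm F β) {T c δ : ℝ} (hT : 0 ≤ T) (hc : 0 < c) (hδ : 0 < δ) :
    ∃ C : ℝ, 0 ≤ C ∧ ∀ (k₁ k₂ k₁' k₂' g h : Matrix n n k), Is F k₁ → Is F k₂ → Is F k₁' →
      Is F k₂' → Is F g → Is F h → h * g = 1 → g * k₂ = k₁ → g * k₂' = k₁' →
      ∀ (v₁ v₂ : n → k) (u₁ u₂ : Fin 2 → n → k) (E₁ E₂ : ℝ), 0 < E₁ → 0 < E₂ →
      ‖v₁‖ ≤ 1 → ‖v₂‖ ≤ 1 → (∀ l, ‖u₁ l‖ ≤ 1) → (∀ l, ‖u₂ l‖ ≤ 1) →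
      (∀ a b : k, c * max ‖a‖ ‖b‖ ≤ ‖a • u₁ 0 + b • u₁ 1‖) →
      (∀ a b : k, c * max ‖a‖ ‖b‖ ≤ ‖a • u₂ 0 + b • u₂ 1‖) →
      (∃ l, δ ≤ ‖F v₁ (u₁ l)‖) → (∃ l, δ ≤ ‖F v₂ (u₂ l)‖) →
      PWall T v₁ k₁ → PWall T v₂ k₂ → LWall F T E₁ u₁ k₁' → LWall F T E₂ u₂ k₂' →
      ∀ w, ‖g *ᵥ w‖ ≤ C * ‖w‖ := by
  obtain ⟨C, hC, H⟩ := core hF (T := T) (c := c) (δ := δ) hT hc hδ
  have hβ := hF.nn
  refine ⟨C + β * (β * C), by positivity, ?_⟩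
  intro k₁ k₂ k₁' k₂' g h i₁ i₂ i₁' i₂' ig ih hgh hg hg' v₁ v₂ u₁ u₂ E₁ E₂ hE₁ hE₂ nv₁ nv₂ nu₁ nu₂
    hu₁ hu₂ s₁ s₂ p₁ p₂ l₁ l₂ w
  rcases le_total E₁ E₂ with hE | hE
  · have := H k₁ k₂ k₁' k₂' g i₁ i₂ i₁' i₂' ig hg hg' v₁ v₂ u₁ u₂ E₁ E₂ hE₁ hE nv₁ nv₂ nu₁ nu₂
      hu₂ s₁ s₂ p₁ p₂ l₁ l₂ w
    have h2 : 0 ≤ β * (β * C) * ‖w‖ := by positivity
    calc _ ≤ _ := this
      _ ≤ _ := by nlinarith
  · have e1 : h * k₁ = k₂ := by rw [← hg, ← Matrix.mul_assoc, hgh, Matrix.one_mul]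
    have e2 : h * k₁' = k₂' := by rw [← hg', ← Matrix.mul_assoc, hgh, Matrix.one_mul]
    have := hF.bd_inv ih hC (g := g) (fun x => by rw [mulVec_mulVec, hgh, one_mulVec])
      (H k₂ k₁ k₂' k₁' h i₂ i₁ i₂' i₁' ih e1 e2 v₂ v₁ u₂ u₁ E₂ E₁ hE₂ hE nv₂ nv₁ nu₂ nu₁
        hu₁ s₂ s₁ p₂ p₁ l₂ l₁) w
    have h2 : 0 ≤ C * ‖w‖ := by positivity
    calc _ ≤ _ := this
      _ ≤ _ := by nlinarith

end Vale.Agent.P092.H923.PI
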