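import Vale.Agent.P092.H923.PI1
import Vale.Agent.P092.H337.NGc
import Vale.Agent.P092.H644.Gr3

/-!
P092, Team P, row [P-I1] (helper923), part 2: near-wall elements with non-incident attracting data,
in the letters of helper337 (`en`, `m2`, pivot column) and helper100 (Grassmannians).
-/

set_option linter.unusedSectionVars false

namespace Vale.Agent.P092.H923.PI

open Matrix Topology
open scoped LinearAlgebra.Projectivization
open Vale.Agent.P092.H337.NG
open Vale.Agent.P092.H100.Gr (Gr Fr sp ch ch_mn ch_compact exists_ch li_of_mn sp_cont eq_of_le)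
open Vale.Agent.P092.H820 (pj pj_continuous)

variable {k : Type*} {n : ℕ}

/-! ### The form -/

section form

variable [NormedField k]

/-- `Σ σ(x_i) (J y)_i`. -/
noncomputable def bF (σ : k →+* k) (J : Matrix (Fin n) (Fin n) k) :
    (Fin n → k) →+ (Fin n → k) →ₗ[k] k where
  toFun x := Matrix.toBilin' J (fun i => σ (x i))
  map_zero' := by
    have : (fun i => σ ((0 : Fin n → k) i)) = 0 := by funext i; simp
    rw [this, map_zero]
  map_add' x y := by
    have : (fun i => σ ((x + y) i)) = (fun i => σ (x i)) + fun i => σ (y i) := by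
      funext i; simp
    rw [this, map_add]

theorem bF_apply (σ : k →+* k) (J : Matrix (Fin n) (Fin n) k) (x y : Fin n → k) :
    bF σ J x y = (fun i => σ (x i)) ⬝ᵥ (J *ᵥ y) := Matrix.toBilin'_apply' _ _ _

theorem bF_single (σ : k →+* k) (J : Matrix (Fin n) (Fin n) k) (j : Fin n) (y : Fin n → k) :
    bF σ J (Pi.single j 1) y = (J *ᵥ y) j := by
  rw [bF_apply]
  have : (fun i => σ ((Pi.single j 1 : Fin n → k) i)) = Pi.single j 1 := by
    funext i
    by_cases h : i = j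
    · subst h; simp
    · simp [h]
  rw [this, single_one_dotProduct]

theorem norm_dot_le (x y : Fin n → k) : ‖x ⬝ᵥ y‖ ≤ n * (‖x‖ * ‖y‖) := by
  calc ‖∑ i, x i * y i‖ ≤ ∑ _i : Fin n, ‖x‖ * ‖y‖ := by
        refine norm_sum_le_of_le _ fun i _ => ?_
        rw [norm_mul]
        exact mul_le_mul (norm_le_pi_norm x i) (norm_le_pi_norm y i) (norm_nonneg _)
          (norm_nonneg _)
    _ = _ := by simp

theorem frm_bF (σ : k →+* k) (hσ : ∀ x, ‖σ x‖ = ‖x‖) {J J' : Matrix (Fin n) (Fin n) k}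
    (hJ : J' * J = 1) : ∃ β : ℝ, Frm (bF σ J) β := by
  have h0 := en_nonneg J
  have h1 := en_nonneg J'
  have hn : (0 : ℝ) ≤ n := Nat.cast_nonneg n
  have hs : ∀ x : Fin n → k, ‖(fun i => σ (x i))‖ = ‖x‖ := fun x => by
    refine le_antisymm ?_ ?_
    · rw [pi_norm_le_iff_of_nonneg (norm_nonneg _)]
      intro i
      rw [hσ]
      exact norm_le_pi_norm x i
    · rw [pi_norm_le_iff_of_nonneg (norm_nonneg _)]
      intro i
      rw [← hσ]
      exact norm_le_pi_norm (fun i => σ (x i)) i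
  refine ⟨n * (n * en J) + n * en J', by positivity, fun a x y => ?_, fun x y => ?_,
    fun ε w hε h => ?_⟩
  · rw [bF_apply, bF_apply]
    have : (fun i => σ ((a • x) i)) = σ a • fun i => σ (x i) := by
      funext i; simp
    rw [this, smul_dotProduct, smul_eq_mul, norm_mul, hσ]
  · rw [bF_apply]
    have h2 := norm_dot_le (fun i => σ (x i)) (J *ᵥ y)
    rw [hs] at h2
    have h3 := norm_mulVec_le J y
    calc _ ≤ _ := h2
      _ ≤ n * (‖x‖ * (n * (en J * ‖y‖))) := by gcongr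
      _ = n * (n * en J) * ‖x‖ * ‖y‖ := by ring
      _ ≤ _ := by gcongr; linarith [mul_nonneg hn h1]
  · have h2 : ‖J *ᵥ w‖ ≤ ε := by
      rw [pi_norm_le_iff_of_nonneg hε]
      intro j
      rw [← bF_single σ J]
      exact h j
    have h3 := norm_mulVec_le J' (J *ᵥ w)
    rw [mulVec_mulVec, hJ, one_mulVec] at h3
    calc _ ≤ _ := h3
      _ ≤ n * (en J' * ε) := by gcongr
      _ = n * en J' * ε := by ring
      _ ≤ _ := by gcongr; linarith [mul_nonneg hn (mul_nonneg hn h0)]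

/-- `g` is an isometry of the form (columns). -/
def Iso (σ : k →+* k) (J : Matrix (Fin n) (Fin n) k) (g : SLn k n) : Prop :=
  (g.1.map σ)ᵀ * J * g.1 = J

theorem Iso.app {σ : k →+* k} {J : Matrix (Fin n) (Fin n) k} {g : SLn k n} (hg : Iso σ J g)
    (x y : Fin n → k) : bF σ J (g.1 *ᵥ x) (g.1 *ᵥ y) = bF σ J x y := by
  rw [bF_apply, bF_apply]
  have e : (fun i => σ ((g.1 *ᵥ x) i)) = (g.1.map σ) *ᵥ fun i => σ (x i) := by
    funext i
    simp [Matrix.mulVec, dotProduct]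
  conv_rhs => rw [← hg]
  rw [e, ← mulVec_mulVec, ← mulVec_mulVec, Matrix.dotProduct_mulVec (fun i => σ (x i)),
    Matrix.vecMul_transpose]

theorem Iso.is {σ : k →+* k} {J : Matrix (Fin n) (Fin n) k} {g : SLn k n} (hg : Iso σ J g) :
    Is (bF σ J) g.1 :=
  ⟨hg.app, fun y => ⟨(g⁻¹).1 *ᵥ y, by rw [mulVec_mulVec, coe_mul_inv, one_mulVec]⟩⟩

theorem Iso.mul {σ : k →+* k} {J : Matrix (Fin n) (Fin n) k} {g h : SLn k n} (hg : Iso σ J g)
    (hh : Iso σ J h) : Iso σ J (g * h) := by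
  unfold Iso at *
  rw [coe_mul', Matrix.map_mul, Matrix.transpose_mul]
  calc _ = (h.1.map σ)ᵀ * ((g.1.map σ)ᵀ * J * g.1) * h.1 := by simp only [Matrix.mul_assoc]
    _ = J := by rw [hg, hh]

theorem Iso.inv {σ : k →+* k} {J : Matrix (Fin n) (Fin n) k} {g : SLn k n} (hg : Iso σ J g) :
    Iso σ J g⁻¹ := by
  unfold Iso at *
  have h1 := coe_mul_inv g
  have h2 : ((g⁻¹).1.map σ)ᵀ * (g.1.map σ)ᵀ = 1 := by
    rw [← Matrix.transpose_mul, ← Matrix.map_mul, h1, Matrix.map_one _ (map_zero σ) (map_one σ),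
      Matrix.transpose_one]
  calc ((g⁻¹).1.map σ)ᵀ * J * (g⁻¹).1 = ((g⁻¹).1.map σ)ᵀ * ((g.1.map σ)ᵀ * J * g.1) * (g⁻¹).1 := by
        rw [hg]
    _ = (((g⁻¹).1.map σ)ᵀ * (g.1.map σ)ᵀ) * J * (g.1 * (g⁻¹).1) := by
        simp only [Matrix.mul_assoc]
    _ = J := by rw [h1, h2, Matrix.one_mul, Matrix.mul_one]

end form

/-! ### The two walls -/

section walls

variable [NormedField k] [NeZero n]

/-- The pivot entry. -/
noncomputable def pe (g : SLn k n) : k := g.1 (piv g).1 (piv g).2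

theorem norm_pe (g : SLn k n) : ‖pe g‖ = en g.1 := norm_piv g

theorem pe_ne (g : SLn k n) : pe g ≠ 0 := piv_ne g

/-- The attracting vector. -/
noncomputable def av (g : SLn k n) : Fin n → k := (pe g)⁻¹ • vc g

theorem norm_av (g : SLn k n) : ‖av g‖ = 1 := by
  unfold av
  rw [norm_smul, norm_inv, norm_pe, norm_vc, inv_mul_cancel₀ (en_pos' g).ne']

theorem pwall {R : ℝ} (g : SLn k n) (h : m2 g.1 ≤ R * en g.1) : PWall R (av g) g.1 := by
  have hR : m2 g.1 / en g.1 ≤ R := by rw [div_le_iff₀ (en_pos' g)]; exact h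
  refine ⟨pe g • ph g, fun j => ?_⟩
  have hR0 : 0 ≤ R := (div_nonneg (m2_nonneg _) (en_nonneg _)).trans hR
  rw [pi_norm_le_iff_of_nonneg hR0]
  intro i
  refine le_trans (le_of_eq ?_) ((rm_entry_le g i j).trans hR)
  congr 1
  rw [Pi.sub_apply, mulVec_single_one]
  unfold av
  simp only [Pi.smul_apply, smul_eq_mul, Matrix.col_apply]
  have := pe_ne g
  field_simp

/-- A column divided by the pivot. -/
noncomputable def cl (g : SLn k n) (j : Fin n) : Fin n → k := (pe g)⁻¹ • fun i => g.1 i j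

theorem norm_cl_le (g : SLn k n) (j : Fin n) : ‖cl g j‖ ≤ 1 := by
  unfold cl
  rw [norm_smul, norm_inv, norm_pe, inv_mul_le_iff₀ (en_pos' g), mul_one,
    pi_norm_le_iff_of_nonneg (en_nonneg _)]
  exact fun i => entry_le _ _ _

theorem lwall {σ : k →+* k} {J : Matrix (Fin n) (Fin n) k} {g : SLn k n} (hg : Iso σ J g)
    (j₀ : Fin 2 → Fin n) : LWall (bF σ J) (en J) (en g.1) (fun l => cl g (j₀ l)) g.1 := by
  refine ⟨fun j => ?_, fun j l => ?_⟩
  · rw [pi_norm_le_iff_of_nonneg (en_nonneg _)]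
    intro i
    rw [mulVec_single_one]
    exact entry_le g.1 i j
  · change ‖bF σ J (g.1 *ᵥ Pi.single j 1) (cl g (j₀ l))‖ ≤ _
    have e : cl g (j₀ l) = (pe g)⁻¹ • (g.1 *ᵥ Pi.single (j₀ l) 1) := by
      unfold cl
      rw [mulVec_single_one]
      rfl
    rw [e, LinearMap.map_smul, smul_eq_mul, norm_mul, norm_inv, norm_pe, hg.app, bF_single,
      mulVec_single_one, inv_mul_eq_div]
    exact div_le_div_of_nonneg_right (entry_le J j (j₀ l)) (en_nonneg _)

theorem exists_mi (A : Matrix (Fin n) (Fin n) k) : ∃ i i' j j', ‖mi A i i' j j'‖ = m2 A := by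
  by_contra hc
  push Not at hc
  have hlt : ∀ i i' j j', ‖mi A i i' j j'‖ < m2 A := fun i i' j j' =>
    lt_of_le_of_ne (mi_le A i i' j j') (hc i i' j j')
  have h0 : 0 < m2 A := lt_of_le_of_lt (norm_nonneg _) (hlt 0 0 0 0)
  have h1 : m2 A < m2 A := by
    conv_lhs => unfold m2
    rw [pi_norm_lt_iff h0]
    intro i
    rw [pi_norm_lt_iff h0]
    intro i'
    rw [pi_norm_lt_iff h0]
    intro j
    rw [pi_norm_lt_iff h0]
    exact hlt i i' j
  exact lt_irrefl _ h1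

theorem frame_low {R : ℝ} (hR : 0 < R) (g : SLn k n) (h : en g.1 ^ 2 ≤ R * m2 g.1) :
    ∃ j₀ : Fin 2 → Fin n, ∀ a b : k, (2 * R)⁻¹ * max ‖a‖ ‖b‖ ≤
      ‖a • cl g (j₀ 0) + b • cl g (j₀ 1)‖ := by
  obtain ⟨i, i', j, j', hm⟩ := exists_mi g.1
  refine ⟨![j, j'], fun a b => ?_⟩
  simp only [Matrix.cons_val_zero, Matrix.cons_val_one]
  obtain ⟨x, hx⟩ : ∃ x, x = a • cl g j + b • cl g j' := ⟨_, rfl⟩
  rw [← hx]
  have hen := en_pos' g
  have hpe := pe_ne g
  have hxi : ∀ i, x i * pe g = a * g.1 i j + b * g.1 i j' := by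
    intro i
    rw [hx]
    unfold cl
    simp only [Pi.add_apply, Pi.smul_apply, smul_eq_mul]
    field_simp
  have e1 : a * mi g.1 i i' j j' = (x i * g.1 i' j' - x i' * g.1 i j') * pe g := by
    unfold mi
    linear_combination (-g.1 i' j') * hxi i + g.1 i j' * hxi i'
  have e2 : b * mi g.1 i i' j j' = (x i' * g.1 i j - x i * g.1 i' j) * pe g := by
    unfold mi
    linear_combination (-g.1 i j) * hxi i' + g.1 i' j * hxi i
  have hb : ∀ p q r s : k, ‖r‖ ≤ en g.1 → ‖s‖ ≤ en g.1 → ‖p‖ ≤ ‖x‖ → ‖q‖ ≤ ‖x‖ →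
      ‖(p * r - q * s) * pe g‖ ≤ 2 * ‖x‖ * en g.1 ^ 2 := by
    intro p q r s h1 h2 h3 h4
    rw [norm_mul, norm_pe]
    have h5 : ‖p * r - q * s‖ ≤ 2 * ‖x‖ * en g.1 := by
      calc _ ≤ ‖p * r‖ + ‖q * s‖ := norm_sub_le _ _
        _ ≤ ‖x‖ * en g.1 + ‖x‖ * en g.1 := by
            rw [norm_mul, norm_mul]
            gcongr
        _ = _ := by ring
    calc _ ≤ 2 * ‖x‖ * en g.1 * en g.1 := mul_le_mul_of_nonneg_right h5 hen.le
      _ = _ := by ring
  have hfin : ∀ c : k, ‖c * mi g.1 i i' j j'‖ ≤ 2 * ‖x‖ * en g.1 ^ 2 → ‖c‖ ≤ 2 * R * ‖x‖ := by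
    intro c hc
    rw [norm_mul, hm] at hc
    have h2 : ‖c‖ * m2 g.1 ≤ 2 * R * ‖x‖ * m2 g.1 := by
      calc _ ≤ 2 * ‖x‖ * en g.1 ^ 2 := hc
        _ ≤ 2 * ‖x‖ * (R * m2 g.1) := by gcongr
        _ = _ := by ring
    have h3 : 0 < m2 g.1 := by
      by_contra h4
      push Not at h4
      have h5 : 0 < en g.1 ^ 2 := by positivity
      have h6 : R * m2 g.1 ≤ 0 := mul_nonpos_of_nonneg_of_nonpos hR.le h4
      linarith
    exact le_of_mul_le_mul_right h2 h3
  rw [inv_mul_le_iff₀ (by positivity), max_le_iff]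
  constructor
  · refine hfin a ?_
    rw [e1]
    exact hb _ _ _ _ (entry_le _ _ _) (entry_le _ _ _) (norm_le_pi_norm x i)
      (norm_le_pi_norm x i')
  · refine hfin b ?_
    rw [e2]
    exact hb _ _ _ _ (entry_le _ _ _) (entry_le _ _ _) (norm_le_pi_norm x i')
      (norm_le_pi_norm x i)

end walls

end Vale.Agent.P092.H923.PI
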