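import Vale.Agent.P092.H923.PI2

/-!
P092, Team P, row [P-I1] (helper923), part 3: the separation of closed non-incident sets of points
and lines, the bound for near-wall elements with non-incident attracting data, and the count.
-/

set_option linter.unusedSectionVars false

namespace Vale.Agent.P092.H923.PI

open Matrix Topology
open scoped LinearAlgebra.Projectivization
open Vale.Agent.P092.H337.NG
open Vale.Agent.P092.H100.Gr (Gr Fr sp ch ch_mn ch_compact exists_ch li_of_mn sp_cont eq_of_le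
  fr_val_cont)
open Vale.Agent.P092.H820 (pj pj_continuous)

section sep

variable {k : Type*} [NontriviallyNormedField k] [ProperSpace k] {n : ℕ}

theorem chF_compact (I : Fin 2 → Fin n) :
    IsCompact {v : Fr k (Fin n) 2 | v.1 ∈ ch (k := k) I} := by
  have h1 : IsEmbedding (fun v : Fr k (Fin n) 2 => v.1) := IsEmbedding.subtypeVal
  rw [h1.isCompact_iff]
  have e : (fun v : Fr k (Fin n) 2 => v.1) '' {v : Fr k (Fin n) 2 | v.1 ∈ ch (k := k) I} =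
      ch (k := k) I := by
    ext v
    constructor
    · rintro ⟨w, hw, rfl⟩
      exact hw
    · intro hv
      exact ⟨⟨v, li_of_mn (I := I) (by rw [ch_mn hv]; exact one_ne_zero)⟩, hv, rfl⟩
  rw [e]
  exact ch_compact I

theorem sph_compact : IsCompact {x : {v : Fin n → k // v ≠ 0} | ‖x.1‖ = 1} := by
  rw [IsEmbedding.subtypeVal.isCompact_iff]
  have e : Subtype.val '' {x : {v : Fin n → k // v ≠ 0} | ‖x.1‖ = 1} =
      Metric.sphere (0 : Fin n → k) 1 := by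
    ext v
    constructor
    · rintro ⟨w, hw, rfl⟩
      exact mem_sphere_zero_iff_norm.2 hw
    · intro hv
      rw [mem_sphere_zero_iff_norm] at hv
      refine ⟨⟨v, ?_⟩, hv, rfl⟩
      rw [← norm_pos_iff, hv]
      exact one_pos
  rw [e]
  exact isCompact_sphere _ _

/-- Two vectors with a lower bound span the plane in which they are. -/
theorem span_of_low {X : Gr k (Fin n) 2} {c : ℝ} (hc : 0 < c) {u : Fin 2 → Fin n → k}
    (hu : ∀ l, u l ∈ X.1) (hl : ∀ a b : k, c * max ‖a‖ ‖b‖ ≤ ‖a • u 0 + b • u 1‖)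
    {x : Fin n → k} (hx : x ∈ X.1) : ∃ a b : k, x = a • u 0 + b • u 1 := by
  have hli : LinearIndependent k u := by
    rw [Fintype.linearIndependent_iff]
    intro f hf
    rw [Fin.sum_univ_two] at hf
    have h1 := hl (f 0) (f 1)
    rw [hf, norm_zero] at h1
    have h2 : max ‖f 0‖ ‖f 1‖ ≤ 0 := by
      by_contra h3
      push Not at h3
      have := mul_pos hc h3
      linarith
    intro i
    fin_cases i
    · exact norm_le_zero_iff.1 ((le_max_left _ _).trans h2)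
    · exact norm_le_zero_iff.1 ((le_max_right _ _).trans h2)
  have h1 : (sp ⟨u, hli⟩ : Gr k (Fin n) 2) = X := by
    refine eq_of_le ?_
    change Submodule.span k (Set.range u) ≤ X.1
    rw [Submodule.span_le]
    rintro _ ⟨l, rfl⟩
    exact hu l
  rw [← h1] at hx
  change x ∈ Submodule.span k (Set.range u) at hx
  rw [Submodule.mem_span_range_iff_exists_fun] at hx
  obtain ⟨f, hf⟩ := hx
  rw [Fin.sum_univ_two] at hf
  exact ⟨f 0, f 1, hf.symm⟩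

/-- the size of the form on a vector and a frame -/
noncomputable def phi (σ : k →+* k) (J : Matrix (Fin n) (Fin n) k)
    (p : {v : Fin n → k // v ≠ 0} × Fr k (Fin n) 2) : ℝ :=
  max ‖bF σ J p.1.1 (p.2.1 0)‖ ‖bF σ J p.1.1 (p.2.1 1)‖

theorem phi_cont {σ : k →+* k} (hσ : ∀ x, ‖σ x‖ = ‖x‖) (J : Matrix (Fin n) (Fin n) k) :
    Continuous (phi (k := k) σ J) := by
  have h2 : Continuous fun p : {v : Fin n → k // v ≠ 0} × Fr k (Fin n) 2 => p.2.1 :=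
    fr_val_cont.comp continuous_snd
  have h3 : Continuous fun p : {v : Fin n → k // v ≠ 0} × Fr k (Fin n) 2 => p.1.1 :=
    continuous_subtype_val.comp continuous_fst
  have h0 : ∀ l : Fin 2, Continuous fun p : {v : Fin n → k // v ≠ 0} × Fr k (Fin n) 2 =>
      bF σ J p.1.1 (p.2.1 l) := by
    intro l
    have h4 : Continuous fun p : {v : Fin n → k // v ≠ 0} × Fr k (Fin n) 2 => p.2.1 l :=
      continuous_pi_iff.1 h2 l
    have h1 : Continuous σ := (AddMonoidHomClass.isometry_of_norm σ hσ).continuous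
    have h5 : Continuous fun p : {v : Fin n → k // v ≠ 0} × Fr k (Fin n) 2 =>
        (fun i => σ (p.1.1 i)) ⬝ᵥ (J *ᵥ p.2.1 l) :=
      Continuous.dotProduct (continuous_pi fun i => h1.comp (continuous_pi_iff.1 h3 i))
        (Continuous.matrix_mulVec continuous_const h4)
    exact h5.congr fun p => (bF_apply σ J p.1.1 (p.2.1 l)).symm
  have h6 := (h0 0).norm
  have h7 := (h0 1).norm
  exact h6.max h7

/-- the compact set of the chart `I` -/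
def KI (A : Set (ℙ k (Fin n → k))) (B : Set (Gr k (Fin n) 2)) (I : Fin 2 → Fin n) :
    Set ({v : Fin n → k // v ≠ 0} × Fr k (Fin n) 2) :=
  ({x : {v : Fin n → k // v ≠ 0} | ‖x.1‖ = 1} ×ˢ {v : Fr k (Fin n) 2 | v.1 ∈ ch (k := k) I}) ∩
    ((fun p : {v : Fin n → k // v ≠ 0} × Fr k (Fin n) 2 => (pj k (Fin n) p.1, sp p.2)) ⁻¹'
      (A ×ˢ B))

theorem KI_compact {A : Set (ℙ k (Fin n → k))} {B : Set (Gr k (Fin n) 2)}
    (hA : IsClosed A) (hB : IsClosed B) (I : Fin 2 → Fin n) : IsCompact (KI A B I) := by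
  refine (sph_compact.prod (chF_compact I)).inter_right ?_
  refine (hA.prod hB).preimage ?_
  exact (pj_continuous.comp continuous_fst).prodMk (sp_cont.comp continuous_snd)

/-- A vector of the span of a frame. -/
theorem mem_sp {f : Fr k (Fin n) 2} {y : Fin n → k} (hy : y ∈ (sp f).1) :
    ∃ a b : k, y = a • f.1 0 + b • f.1 1 := by
  have h : y ∈ Submodule.span k (Set.range f.1) := hy
  obtain ⟨g, hg⟩ := (Submodule.mem_span_range_iff_exists_fun k).1 h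
  rw [Fin.sum_univ_two] at hg
  exact ⟨g 0, g 1, hg.symm⟩

theorem phi_pos' {σ : k →+* k} (J : Matrix (Fin n) (Fin n) k) (x : {v : Fin n → k // v ≠ 0})
    (f : Fr k (Fin n) 2) (h : ∃ y ∈ (sp f).1, bF σ J x.1 y ≠ 0) : 0 < phi σ J (x, f) := by
  obtain ⟨y, hy, hne⟩ := h
  obtain ⟨a, b, hab⟩ := mem_sp hy
  by_contra hle
  have hle' : max ‖bF σ J x.1 (f.1 0)‖ ‖bF σ J x.1 (f.1 1)‖ ≤ 0 := not_lt.1 hle
  have a0 : bF σ J x.1 (f.1 0) = 0 := norm_le_zero_iff.1 ((le_max_left _ _).trans hle')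
  have a1 : bF σ J x.1 (f.1 1) = 0 := norm_le_zero_iff.1 ((le_max_right _ _).trans hle')
  apply hne
  rw [hab, map_add, LinearMap.map_smul, LinearMap.map_smul, a0, a1, smul_zero, smul_zero,
    add_zero]

theorem phi_pos {σ : k →+* k} (J : Matrix (Fin n) (Fin n) k)
    {A : Set (ℙ k (Fin n → k))} {B : Set (Gr k (Fin n) 2)}
    (hAB : ∀ (v : Fin n → k) (hv : v ≠ 0), Projectivization.mk k v hv ∈ A → ∀ X ∈ B,
      ∃ y ∈ X.1, bF σ J v y ≠ 0) {I : Fin 2 → Fin n}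
    {p : {v : Fin n → k // v ≠ 0} × Fr k (Fin n) 2} (hp : p ∈ KI A B I) : 0 < phi σ J p := by
  obtain ⟨x, f⟩ := p
  have h3 : pj k (Fin n) x ∈ A := hp.2.1
  have h4 : sp f ∈ B := hp.2.2
  exact phi_pos' J x f (hAB x.1 x.2 h3 (sp f) h4)

theorem sepI {σ : k →+* k} (hσ : ∀ x, ‖σ x‖ = ‖x‖) (J : Matrix (Fin n) (Fin n) k)
    {A : Set (ℙ k (Fin n → k))} {B : Set (Gr k (Fin n) 2)}
    (hA : IsClosed A) (hB : IsClosed B)
    (hAB : ∀ (v : Fin n → k) (hv : v ≠ 0), Projectivization.mk k v hv ∈ A → ∀ X ∈ B,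
      ∃ y ∈ X.1, bF σ J v y ≠ 0) (I : Fin 2 → Fin n) :
    ∃ δ : ℝ, 0 < δ ∧ ∀ p ∈ KI A B I, δ ≤ phi σ J p := by
  rcases Set.eq_empty_or_nonempty (KI A B I) with h | h
  · refine ⟨1, one_pos, fun p hp => ?_⟩
    rw [h] at hp
    exact absurd hp (by simp)
  · obtain ⟨p0, hp0, hp⟩ := (KI_compact hA hB I).exists_isMinOn h (phi_cont hσ J).continuousOn
    exact ⟨_, phi_pos J hAB hp0, fun p hq => hp hq⟩

theorem sep {σ : k →+* k} (hσ : ∀ x, ‖σ x‖ = ‖x‖) (J : Matrix (Fin n) (Fin n) k) {β : ℝ}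
    (hF : Frm (bF σ J) β) {A : Set (ℙ k (Fin n → k))} {B : Set (Gr k (Fin n) 2)}
    (hA : IsClosed A) (hB : IsClosed B)
    (hAB : ∀ (v : Fin n → k) (hv : v ≠ 0), Projectivization.mk k v hv ∈ A → ∀ X ∈ B,
      ∃ y ∈ X.1, bF σ J v y ≠ 0) :
    ∃ δ : ℝ, 0 < δ ∧ ∀ (v : Fin n → k) (hv : v ≠ 0), Projectivization.mk k v hv ∈ A → ∀ X ∈ B,
      ∀ c : ℝ, 0 < c → ∀ u : Fin 2 → Fin n → k, (∀ l, u l ∈ X.1) →
      (∀ a b : k, c * max ‖a‖ ‖b‖ ≤ ‖a • u 0 + b • u 1‖) → ∃ l, c * δ * ‖v‖ ≤ ‖bF σ J v (u l)‖ := by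
  have key := sepI hσ J hA hB hAB
  choose δ hδ H using key
  obtain ⟨d, hd, hd'⟩ : ∃ d : ℝ, 0 < d ∧ ∀ I, d ≤ δ I := by
    by_cases hne : Nonempty (Fin 2 → Fin n)
    · obtain ⟨I, hI⟩ := Finite.exists_min δ
      exact ⟨δ I, hδ I, hI⟩
    · exact ⟨1, one_pos, fun I => absurd ⟨I⟩ hne⟩
  refine ⟨d / 2, by positivity, fun v hv hvA X hX c hc u hu hl => ?_⟩
  obtain ⟨i, hi⟩ := exists_norm_eq hv
  have hvi : v i ≠ 0 := by
    rw [← norm_pos_iff, hi]; exact norm_pos_iff.2 hv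
  have hx0 : (v i)⁻¹ • v ≠ 0 := smul_ne_zero (inv_ne_zero hvi) hv
  have hxn : ‖(v i)⁻¹ • v‖ = 1 := by
    rw [norm_smul, norm_inv, hi, inv_mul_cancel₀ (norm_pos_iff.2 hv).ne']
  have hxA : pj k (Fin n) ⟨(v i)⁻¹ • v, hx0⟩ ∈ A := by
    have : pj k (Fin n) ⟨(v i)⁻¹ • v, hx0⟩ = Projectivization.mk k v hv := by
      rw [show pj k (Fin n) ⟨(v i)⁻¹ • v, hx0⟩ = Projectivization.mk k _ hx0 from rfl,
        Projectivization.mk_eq_mk_iff']
      exact ⟨(v i)⁻¹, rfl⟩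
    rw [this]
    exact hvA
  obtain ⟨I, f, hf1, hf2⟩ := exists_ch X
  have hmem : ((⟨(v i)⁻¹ • v, hx0⟩, f) : {v : Fin n → k // v ≠ 0} × Fr k (Fin n) 2) ∈ KI A B I := by
    refine ⟨⟨hxn, hf1⟩, hxA, ?_⟩
    change sp f ∈ B
    rw [hf2]
    exact hX
  have h1 := (hd' I).trans (H I _ hmem)
  have hfl : ∀ l, ‖f.1 l‖ ≤ 1 := fun l => by
    rw [pi_norm_le_iff_of_nonneg zero_le_one]
    exact hf1.2 l
  have hfX : ∀ l, f.1 l ∈ X.1 := fun l => by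
    rw [← hf2]
    exact Submodule.subset_span ⟨l, rfl⟩
  by_contra hcon
  push Not at hcon
  have hvn : 0 < ‖v‖ := norm_pos_iff.2 hv
  have h2 : ∀ l, ‖bF σ J ((v i)⁻¹ • v) (f.1 l)‖ < d := by
    intro l
    obtain ⟨a, b, hab⟩ := span_of_low hc hu hl (hfX l)
    have h3 := hl a b
    rw [← hab] at h3
    have h4 : c * max ‖a‖ ‖b‖ ≤ 1 := h3.trans (hfl l)
    rw [hF.sm, hab, map_add, LinearMap.map_smul, LinearMap.map_smul, smul_eq_mul, smul_eq_mul,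
      norm_inv, hi]
    have h5 : ‖a * bF σ J v (u 0) + b * bF σ J v (u 1)‖ < ‖v‖ * d := by
      by_cases hm : max ‖a‖ ‖b‖ = 0
      · have ha : a = 0 := norm_le_zero_iff.1 (hm ▸ le_max_left _ _)
        have hb : b = 0 := norm_le_zero_iff.1 (hm ▸ le_max_right _ _)
        rw [ha, hb]
        simp only [zero_mul, add_zero, norm_zero]
        positivity
      · have hm' : 0 < max ‖a‖ ‖b‖ := lt_of_le_of_ne (le_max_of_le_left (norm_nonneg _))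
          (Ne.symm hm)
        calc _ ≤ ‖a * bF σ J v (u 0)‖ + ‖b * bF σ J v (u 1)‖ := norm_add_le _ _
          _ ≤ max ‖a‖ ‖b‖ * ‖bF σ J v (u 0)‖ + max ‖a‖ ‖b‖ * ‖bF σ J v (u 1)‖ := by
              rw [norm_mul, norm_mul]
              exact add_le_add
                (mul_le_mul_of_nonneg_right (le_max_left _ _) (norm_nonneg _))
                (mul_le_mul_of_nonneg_right (le_max_right _ _) (norm_nonneg _))
          _ < max ‖a‖ ‖b‖ * (c * (d / 2) * ‖v‖) + max ‖a‖ ‖b‖ * (c * (d / 2) * ‖v‖) := by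
              exact add_lt_add (mul_lt_mul_of_pos_left (hcon 0) hm')
                (mul_lt_mul_of_pos_left (hcon 1) hm')
          _ = c * max ‖a‖ ‖b‖ * (‖v‖ * d) := by ring
          _ ≤ 1 * (‖v‖ * d) := by gcongr
          _ = _ := one_mul _
    rw [inv_mul_lt_iff₀ hvn]
    exact h5
  exact absurd h1 (not_le.2 (max_lt (h2 0) (h2 1)))

end sep

/-! ### The main bound -/

section main

variable {k : Type*} [NontriviallyNormedField k] [ProperSpace k] {n : ℕ} [NeZero n]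

/-- The attracting point of `h` is in `A`, up to an error `1/T`. -/
def At1 (T : ℝ) (A : Set (ℙ k (Fin n → k))) (h : SLn k n) : Prop :=
  ∃ (v φ : Fin n → k) (hv : v ≠ 0), Projectivization.mk k v hv ∈ A ∧
    ∀ i j, ‖h.1 i j - v i * φ j‖ ≤ en h.1 / T

/-- The attracting line of `h` is in `B`, up to an error `1/T`. -/
def At2 (T : ℝ) (B : Set (Gr k (Fin n) 2)) (h : SLn k n) : Prop :=
  ∃ X ∈ B, ∃ M : Matrix (Fin n) (Fin n) k, (∀ v, M *ᵥ v ∈ X.1) ∧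
    ∀ i j, ‖h.1 i j - M i j‖ ≤ en h.1 / T

/-- The data of a pair. -/
theorem pair_data {σ : k →+* k} (hσ : ∀ x, ‖σ x‖ = ‖x‖) (J : Matrix (Fin n) (Fin n) k) {β : ℝ}
    (hF : Frm (bF σ J) β) {A : Set (ℙ k (Fin n → k))} {B : Set (Gr k (Fin n) 2)}
    (hA : IsClosed A) (hB : IsClosed B)
    (hAB : ∀ (v : Fin n → k) (hv : v ≠ 0), Projectivization.mk k v hv ∈ A → ∀ X ∈ B,
      ∃ y ∈ X.1, bF σ J v y ≠ 0) {R : ℝ} (hR : 0 < R) :
    ∃ T₀ δ : ℝ, 1 ≤ T₀ ∧ 0 < δ ∧ ∀ T, T₀ ≤ T → ∀ g h : SLn k n, Iso σ J h →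
      At1 T A g → At2 T B h → en h.1 ^ 2 ≤ R * m2 h.1 →
      ∃ u : Fin 2 → Fin n → k, (∀ l, ‖u l‖ ≤ 1) ∧
        (∀ a b : k, (2 * R)⁻¹ * max ‖a‖ ‖b‖ ≤ ‖a • u 0 + b • u 1‖) ∧
        LWall (bF σ J) (en J) (en h.1) u h.1 ∧ ∃ l, δ ≤ ‖bF σ J (av g) (u l)‖ := by
  obtain ⟨δ, hδ, H⟩ := sep hσ J hF hA hB hAB
  have hβ := hF.nn
  obtain ⟨T₀, hT₀⟩ : ∃ T₀ : ℝ, T₀ = 2 + 8 * R + 48 * β * R / δ := ⟨_, rfl⟩
  refine ⟨T₀, δ / (16 * R), by rw [hT₀]; have : 0 ≤ 48 * β * R / δ := by positivity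
                               linarith, by positivity, ?_⟩
  intro T hT g h hh ⟨v, φ, hv, hvA, hvφ⟩ ⟨X, hX, M, hM, hMh⟩ hnw
  have hq : 0 ≤ 48 * β * R / δ := by positivity
  have T1 : 2 ≤ T := by linarith
  have T2 : 8 * R ≤ T := by linarith
  have T3 : 48 * β * R / δ ≤ T := by linarith
  have hT0 : 0 < T := by linarith
  obtain ⟨j₀, hlow⟩ := frame_low hR h hnw
  refine ⟨fun l => cl h (j₀ l), fun l => norm_cl_le h _, hlow, lwall hh j₀, ?_⟩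
  -- the point
  obtain ⟨w, hw⟩ : ∃ w : Fin n → k, w = ((pe g)⁻¹ * φ (piv g).2) • v := ⟨_, rfl⟩
  have hwd : ‖av g - w‖ ≤ 1 / T := by
    rw [pi_norm_le_iff_of_nonneg (by positivity)]
    intro i
    have e : (av g - w) i = (pe g)⁻¹ * (g.1 i (piv g).2 - v i * φ (piv g).2) := by
      rw [hw]
      unfold av vc
      simp only [Pi.sub_apply, Pi.smul_apply, smul_eq_mul]
      ring
    rw [e, norm_mul, norm_inv, norm_pe, inv_mul_le_iff₀ (en_pos' g)]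
    calc _ ≤ _ := hvφ i _
      _ = _ := by ring
  have hwn : 1 / 2 ≤ ‖w‖ := by
    have h1 : ‖av g‖ ≤ ‖av g - w‖ + ‖w‖ := by
      calc ‖av g‖ = ‖(av g - w) + w‖ := by congr 1; abel
        _ ≤ _ := norm_add_le _ _
    rw [norm_av] at h1
    have h2 : 1 / T ≤ 1 / 2 := one_div_le_one_div_of_le (by norm_num) T1
    linarith
  have hwn' : ‖w‖ ≤ 2 := by
    have h1 : ‖w‖ ≤ ‖av g - w‖ + ‖av g‖ := by
      calc ‖w‖ = ‖av g - (av g - w)‖ := by congr 1; abel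
        _ ≤ ‖av g‖ + ‖av g - w‖ := norm_sub_le _ _
        _ = _ := add_comm _ _
    rw [norm_av] at h1
    have h2 : 1 / T ≤ 1 / 2 := one_div_le_one_div_of_le (by norm_num) T1
    linarith
  have hw0 : w ≠ 0 := by
    rw [← norm_pos_iff]; linarith
  have hwA : Projectivization.mk k w hw0 ∈ A := by
    have : Projectivization.mk k w hw0 = Projectivization.mk k v hv := by
      rw [Projectivization.mk_eq_mk_iff']
      exact ⟨_, hw.symm⟩
    rw [this]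
    exact hvA
  -- the line
  obtain ⟨u', hu'⟩ : ∃ u' : Fin 2 → Fin n → k,
      u' = fun l => M *ᵥ Pi.single (j₀ l) (pe h)⁻¹ := ⟨_, rfl⟩
  have hu'X : ∀ l, u' l ∈ X.1 := fun l => by rw [hu']; exact hM _
  have hud : ∀ l, ‖cl h (j₀ l) - u' l‖ ≤ 1 / T := by
    intro l
    rw [pi_norm_le_iff_of_nonneg (by positivity)]
    intro i
    have e : (cl h (j₀ l) - u' l) i = (pe h)⁻¹ * (h.1 i (j₀ l) - M i (j₀ l)) := by
      rw [hu']
      unfold cl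
      simp only [Pi.sub_apply, Pi.smul_apply, smul_eq_mul, mulVec_single, MulOpposite.smul_eq_mul_unop,
        MulOpposite.unop_op, Matrix.col_apply]
      ring
    rw [e, norm_mul, norm_inv, norm_pe, inv_mul_le_iff₀ (en_pos' h)]
    calc _ ≤ _ := hMh i _
      _ = _ := by ring
  have hlow' : ∀ a b : k, (4 * R)⁻¹ * max ‖a‖ ‖b‖ ≤ ‖a • u' 0 + b • u' 1‖ := by
    intro a b
    have hm : 0 ≤ max ‖a‖ ‖b‖ := le_max_of_le_left (norm_nonneg _)
    have h1 := hlow a b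
    have e : a • cl h (j₀ 0) + b • cl h (j₀ 1) = (a • u' 0 + b • u' 1) +
        (a • (cl h (j₀ 0) - u' 0) + b • (cl h (j₀ 1) - u' 1)) := by
      simp only [smul_sub]; abel
    rw [e] at h1
    have h2 : ‖a • (cl h (j₀ 0) - u' 0) + b • (cl h (j₀ 1) - u' 1)‖ ≤
        2 * (1 / T) * max ‖a‖ ‖b‖ := by
      calc _ ≤ ‖a • (cl h (j₀ 0) - u' 0)‖ + ‖b • (cl h (j₀ 1) - u' 1)‖ := norm_add_le _ _
        _ ≤ max ‖a‖ ‖b‖ * (1 / T) + max ‖a‖ ‖b‖ * (1 / T) := by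
            rw [norm_smul, norm_smul]
            exact add_le_add
              (mul_le_mul (le_max_left _ _) (hud 0) (norm_nonneg _) hm)
              (mul_le_mul (le_max_right _ _) (hud 1) (norm_nonneg _) hm)
        _ = _ := by ring
    have h3 := norm_add_le (a • u' 0 + b • u' 1)
      (a • (cl h (j₀ 0) - u' 0) + b • (cl h (j₀ 1) - u' 1))
    have h4 : 2 * (1 / T) ≤ (4 * R)⁻¹ := by
      rw [mul_one_div, div_le_iff₀ hT0, inv_mul_eq_div, le_div_iff₀ (by positivity)]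
      linarith
    have h5 : (2 * R)⁻¹ = (4 * R)⁻¹ + (4 * R)⁻¹ := by field_simp; norm_num
    have h6 : 2 * (1 / T) * max ‖a‖ ‖b‖ ≤ (4 * R)⁻¹ * max ‖a‖ ‖b‖ :=
      mul_le_mul_of_nonneg_right h4 hm
    rw [h5, add_mul] at h1
    linarith
  obtain ⟨l, hl⟩ := H w hw0 hwA X hX (4 * R)⁻¹ (by positivity) u' hu'X hlow'
  refine ⟨l, ?_⟩
  change _ ≤ ‖bF σ J (av g) (cl h (j₀ l))‖
  have e : bF σ J w (u' l) = bF σ J (av g) (cl h (j₀ l)) -
      (bF σ J (av g - w) (cl h (j₀ l)) + bF σ J w (cl h (j₀ l) - u' l)) := by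
    rw [map_sub, LinearMap.sub_apply, map_sub]; ring
  have h1 : ‖bF σ J (av g - w) (cl h (j₀ l))‖ ≤ β * (1 / T) * 1 := by
    refine (hF.bd _ _).trans ?_
    have := norm_cl_le h (j₀ l)
    gcongr
  have h2 : ‖bF σ J w (cl h (j₀ l) - u' l)‖ ≤ β * 2 * (1 / T) := by
    refine (hF.bd _ _).trans ?_
    have := hud l
    gcongr
  have h3 : ‖bF σ J w (u' l)‖ ≤ ‖bF σ J (av g) (cl h (j₀ l))‖ + 3 * β * (1 / T) := by
    rw [e]
    refine (norm_sub_le _ _).trans ?_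
    have := norm_add_le (bF σ J (av g - w) (cl h (j₀ l))) (bF σ J w (cl h (j₀ l) - u' l))
    linarith
  have h4 : (8 * R)⁻¹ * δ ≤ (4 * R)⁻¹ * δ * ‖w‖ := by
    have : (8 * R)⁻¹ * δ = (4 * R)⁻¹ * δ * (1 / 2) := by field_simp; norm_num
    rw [this]
    gcongr
  have h5 : 3 * β * (1 / T) ≤ δ / (16 * R) := by
    rw [mul_one_div, div_le_div_iff₀ hT0 (by positivity)]
    rw [div_le_iff₀ hδ] at T3
    linarith
  have h6 : (8 * R)⁻¹ * δ = δ / (16 * R) + δ / (16 * R) := by field_simp; norm_num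
  linarith

/-- **The bound.** -/
theorem bdd {σ : k →+* k} (hσ : ∀ x, ‖σ x‖ = ‖x‖) {J J' : Matrix (Fin n) (Fin n) k}
    (hJ : J' * J = 1) {A : Set (ℙ k (Fin n → k))} {B : Set (Gr k (Fin n) 2)}
    (hA : IsClosed A) (hB : IsClosed B)
    (hAB : ∀ (v : Fin n → k) (hv : v ≠ 0), Projectivization.mk k v hv ∈ A → ∀ X ∈ B,
      ∃ y ∈ X.1, bF σ J v y ≠ 0) (R : ℝ) :
    ∃ T₀ C : ℝ, 1 ≤ T₀ ∧ 0 ≤ C ∧ ∀ T, T₀ ≤ T → ∀ g₁ g₂ h₁ h₂ : SLn k n,
      Iso σ J g₁ → Iso σ J g₂ → Iso σ J h₁ → Iso σ J h₂ → g₁ * g₂⁻¹ = h₁ * h₂⁻¹ →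
      m2 g₁.1 ≤ R * en g₁.1 → m2 g₂.1 ≤ R * en g₂.1 →
      en h₁.1 ^ 2 ≤ R * m2 h₁.1 → en h₂.1 ^ 2 ≤ R * m2 h₂.1 →
      At1 T A g₁ → At1 T A g₂ → At2 T B h₁ → At2 T B h₂ → en (g₁ * g₂⁻¹).1 ≤ C := by
  obtain ⟨β, hF⟩ := frm_bF σ hσ hJ
  obtain ⟨R', hR'⟩ : ∃ R', R' = max R 1 := ⟨_, rfl⟩
  have hR0 : 0 < R' := by rw [hR']; exact lt_max_of_lt_right one_pos
  have hRR : R ≤ R' := by rw [hR']; exact le_max_left _ _
  obtain ⟨T₀, δ, hT₀, hδ, H⟩ := pair_data hσ J hF hA hB hAB hR0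
  obtain ⟨C, hC, HC⟩ := ovl hF (T := max R' (en J)) (c := (2 * R')⁻¹) (δ := δ)
    (le_max_of_le_left hR0.le) (by positivity) hδ
  refine ⟨T₀, C, hT₀, hC, ?_⟩
  intro T hT g₁ g₂ h₁ h₂ i₁ i₂ j₁ j₂ hgh n₁ n₂ m₁ m₂ a₁ a₂ b₁ b₂
  have up : ∀ h : SLn k n, en h.1 ^ 2 ≤ R * m2 h.1 → en h.1 ^ 2 ≤ R' * m2 h.1 := fun h hh =>
    hh.trans (mul_le_mul_of_nonneg_right hRR (m2_nonneg _))
  have up' : ∀ g : SLn k n, m2 g.1 ≤ R * en g.1 → m2 g.1 ≤ R' * en g.1 := fun h hh =>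
    hh.trans (mul_le_mul_of_nonneg_right hRR (en_nonneg _))
  obtain ⟨u₁, c₁, d₁, e₁, f₁⟩ := H T hT g₁ h₁ j₁ a₁ b₁ (up _ m₁)
  obtain ⟨u₂, c₂, d₂, e₂, f₂⟩ := H T hT g₂ h₂ j₂ a₂ b₂ (up _ m₂)
  have pw : ∀ {v : Fin n → k} {g : SLn k n}, PWall R' v g.1 → PWall (max R' (en J)) v g.1 :=
    fun ⟨ψ, hψ⟩ => ⟨ψ, fun j => (hψ j).trans (le_max_left _ _)⟩
  have lw : ∀ {u : Fin 2 → Fin n → k} {h : SLn k n}, LWall (bF σ J) (en J) (en h.1) u h.1 →
      LWall (bF σ J) (max R' (en J)) (en h.1) u h.1 :=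
    fun {u h} ⟨x, y⟩ => ⟨x, fun j l => (y j l).trans
      (div_le_div_of_nonneg_right (le_max_right _ _) (en_nonneg _))⟩
  have iG : Iso σ J (g₁ * g₂⁻¹) := i₁.mul i₂.inv
  have q1 : (g₁ * g₂⁻¹).1 * g₂.1 = g₁.1 := by
    rw [← coe_mul', inv_mul_cancel_right]
  have q2 : (g₁ * g₂⁻¹).1 * h₂.1 = h₁.1 := by
    rw [hgh, ← coe_mul', inv_mul_cancel_right]
  have q3 : ((g₁ * g₂⁻¹)⁻¹).1 * (g₁ * g₂⁻¹).1 = 1 := coe_inv_mul _
  have hb := HC g₁.1 g₂.1 h₁.1 h₂.1 (g₁ * g₂⁻¹).1 ((g₁ * g₂⁻¹)⁻¹).1 i₁.is i₂.is j₁.is j₂.is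
    iG.is iG.inv.is q3 q1 q2 (av g₁) (av g₂) u₁ u₂ (en h₁.1) (en h₂.1) (en_pos' h₁) (en_pos' h₂)
    (norm_av _).le (norm_av _).le c₁ c₂ d₁ d₂ f₁ f₂ (pw (pwall g₁ (up' _ n₁)))
    (pw (pwall g₂ (up' _ n₂))) (lw e₁) (lw e₂)
  refine en_le_of hC fun i j => ?_
  have h1 := hb (Pi.single j 1)
  rw [mulVec_single_one] at h1
  have h2 : C * ‖(Pi.single j (1 : k) : Fin n → k)‖ ≤ C * 1 :=
    mul_le_mul_of_nonneg_left (norm_single j) hC
  have h3 := norm_le_pi_norm ((g₁ * g₂⁻¹).1.col j) i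
  calc _ = ‖(g₁ * g₂⁻¹).1.col j i‖ := rfl
    _ ≤ _ := h3
    _ ≤ _ := h1
    _ ≤ _ := h2
    _ = C := mul_one C

end main

end Vale.Agent.P092.H923.PI
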