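import Vale.Agent.P092.H923.PI3
import Vale.Agent.P092.SP.Defs

/-!
P092, Team P, row [P-I1] (helper923), part 4: the count of (I1) in the letters of SP/Defs.
-/

set_option linter.all false

open scoped LinearAlgebra.Projectivization Matrix
open Filter Topology

namespace Vale.Agent.P092.H923.PI

open Vale.Agent.P092.H337.NG (en m2 mi SLn en_nonneg m2_nonneg entry_le en_le_of m2_le_of mi_le)
open Vale.Agent.P092.SP4
open Vale.Agent.P092.RC (GG PG YY y0)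
open Vale.Agent.P092.H100.Gr (Gr)

variable {k : Type} [NontriviallyNormedField k]

theorem bF_id (x y : Fin 4 → k) : bF (RingHom.id k) (J4 k) x y = om x y := bF_apply _ _ _ _

/-- A line is its own orthogonal space. -/
theorem perp_LL {l : LL k} {v : Fin 4 → k} (h : ∀ y ∈ l.1.1, om v y = 0) : v ∈ l.1.1 := by
  have hB : (Matrix.toBilin' (J4 k)).Nondegenerate :=
    LinearMap.BilinForm.nondegenerate_toBilin'_of_det_ne_zero' _
      (by
        have h0 : (J4 k).det = 1 := (j4 (k := k)).2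
        rw [h0]; exact one_ne_zero)
  have hap : ∀ x y, Matrix.toBilin' (J4 k) x y = om x y := fun x y =>
    Matrix.toBilin'_apply' _ _ _
  have hR : (Matrix.toBilin' (J4 k)).IsRefl := by
    intro x y hxy
    rw [hap] at hxy ⊢
    rw [om_swap, hxy, neg_zero]
  have h1 := LinearMap.BilinForm.finrank_orthogonal hB l.1.1
  rw [l.1.2, Module.finrank_fin_fun] at h1
  have h2 : l.1.1 ≤ (Matrix.toBilin' (J4 k)).orthogonal l.1.1 := by
    intro x hx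
    rw [LinearMap.BilinForm.mem_orthogonal_iff]
    intro y hy
    change Matrix.toBilin' (J4 k) y x = 0
    rw [hap]
    exact l.2 y hy x hx
  have h3 : l.1.1 = (Matrix.toBilin' (J4 k)).orthogonal l.1.1 :=
    Submodule.eq_of_le_of_finrank_eq h2 (by rw [l.1.2, h1])
  rw [h3, LinearMap.BilinForm.mem_orthogonal_iff]
  intro y hy
  change Matrix.toBilin' (J4 k) y v = 0
  rw [hap, om_swap, h y hy, neg_zero]

theorem iso_S4 (g : S4 k) : Iso (RingHom.id k) (J4 k) g.1 := by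
  unfold Iso
  have e : g.1.1.map (RingHom.id k) = g.1.1 := by ext i j; rfl
  rw [e]
  exact mem_S4'.1 g.2

theorem nm_eq (g : S4 k) : SP.nm g = en g.1.1 := rfl

variable [ProperSpace k]

/-- The set of lines as a set of planes. -/
def imL (B : Set (LL k)) : Set (Gr k (Fin 4) 2) := Subtype.val '' B

theorem imL_closed {B : Set (LL k)} (hB : IsClosed B) : IsClosed (imL B) :=
  (hB.isCompact.image val_cont).isClosed

/-- **The bound of (I1).** -/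
theorem bddS {A : Set (YY k 3)} {B : Set (LL k)} (hA : IsClosed A) (hB : IsClosed B)
    (hAB : ∀ x ∈ A, ∀ l ∈ B, ¬ on x l) (R : ℝ) :
    ∃ T₀ C : ℝ, 1 ≤ T₀ ∧ 0 ≤ C ∧ ∀ T, T₀ ≤ T → ∀ g₁ g₂ h₁ h₂ : S4 k,
      g₁ * g₂⁻¹ = h₁ * h₂⁻¹ → SP.NW1 R g₁ → SP.NW1 R g₂ → SP.NW2 R h₁ → SP.NW2 R h₂ →
      SP.Att1 T A g₁ → SP.Att1 T A g₂ → SP.Att2 T B h₁ → SP.Att2 T B h₂ →
      SP.nm (g₁ * g₂⁻¹) ≤ C := by
  have hJ : (-J4 k) * J4 k = 1 := by rw [Matrix.neg_mul, J4_sq, neg_neg]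
  have hs : ∀ (v : Fin 4 → k) (hv : v ≠ 0), Projectivization.mk k v hv ∈ A → ∀ X ∈ imL B,
      ∃ y ∈ X.1, bF (RingHom.id k) (J4 k) v y ≠ 0 := by
    rintro v hv hvA _ ⟨l, hl, rfl⟩
    by_contra hc
    push Not at hc
    have hc' : ∀ y ∈ l.1.1, om v y = 0 := fun y hy => by rw [← bF_id]; exact hc y hy
    exact hAB _ hvA l hl ((on_mk hv).2 (perp_LL hc'))
  obtain ⟨T₀, C, h1, h2, H⟩ := bdd (σ := RingHom.id k) (fun x => rfl) hJ hA (imL_closed hB) hs R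
  refine ⟨T₀, C, h1, h2, fun T hT g₁ g₂ h₁ h₂ e n₁ n₂ m₁ m₂ a₁ a₂ b₁ b₂ => ?_⟩
  have cvt : ∀ {T} {h : S4 k}, SP.Att2 T B h → At2 T (imL B) h.1 :=
    fun ⟨X, hX, M, hM, hMh⟩ => ⟨X.1, ⟨X, hX, rfl⟩, M, hM, hMh⟩
  exact H T hT g₁.1 g₂.1 h₁.1 h₂.1 (iso_S4 _) (iso_S4 _) (iso_S4 _) (iso_S4 _)
    (congrArg Subtype.val e) n₁ n₂ m₁ m₂ a₁ a₂ (cvt b₁) (cvt b₂)

/-! ### Scalars -/

omit [ProperSpace k] in
theorem en_smul' (c : k) (A : Matrix (Fin 4) (Fin 4) k) : en (c • A) = ‖c‖ * en A := by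
  unfold en
  rw [← norm_smul]
  rfl

omit [ProperSpace k] in
theorem m2_smul' (c : k) (A : Matrix (Fin 4) (Fin 4) k) : m2 (c • A) = ‖c * c‖ * m2 A := by
  unfold m2
  rw [← norm_smul]
  congr 1
  funext i i' j j'
  simp only [mi, Matrix.smul_apply, Pi.smul_apply, smul_eq_mul]
  ring

/-- `x` and `y` are equal modulo a scalar of norm one -/
def Eqv (x y : S4 k) : Prop := ∃ c : k, ‖c‖ = 1 ∧ x.1.1 = c • y.1.1

omit [ProperSpace k] in
theorem eqv_of {x y : S4 k} {c : k} (h : x.1.1 = c • y.1.1) : Eqv x y := by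
  refine ⟨c, ?_, h⟩
  have h1 := congrArg Matrix.det h
  rw [Matrix.det_smul, x.1.2, y.1.2, Fintype.card_fin, mul_one] at h1
  have h2 : ‖c‖ ^ 4 = 1 := by rw [← norm_pow, ← h1, norm_one]
  exact (pow_eq_one_iff_of_nonneg (norm_nonneg _) (by norm_num)).1 h2

omit [ProperSpace k] in
theorem Eqv.nm {x y : S4 k} (h : Eqv x y) : SP.nm x = SP.nm y := by
  obtain ⟨c, hc, e⟩ := h
  rw [nm_eq, nm_eq, e, en_smul', hc, one_mul]

omit [ProperSpace k] in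
theorem Eqv.m2 {x y : S4 k} (h : Eqv x y) : SP.m2 x = SP.m2 y := by
  obtain ⟨c, hc, e⟩ := h
  unfold SP.m2
  rw [e, m2_smul', norm_mul, hc, one_mul, one_mul]

omit [ProperSpace k] in
theorem Eqv.nw1 {x y : S4 k} (h : Eqv x y) {R : ℝ} (hx : SP.NW1 R x) : SP.NW1 R y := by
  unfold SP.NW1 at *
  rwa [← h.nm, ← h.m2]

omit [ProperSpace k] in
theorem Eqv.nw2 {x y : S4 k} (h : Eqv x y) {R : ℝ} (hx : SP.NW2 R x) : SP.NW2 R y := by
  unfold SP.NW2 at *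
  rwa [← h.nm, ← h.m2]

omit [ProperSpace k] in
theorem Eqv.att1 {x y : S4 k} (h : Eqv x y) {T : ℝ} {A : Set (YY k 3)}
    (hx : SP.Att1 T A x) : SP.Att1 T A y := by
  have hn := h.nm
  obtain ⟨c, hc, e⟩ := h
  obtain ⟨v, φ, hv, hA, H⟩ := hx
  have hc0 : c ≠ 0 := by rw [← norm_pos_iff, hc]; exact one_pos
  refine ⟨v, c⁻¹ • φ, hv, hA, fun i j => ?_⟩
  have h1 := H i j
  have h2 : y.1.1 i j - v i * (c⁻¹ • φ) j = c⁻¹ * (x.1.1 i j - v i * φ j) := by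
    rw [e]
    simp only [Pi.smul_apply, Matrix.smul_apply, smul_eq_mul]
    field_simp
  rw [h2, norm_mul, norm_inv, hc, inv_one, one_mul]
  change _ ≤ SP.nm y / T
  rw [← hn]
  exact h1

omit [ProperSpace k] in
theorem Eqv.att2 {x y : S4 k} (h : Eqv x y) {T : ℝ} {B : Set (LL k)}
    (hx : SP.Att2 T B x) : SP.Att2 T B y := by
  have hn := h.nm
  obtain ⟨c, hc, e⟩ := h
  obtain ⟨X, hX, M, hM, H⟩ := hx
  have hc0 : c ≠ 0 := by rw [← norm_pos_iff, hc]; exact one_pos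
  refine ⟨X, hX, c⁻¹ • M, fun v => ?_, fun i j => ?_⟩
  · rw [Matrix.smul_mulVec]
    exact Submodule.smul_mem _ _ (hM v)
  · have h1 := H i j
    have h2 : y.1.1 i j - (c⁻¹ • M) i j = c⁻¹ * (x.1.1 i j - M i j) := by
      rw [e]
      simp only [Matrix.smul_apply, smul_eq_mul]
      field_simp
    rw [h2, norm_mul, norm_inv, hc, inv_one, one_mul, ← hn]
    exact h1

omit [ProperSpace k] in
theorem eqv_mul {Γ : Type} [Group Γ] {q : Γ → S4 k} (hq : SP.PH q) (γ η : Γ) :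
    Eqv (q (γ * η)) (q γ * q η) := by
  obtain ⟨c, hc⟩ := hq γ η
  exact eqv_of hc

omit [ProperSpace k] in
theorem nw1_mono {R R' : ℝ} (h : R ≤ R') {x : S4 k} (hx : SP.NW1 R x) : SP.NW1 R' x :=
  le_trans (show SP.m2 x ≤ R * SP.nm x from hx)
    (mul_le_mul_of_nonneg_right h (show 0 ≤ SP.nm x from en_nonneg _))

omit [ProperSpace k] in
theorem nw2_mono {R R' : ℝ} (h : R ≤ R') {x : S4 k} (hx : SP.NW2 R x) : SP.NW2 R' x :=
  le_trans (show SP.nm x ^ 2 ≤ R * SP.m2 x from hx)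
    (mul_le_mul_of_nonneg_right h (show 0 ≤ SP.m2 x from m2_nonneg _))

/-! ### The count -/

variable {Γ : Type} [Group Γ] {q : Γ → S4 k}

/-- **[P-I1], the count**: the near-point-wall elements with attracting point in `A` which `η`
moves to near-line-wall elements with attracting line in `B` are bounded in number. -/
theorem cnt12 (hq : SP.PH q) (hud : SP.UD q) {A : Set (YY k 3)} {B : Set (LL k)}
    (hA : IsClosed A) (hB : IsClosed B) (hAB : ∀ x ∈ A, ∀ l ∈ B, ¬ on x l) (R R' : ℝ) :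
    ∃ T₀ : ℝ, 1 ≤ T₀ ∧ ∃ N : ℕ, ∀ T, T₀ ≤ T → ∀ (η : Γ) (S : Finset Γ),
      (∀ γ ∈ S, γ ∈ SP.NA1 q R T A ∧ γ * η ∈ SP.NA2 q R' T B) → S.card ≤ N := by
  obtain ⟨T₀, C, h1, h2, H⟩ := bddS hA hB hAB (max R R')
  obtain ⟨N, hN⟩ := hud C
  refine ⟨T₀, h1, N, fun T hT η S hS => hN S (fun _ _ => Set.mem_univ _) fun γ hγ γ' hγ' => ?_⟩
  obtain ⟨⟨a1, a2⟩, a3, a4⟩ := hS γ hγ
  obtain ⟨⟨b1, b2⟩, b3, b4⟩ := hS γ' hγ'
  have e := eqv_mul hq γ η
  have e' := eqv_mul hq γ' η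
  exact H T hT (q γ') (q γ) (q γ' * q η) (q γ * q η) (by group) (nw1_mono (le_max_left _ _) b1)
    (nw1_mono (le_max_left _ _) a1) (nw2_mono (le_max_right _ _) (e'.nw2 b3))
    (nw2_mono (le_max_right _ _) (e.nw2 a3)) b2 a2 (e'.att2 b4) (e.att2 a4)

/-- The same in the other order. -/
theorem cnt21 (hq : SP.PH q) (hud : SP.UD q) {A : Set (YY k 3)} {B : Set (LL k)}
    (hA : IsClosed A) (hB : IsClosed B) (hAB : ∀ x ∈ A, ∀ l ∈ B, ¬ on x l) (R R' : ℝ) :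
    ∃ T₀ : ℝ, 1 ≤ T₀ ∧ ∃ N : ℕ, ∀ T, T₀ ≤ T → ∀ (η : Γ) (S : Finset Γ),
      (∀ γ ∈ S, γ ∈ SP.NA2 q R' T B ∧ γ * η ∈ SP.NA1 q R T A) → S.card ≤ N := by
  obtain ⟨T₀, C, h1, h2, H⟩ := bddS hA hB hAB (max R R')
  obtain ⟨N, hN⟩ := hud C
  refine ⟨T₀, h1, N, fun T hT η S hS => hN S (fun _ _ => Set.mem_univ _) fun γ hγ γ' hγ' => ?_⟩
  obtain ⟨⟨a1, a2⟩, a3, a4⟩ := hS γ hγ
  obtain ⟨⟨b1, b2⟩, b3, b4⟩ := hS γ' hγ'
  have e := eqv_mul hq γ η
  have e' := eqv_mul hq γ' η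
  have key := H T hT (q γ' * q η) (q γ * q η) (q γ') (q γ) (by group)
    (nw1_mono (le_max_left _ _) (e'.nw1 b3)) (nw1_mono (le_max_left _ _) (e.nw1 a3))
    (nw2_mono (le_max_right _ _) b1) (nw2_mono (le_max_right _ _) a1)
    (e'.att1 b4) (e.att1 a4) b2 a2
  have e3 : q γ' * q η * (q γ * q η)⁻¹ = q γ' * (q γ)⁻¹ := by group
  rw [e3] at key
  exact key

end Vale.Agent.P092.H923.PI
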