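import Vale.Agent.P092.H923.PI5
import Vale.Agent.P092.H486.EngJ
import Vale.Agent.P092.H899.P1
import Vale.Agent.P092.H370.Sp4b
import Vale.Agent.P092.H455.Hm1

/-!
P092, Team P, row [P-I1] (helper923), part 6: the fields `i11`, `i12` of `SP.LegP` (exact incidence
at incident places of the source), from the families `UFamE` of the engine (helper486).
-/

set_option linter.all false

open scoped InnerProductSpace LinearAlgebra.Projectivization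
open Filter Topology ContinuousLinearMap

namespace Vale.Agent.P092.H923.PI

open Vale.Agent.P092.SP4 (S4 LL on trans_flag)
open Vale.Agent.P092.RC (YY y0 Pic Moore)
open Vale.Agent.P092.SP (B1 B2 Lg l0 on_y0_l0)
open Vale.Agent.P092.H899.T (l1 l2 bpt bln fin_l ud_of_fin)
open Vale.Agent.P092.H486.Eng (Ovl UFamE ufam_inc GeoU)
open Vale.Agent.P092.H859.CL
open Vale.Agent.P092.H43 (Loc2)
open Vale.Agent.P092.SD (Ms)
open Vale.Agent.P092.H232 (Nin)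

section src

variable {k : Type} [NontriviallyNormedField k]

theorem Lg_val (s : k) (i j : Fin 4) :
    (Lg s).1.1 i j = (!![1, 0, 0, s; 0, 1, 0, 0; 0, 0, 1, 0; 0, 0, 0, 1] : Matrix _ _ k) i j := rfl

/-- A diagonal element whose conjugation contracts the entry `(0, 3)` contracts the long root
group. -/
theorem contr_Lg {b : S4 k} {d : Fin 4 → k} (hd : ∀ i, d i ≠ 0)
    (hb : b.1.1 = Matrix.diagonal d) (h : ‖d 3‖ < ‖d 0‖) (s : k) :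
    Tendsto (fun N : ℕ => (b ^ N)⁻¹ * Lg s * b ^ N) atTop (𝓝 1) := by
  refine H899.P.tendsto_S4 fun i j => ?_
  simp only [H899.P.conj_entry hd hb]
  have h1 : ∀ i : Fin 4, Tendsto (fun N : ℕ => (d i ^ N)⁻¹ * 1 * d i ^ N) atTop (𝓝 (1 : k)) := by
    intro i
    refine tendsto_const_nhds.congr fun N => ?_
    rw [mul_one, inv_mul_cancel₀ (pow_ne_zero N (hd i))]
  have h2 : Tendsto (fun N : ℕ => (d 0 ^ N)⁻¹ * s * d 3 ^ N) atTop (𝓝 (0 : k)) := by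
    have h3 : Tendsto (fun N : ℕ => s * (d 3 / d 0) ^ N) atTop (𝓝 (s * 0)) := by
      refine Tendsto.const_mul _ (tendsto_pow_atTop_nhds_zero_of_norm_lt_one ?_)
      rw [norm_div, div_lt_one (norm_pos_iff.2 (hd 0))]
      exact h
    rw [mul_zero] at h3
    refine h3.congr fun N => ?_
    rw [div_pow]
    ring
  have e0 : ∀ i j : Fin 4, ((1 : S4 k)).1.1 i j = (1 : Matrix (Fin 4) (Fin 4) k) i j :=
    fun _ _ => rfl
  rw [e0]
  fin_cases i <;> fin_cases j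
  all_goals first
    | exact h1 _
    | exact h2
    | (refine tendsto_const_nhds.congr fun N => ?_
       simp [Lg_val])

theorem norm_inv_gt {w : kˣ} (hw : ‖(w : k)‖ < 1) : ‖(w : k)‖ < ‖((w⁻¹ : kˣ) : k)‖ := by
  have h0 : 0 < ‖(w : k)‖ := norm_pos_iff.2 w.ne_zero
  rw [Units.val_inv_eq_inv_val, norm_inv]
  exact hw.trans (one_lt_inv_iff₀.2 ⟨h0, hw⟩)

theorem contr_B1 {w : kˣ} (hw : ‖(w : k)‖ < 1) (s : k) :
    Tendsto (fun N : ℕ => ((B1 w : S4 k) ^ N)⁻¹ * Lg s * B1 w ^ N) atTop (𝓝 1) := by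
  refine contr_Lg (d := ![((w⁻¹ : kˣ) : k), 1, 1, (w : k)]) (fun i => ?_) rfl ?_ s
  · fin_cases i <;> simp
  · exact norm_inv_gt hw

theorem contr_B2 {w : kˣ} (hw : ‖(w : k)‖ < 1) (s : k) :
    Tendsto (fun N : ℕ => ((B2 w : S4 k) ^ N)⁻¹ * Lg s * B2 w ^ N) atTop (𝓝 1) := by
  refine contr_Lg (d := ![((w⁻¹ : kˣ) : k), ((w⁻¹ : kˣ) : k), (w : k), (w : k)]) (fun i => ?_) rfl
    ?_ s
  · fin_cases i <;> simp
  · exact norm_inv_gt hw

variable [ProperSpace k] {E : Type} [Group E] [TopologicalSpace E] {ι : S4 k →* E}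
  {a : E →* RC.PG k 4}

theorem contr_ι (hA : SP.Adm ι a) {b : S4 k}
    (hb : ∀ s : k, Tendsto (fun N : ℕ => (b ^ N)⁻¹ * Lg s * b ^ N) atTop (𝓝 1)) (s : k) :
    Tendsto (fun N : ℕ => (ι b ^ N)⁻¹ * ι (Lg s) * ι b ^ N) atTop (𝓝 1) := by
  have h := (hA.cι.tendsto 1).comp (hb s)
  rw [map_one] at h
  refine h.congr fun N => ?_
  simp only [Function.comp_apply, map_mul, map_inv, map_pow]

theorem moore_Lg (hA : SP.Adm ι a) : Moore (Set.range fun s : k => ι (Lg s)) := by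
  have h := hA.moore (Set.range (Lg : k → S4 k)) fun C => by
    obtain ⟨s, hs⟩ := NormedField.exists_lt_norm k C
    refine ⟨Lg s, ⟨s, rfl⟩, hs.le.trans ?_⟩
    exact (norm_le_pi_norm (fun j => (Lg s).1.1 0 j) 3).trans
      (norm_le_pi_norm (fun i j => (Lg s).1.1 i j : Fin 4 → Fin 4 → k) 0)
  rw [← Set.range_comp] at h
  exact h

end src

section inc

variable {k : Type} [NontriviallyNormedField k] [ProperSpace k] {E Γ K : Type} [Group E]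
  [TopologicalSpace E] [Group Γ] [NormedAddCommGroup K] [InnerProductSpace ℂ K] [CompleteSpace K]
  {ι : S4 k →* E} {a : E →* RC.PG k 4} {q : Γ → S4 k} {w : kˣ}
  {π : E →* (K →L[ℂ] K)} {lam : Γ →* (K →L[ℂ] K)} {W : Set (K →L[ℂ] K)} {Ω : K}
  {mp : (Γ → ℝ) → (K →L[ℂ] K)} {Bd Bd' : Set K} {Br Br' : ℝ → Set Γ} {ms ms' : E → Set Γ → ℝ}
  {A A' : Subgroup E} {𝒰 𝒰' : Ultrafilter ℕ}

/-- Exact incidence at two places `g • z0`, `g • z0'`, for two walls `b`, `b'` of the source which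
contract the long root group; point functions at the first place, line functions at the second. -/
theorem inc_at {X X' : Type} [MulAction E X] [MulAction E X'] [MulAction Γ (YY k 3)]
    [MulAction Γ (LL k)] (hA : SP.Adm ι a) {b b' : S4 k}
    (hb : ∀ s : k, Tendsto (fun N : ℕ => (b ^ N)⁻¹ * Lg s * b ^ N) atTop (𝓝 1))
    (hb' : ∀ s : k, Tendsto (fun N : ℕ => (b' ^ N)⁻¹ * Lg s * b' ^ N) atTop (𝓝 1))
    {z0 : X} {z0' : X'} {NA : ℝ → ℝ → Set (YY k 3) → Set Γ} {NA' : ℝ → ℝ → Set (LL k) → Set Γ}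
    {U : X → (C(YY k 3, ℂ) →ₗ[ℂ] (K →L[ℂ] K))} {U' : X' → (C(LL k, ℂ) →ₗ[ℂ] (K →L[ℂ] K))}
    {p p' : ℝ} (h𝒰 : (𝒰 : Filter ℕ) ≤ atTop) (h𝒰' : (𝒰' : Filter ℕ) ≤ atTop)
    (hP : Pic π lam W Ω) (hM : Ms lam W Ω (st mp)) (hq : SP.PH q)
    (fin : ∀ C : ℝ, {γ | SP.nm (q γ) ≤ C}.Finite)
    (h : H859.CN.SysF mp (fun g => π g) Bd ms A Br (fun γ => l1 (q γ)) (fun γ => l2 (q γ)))
    (h' : H859.CN.SysF mp (fun g => π g) Bd' ms' A' Br' (fun γ => l2 (q γ)) (fun γ => l1 (q γ)))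
    (hL : Leg mp (fun g => π g) (fun γ => lam γ) W) (hSl : Slow mp (fun g => π g) Bd)
    (hSl' : Slow mp (fun g => π g) Bd')
    (he : Esc (st mp) (fun g => π g) Bd A (pw (ι b)⁻¹))
    (he' : Esc (st mp) (fun g => π g) Bd' A' (pw (ι b')⁻¹))
    (hU : UFamE mp π lam W (ι b) (fun γ => l1 (q γ)) (fun γ => l2 (q γ)) (fun γ => bpt (q γ)) 𝒰
      NA z0 U p)
    (hU' : UFamE mp π lam W (ι b') (fun γ => l2 (q γ)) (fun γ => l1 (q γ)) (fun γ => bln (q γ)) 𝒰'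
      NA' z0' U' p') (g : E) {u : C(YY k 3, ℂ)} {v : C(LL k, ℂ)} (huv : Nin on u v) :
    U (g • z0) u * U' (g • z0') v = 0 ∧ U' (g • z0') v * U (g • z0) u = 0 := by
  have hfin : ∀ r, {γ | l1 (q γ) ≤ r ∧ l2 (q γ) ≤ r}.Finite := fun r => fin_l fin r
  have hc : ∀ {b : S4 k}, (∀ s : k, Tendsto (fun N : ℕ => (b ^ N)⁻¹ * Lg s * b ^ N) atTop (𝓝 1)) →
      ∀ n ∈ {x : E | g⁻¹ * x * g ∈ Set.range fun s : k => ι (Lg s)},
      Tendsto (fun N : ℕ => (ι b ^ N)⁻¹ * (g⁻¹ * n * g) * ι b ^ N) atTop (𝓝 1) := by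
    intro b hb n hn
    obtain ⟨s, hs⟩ := hn
    rw [← show ι (Lg s) = g⁻¹ * n * g from hs]
    exact contr_ι hA hb s
  exact ufam_inc h𝒰 h𝒰' hP hM h h' hL hSl hSl' he he' (fun r => hfin r)
    (fun r => (hfin r).subset fun γ hγ => ⟨hγ.2, hγ.1⟩) hU hU' g g
    (H455.moore_conj (moore_Lg hA) g) (hc hb) (hc hb') u v
    (ovl12 hq (ud_of_fin hq fin) (isClosed_tsupport u) (isClosed_tsupport v) huv)

variable [MulAction E (YY k 3)] [MulAction E (LL k)] [MulAction Γ (YY k 3)] [MulAction Γ (LL k)]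

/-- **[P-I1], straight types**: field `i11` of `SP.LegP`. -/
theorem i11 (hA : SP.Adm ι a) (hw : ‖(w : k)‖ < 1)
    (haP : ∀ (g : S4 k) (x : YY k 3), ι g • x = g • x)
    (haL : ∀ (g : S4 k) (l : LL k), ι g • l = g • l)
    {NA : ℝ → ℝ → Set (YY k 3) → Set Γ} {NA' : ℝ → ℝ → Set (LL k) → Set Γ}
    {U : YY k 3 → (C(YY k 3, ℂ) →ₗ[ℂ] (K →L[ℂ] K))} {U' : LL k → (C(LL k, ℂ) →ₗ[ℂ] (K →L[ℂ] K))}
    {p p' : ℝ} (h𝒰 : (𝒰 : Filter ℕ) ≤ atTop) (h𝒰' : (𝒰' : Filter ℕ) ≤ atTop)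
    (hP : Pic π lam W Ω) (hM : Ms lam W Ω (st mp)) (hq : SP.PH q)
    (fin : ∀ C : ℝ, {γ | SP.nm (q γ) ≤ C}.Finite)
    (h : H859.CN.SysF mp (fun g => π g) Bd ms A Br (fun γ => l1 (q γ)) (fun γ => l2 (q γ)))
    (h' : H859.CN.SysF mp (fun g => π g) Bd' ms' A' Br' (fun γ => l2 (q γ)) (fun γ => l1 (q γ)))
    (hL : Leg mp (fun g => π g) (fun γ => lam γ) W) (hSl : Slow mp (fun g => π g) Bd)
    (hSl' : Slow mp (fun g => π g) Bd')
    (he : Esc (st mp) (fun g => π g) Bd A (pw (ι (B1 w))⁻¹))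
    (he' : Esc (st mp) (fun g => π g) Bd' A' (pw (ι (B2 w))⁻¹))
    (hU : UFamE mp π lam W (ι (B1 w)) (fun γ => l1 (q γ)) (fun γ => l2 (q γ))
      (fun γ => bpt (q γ)) 𝒰 NA (y0 : YY k 3) U p)
    (hU' : UFamE mp π lam W (ι (B2 w)) (fun γ => l2 (q γ)) (fun γ => l1 (q γ))
      (fun γ => bln (q γ)) 𝒰' NA' (l0 : LL k) U' p') :
    ∀ c l, on c l → ∀ f g, Nin on f g → U c f * U' l g = 0 := by
  intro c l hcl f g hfg
  obtain ⟨s, hs1, hs2⟩ := trans_flag (k := k) on_y0_l0 hcl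
  have h1 := (inc_at hA (contr_B1 hw) (contr_B2 hw) h𝒰 h𝒰' hP hM hq fin h h' hL hSl hSl' he he'
    hU hU' (ι s) hfg).1
  rwa [haP, haL, hs1, hs2] at h1

/-- **[P-I1], flipped types**: field `i12` of `SP.LegP`. -/
theorem i12 (hA : SP.Adm ι a) (hw : ‖(w : k)‖ < 1)
    (haP : ∀ (g : S4 k) (x : YY k 3), ι g • x = g • x)
    (haL : ∀ (g : S4 k) (l : LL k), ι g • l = g • l)
    {NA : ℝ → ℝ → Set (YY k 3) → Set Γ} {NA' : ℝ → ℝ → Set (LL k) → Set Γ}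
    {U : LL k → (C(YY k 3, ℂ) →ₗ[ℂ] (K →L[ℂ] K))} {U' : YY k 3 → (C(LL k, ℂ) →ₗ[ℂ] (K →L[ℂ] K))}
    {p p' : ℝ} (h𝒰 : (𝒰 : Filter ℕ) ≤ atTop) (h𝒰' : (𝒰' : Filter ℕ) ≤ atTop)
    (hP : Pic π lam W Ω) (hM : Ms lam W Ω (st mp)) (hq : SP.PH q)
    (fin : ∀ C : ℝ, {γ | SP.nm (q γ) ≤ C}.Finite)
    (h : H859.CN.SysF mp (fun g => π g) Bd ms A Br (fun γ => l1 (q γ)) (fun γ => l2 (q γ)))
    (h' : H859.CN.SysF mp (fun g => π g) Bd' ms' A' Br' (fun γ => l2 (q γ)) (fun γ => l1 (q γ)))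
    (hL : Leg mp (fun g => π g) (fun γ => lam γ) W) (hSl : Slow mp (fun g => π g) Bd)
    (hSl' : Slow mp (fun g => π g) Bd')
    (he : Esc (st mp) (fun g => π g) Bd A (pw (ι (B2 w))⁻¹))
    (he' : Esc (st mp) (fun g => π g) Bd' A' (pw (ι (B1 w))⁻¹))
    (hU : UFamE mp π lam W (ι (B2 w)) (fun γ => l1 (q γ)) (fun γ => l2 (q γ))
      (fun γ => bpt (q γ)) 𝒰 NA (l0 : LL k) U p)
    (hU' : UFamE mp π lam W (ι (B1 w)) (fun γ => l2 (q γ)) (fun γ => l1 (q γ))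
      (fun γ => bln (q γ)) 𝒰' NA' (y0 : YY k 3) U' p') :
    ∀ c l, on c l → ∀ f g, Nin on f g → U l f * U' c g = 0 := by
  intro c l hcl f g hfg
  obtain ⟨s, hs1, hs2⟩ := trans_flag (k := k) on_y0_l0 hcl
  have h1 := (inc_at hA (contr_B2 hw) (contr_B1 hw) h𝒰 h𝒰' hP hM hq fin h h' hL hSl hSl' he he'
    hU hU' (ι s) hfg).1
  rwa [haP, haL, hs1, hs2] at h1

end inc

end Vale.Agent.P092.H923.PI
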