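import Vale.Agent.P092.H923.PI1

/-!
P092, rows [P2-I1] = [P3-I1] (helper923), part 1: the bounded overlap of near-wall elements with
non-incident attracting data (point wall against the wall of any type `d ≥ 2`), as a statement on
matrices.  Any normed field, any dimension, any bilinear or sesquilinear form.
-/

namespace Vale.Agent.P092.H923.PI

open Matrix

variable {k : Type*} [NormedField k] {n : Type*} [Fintype n] [DecidableEq n]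
  {L : Type*} [Fintype L] [DecidableEq L]

/-- `g` is near the wall of type `L`, with attracting space spanned by the frame `u`. -/
def LW (F : (n → k) →+ (n → k) →ₗ[k] k) (T E : ℝ) (u : L → n → k) (g : Matrix n n k) :
    Prop :=
  (∀ j, ‖g *ᵥ (Pi.single j 1)‖ ≤ E) ∧ ∀ j l, ‖F (g *ᵥ (Pi.single j 1)) (u l)‖ ≤ T / E

/-- The linear combination. -/
def lc (u : L → n → k) (a : L → k) : n → k := ∑ l, a l • u l

omit [Fintype n] [DecidableEq n] in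
theorem lc_single (u : L → n → k) (l : L) (c : k) : lc u (Pi.single l c) = c • u l := by
  unfold lc
  rw [Finset.sum_eq_single l]
  · simp
  · intro i _ hi; simp [hi]
  · intro h; exact absurd (Finset.mem_univ l) h

omit [Fintype n] [DecidableEq n] [DecidableEq L] in
theorem lc_add (u : L → n → k) (a b : L → k) : lc u (a + b) = lc u a + lc u b := by
  unfold lc
  rw [← Finset.sum_add_distrib]
  exact Finset.sum_congr rfl fun l _ => by rw [Pi.add_apply, add_smul]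

variable {F : (n → k) →+ (n → k) →ₗ[k] k} {β : ℝ}

/-- The half `E₁ ≤ E₂` of the overlap. -/
theorem coreD (hF : Frm F β) {L : Type*} [Fintype L] [DecidableEq L] {p0 p1 : L} (hp : p0 ≠ p1)
    {T c δ : ℝ} (hT : 0 ≤ T) (hc : 0 < c) (hδ : 0 < δ) :
    ∃ C : ℝ, 0 ≤ C ∧ ∀ (k₁ k₂ k₁' k₂' g : Matrix n n k), Is F k₁ → Is F k₂ → Is F k₁' →
      Is F k₂' → Is F g → g * k₂ = k₁ → g * k₂' = k₁' →
      ∀ (v₁ v₂ : n → k) (u₁ u₂ : L → n → k) (E₁ E₂ : ℝ), 0 < E₁ → E₁ ≤ E₂ →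
      ‖v₁‖ ≤ 1 → ‖v₂‖ ≤ 1 → (∀ l, ‖u₁ l‖ ≤ 1) → (∀ l, ‖u₂ l‖ ≤ 1) →
      (∀ a : L → k, c * ‖a‖ ≤ ‖lc u₂ a‖) →
      (∃ l, δ ≤ ‖F v₁ (u₁ l)‖) → (∃ l, δ ≤ ‖F v₂ (u₂ l)‖) →
      PWall T v₁ k₁ → PWall T v₂ k₂ → LW F T E₁ u₁ k₁' → LW F T E₂ u₂ k₂' →
      ∀ w, ‖g *ᵥ w‖ ≤ C * ‖w‖ := by
  have hβ := hF.nn
  obtain ⟨N, hN⟩ : ∃ N : ℝ, N = Fintype.card n := ⟨_, rfl⟩
  have hN0 : 0 ≤ N := by rw [hN]; positivity
  obtain ⟨d, hd⟩ : ∃ d : ℝ, d = Fintype.card L := ⟨_, rfl⟩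
  have hd0 : 0 ≤ d := by rw [hd]; positivity
  -- the constants
  obtain ⟨C₁, hC₁⟩ : ∃ C₁ : ℝ, C₁ = N * (β ^ 2 * T) * T * (1 + β / δ) +
      d * N * β * T * (β / δ) := ⟨_, rfl⟩
  have hC₁0 : 0 ≤ C₁ := by rw [hC₁]; positivity
  obtain ⟨D, hD⟩ : ∃ D : ℝ, D = β ^ 2 * C₁ * (d * N * β * T) / c := ⟨_, rfl⟩
  have hD0 : 0 ≤ D := by rw [hD]; positivity
  refine ⟨(N * β ^ 2 * T * D + β * C₁) / δ + C₁, by positivity, ?_⟩
  intro k₁ k₂ k₁' k₂' g i₁ i₂ i₁' i₂' ig hg hg' v₁ v₂ u₁ u₂ E₁ E₂ hE₁ hE nv₁ nv₂ nu₁ nu₂ hu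
    ⟨l₁, s₁⟩ ⟨l₂, s₂⟩ ⟨ψ₁, p₁⟩ ⟨ψ₂, p₂⟩ ⟨e₁, f₁⟩ ⟨e₂, f₂⟩
  have hE₂ : 0 < E₂ := hE₁.trans_le hE
  have gk : ∀ z, g *ᵥ (k₂ *ᵥ z) = k₁ *ᵥ z := fun z => by rw [mulVec_mulVec, hg]
  have gk' : ∀ z, g *ᵥ (k₂' *ᵥ z) = k₁' *ᵥ z := fun z => by rw [mulVec_mulVec, hg']
  -- (i)
  have st1 : ∀ a : L → k, ‖g *ᵥ (lc u₂ a)‖ ≤ d * N * β * T * (E₁ / E₂) * ‖a‖ := by
    intro a
    obtain ⟨z, hz⟩ := i₂'.sur (lc u₂ a)
    have hm : 0 ≤ ‖a‖ := norm_nonneg _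
    have h1 : ‖z‖ ≤ β * (d * (‖a‖ * (T / E₂))) := by
      refine hF.inv_le i₂' (by positivity) z fun j => ?_
      rw [hz]
      unfold lc
      rw [map_sum]
      have ht : 0 ≤ T / E₂ := by positivity
      have h2 := sum_le (fun l => F (k₂' *ᵥ Pi.single j 1) (a l • u₂ l)) a ht fun l => by
        rw [LinearMap.map_smul, smul_eq_mul, norm_mul]
        exact mul_le_mul_of_nonneg_left (f₂ j l) (norm_nonneg _)
      rw [← hd] at h2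
      exact h2
    rw [← hz, gk']
    have h2 := mulVec_le k₁' hE₁.le e₁ z
    rw [← hN] at h2
    calc _ ≤ N * (‖z‖ * E₁) := h2
      _ ≤ N * (β * (d * (‖a‖ * (T / E₂))) * E₁) := by gcongr
      _ = _ := by ring
  have hq : E₁ / E₂ ≤ 1 := (div_le_one hE₂).2 hE
  -- (ii)
  have st2 : ∀ u, F v₂ u = 0 → ∃ t : k, ‖g *ᵥ u - t • v₁‖ ≤ N * (β ^ 2 * T) * T * ‖u‖ := by
    intro u hu0
    obtain ⟨z, hz⟩ := i₂.sur u
    have h1 : ‖z‖ ≤ β * (β * T * ‖u‖) := by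
      refine hF.inv_le i₂ (by positivity) z fun j => ?_
      rw [hz]
      have e : k₂ *ᵥ Pi.single j 1 = ψ₂ j • v₂ + (k₂ *ᵥ Pi.single j 1 - ψ₂ j • v₂) := by abel
      rw [e, map_add, LinearMap.add_apply]
      have e2 : F (ψ₂ j • v₂) u = 0 := by
        rw [← norm_eq_zero, hF.sm, hu0]; simp
      rw [e2, zero_add]
      refine (hF.bd _ _).trans ?_
      exact mul_le_mul_of_nonneg_right (mul_le_mul_of_nonneg_left (p₂ j) hβ) (norm_nonneg _)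
    refine ⟨∑ j, z j * ψ₁ j, ?_⟩
    rw [← hz, gk, hz, mulVec_sum, Finset.sum_smul, ← Finset.sum_sub_distrib]
    have h2 : ‖∑ j, (z j • (k₁ *ᵥ Pi.single j 1) - (z j * ψ₁ j) • v₁)‖ ≤ N * (‖z‖ * T) := by
      rw [hN]
      refine sum_le _ z hT fun j => ?_
      rw [mul_smul, ← smul_sub, norm_smul]
      exact mul_le_mul_of_nonneg_left (p₁ j) (norm_nonneg _)
    calc _ ≤ N * (‖z‖ * T) := h2
      _ ≤ N * (β * (β * T * ‖u‖) * T) := by gcongr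
      _ = _ := by ring
  -- (iii)
  have st3 : ∀ w, ∃ t : k, ‖g *ᵥ w - t • v₁‖ ≤ C₁ * ‖w‖ := by
    intro w
    obtain ⟨a, ha⟩ : ∃ a : k, a = F v₂ w / F v₂ (u₂ l₂) := ⟨_, rfl⟩
    have hne : F v₂ (u₂ l₂) ≠ 0 := by
      rw [← norm_pos_iff]; exact hδ.trans_le s₂
    have na : ‖a‖ ≤ β / δ * ‖w‖ := by
      rw [ha, norm_div, div_le_iff₀ (hδ.trans_le s₂)]
      have h1 := hF.bd v₂ w
      have h2 : β * ‖v₂‖ * ‖w‖ ≤ β * 1 * ‖w‖ := by gcongr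
      have h3 : β / δ * ‖w‖ * δ ≤ β / δ * ‖w‖ * ‖F v₂ (u₂ l₂)‖ := by gcongr
      have h4 : β / δ * ‖w‖ * δ = β * ‖w‖ := by field_simp
      linarith
    have h0 : F v₂ (w - a • u₂ l₂) = 0 := by
      rw [map_sub, LinearMap.map_smul, smul_eq_mul, ha, div_mul_cancel₀ _ hne, sub_self]
    obtain ⟨t, ht⟩ := st2 _ h0
    refine ⟨t, ?_⟩
    have nw : ‖w - a • u₂ l₂‖ ≤ (1 + β / δ) * ‖w‖ := by
      calc _ ≤ ‖w‖ + ‖a • u₂ l₂‖ := norm_sub_le _ _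
        _ ≤ ‖w‖ + β / δ * ‖w‖ * 1 := by
            rw [norm_smul]
            have := nu₂ l₂
            gcongr
        _ = _ := by ring
    have ng : ‖g *ᵥ (a • u₂ l₂)‖ ≤ d * N * β * T * ‖a‖ := by
      have hm : ‖(Pi.single l₂ a : L → k)‖ ≤ ‖a‖ := by
        rw [pi_norm_le_iff_of_nonneg (norm_nonneg _)]
        intro i
        by_cases h : i = l₂
        · subst h; simp
        · simp [h]
      rw [← lc_single u₂ l₂ a]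
      refine (st1 _).trans ?_
      calc d * N * β * T * (E₁ / E₂) * ‖(Pi.single l₂ a : L → k)‖
          ≤ d * N * β * T * 1 * ‖a‖ := by gcongr
        _ = _ := by ring
    have e : g *ᵥ w - t • v₁ = (g *ᵥ (w - a • u₂ l₂) - t • v₁) + g *ᵥ (a • u₂ l₂) := by
      rw [Matrix.mulVec_sub]; abel
    rw [e]
    calc _ ≤ ‖g *ᵥ (w - a • u₂ l₂) - t • v₁‖ + ‖g *ᵥ (a • u₂ l₂)‖ := norm_add_le _ _
      _ ≤ N * (β ^ 2 * T) * T * ((1 + β / δ) * ‖w‖) + d * N * β * T * (β / δ * ‖w‖) := by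
          refine add_le_add (ht.trans ?_) (ng.trans ?_) <;> gcongr
      _ = _ := by rw [hC₁]; ring
  -- (iv)
  have st4 : E₂ / E₁ ≤ D := by
    obtain ⟨a, hab, h0⟩ : ∃ a : L → k, 0 < ‖a‖ ∧ F v₁ (g *ᵥ (lc u₂ a)) = 0 := by
      by_cases hp' : F v₁ (g *ᵥ u₂ p0) = 0
      · refine ⟨Pi.single p0 1, ?_, ?_⟩
        · rw [norm_pos_iff]
          intro h
          have := congrFun h p0
          simp at this
        · rw [lc_single, one_smul, hp']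
      · refine ⟨Pi.single p0 (F v₁ (g *ᵥ u₂ p1)) + Pi.single p1 (-F v₁ (g *ᵥ u₂ p0)), ?_, ?_⟩
        · rw [norm_pos_iff]
          intro h
          have := congrFun h p1
          simp [hp] at this
          exact hp' this
        · rw [lc_add, lc_single, lc_single, Matrix.mulVec_add, Matrix.mulVec_smul,
            Matrix.mulVec_smul, map_add, LinearMap.map_smul, LinearMap.map_smul, smul_eq_mul,
            smul_eq_mul]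
          ring
    obtain ⟨u, hu'⟩ : ∃ u, u = lc u₂ a := ⟨_, rfl⟩
    rw [← hu'] at h0
    have h1 : ‖u‖ ≤ β * (β * C₁ * ‖g *ᵥ u‖) := by
      refine hF.inv_le ig (by positivity) u fun j => ?_
      obtain ⟨t, ht⟩ := st3 (Pi.single j 1)
      have e : g *ᵥ Pi.single j 1 = t • v₁ + (g *ᵥ Pi.single j 1 - t • v₁) := by abel
      rw [e, map_add, LinearMap.add_apply]
      have e2 : F (t • v₁) (g *ᵥ u) = 0 := by
        rw [← norm_eq_zero, hF.sm, h0]; simp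
      rw [e2, zero_add]
      refine (hF.bd _ _).trans ?_
      have h3 : ‖g *ᵥ Pi.single j 1 - t • v₁‖ ≤ C₁ := by
        refine ht.trans ?_
        calc C₁ * ‖(Pi.single j (1 : k) : n → k)‖ ≤ C₁ * 1 :=
              mul_le_mul_of_nonneg_left (norm_single_le j) hC₁0
          _ = C₁ := mul_one _
      exact mul_le_mul_of_nonneg_right (mul_le_mul_of_nonneg_left h3 hβ) (norm_nonneg _)
    have h2 := hu a
    have h3 := st1 a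
    rw [← hu'] at h2 h3
    have h4 : c * ‖a‖ ≤ β ^ 2 * C₁ * (d * N * β * T * (E₁ / E₂)) * ‖a‖ := by
      calc _ ≤ ‖u‖ := h2
        _ ≤ β * (β * C₁ * ‖g *ᵥ u‖) := h1
        _ ≤ β * (β * C₁ * (d * N * β * T * (E₁ / E₂) * ‖a‖)) := by gcongr
        _ = _ := by ring
    have h5 := le_of_mul_le_mul_right h4 hab
    rw [hD, div_le_div_iff₀ hE₁ hc]
    have h6 : β ^ 2 * C₁ * (d * N * β * T * (E₁ / E₂)) =
        β ^ 2 * C₁ * (d * N * β * T) * E₁ / E₂ := by ring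
    rw [h6, le_div_iff₀ hE₂] at h5
    linarith
  -- (v), (vi)
  intro w
  obtain ⟨z, hz⟩ := i₂'.sur w
  have h1 : ‖z‖ ≤ β * (β * E₂ * ‖w‖) := by
    refine hF.inv_le i₂' (by positivity) z fun j => ?_
    rw [hz]
    refine (hF.bd _ _).trans ?_
    exact mul_le_mul_of_nonneg_right (mul_le_mul_of_nonneg_left (e₂ j) hβ) (norm_nonneg _)
  have h2 : ‖F (g *ᵥ w) (u₁ l₁)‖ ≤ N * β ^ 2 * T * D * ‖w‖ := by
    rw [← hz, gk', hz]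
    have h3 := hF.mulVec_le k₁' (ε := T / E₁) (by positivity) (u₁ l₁) (fun j => f₁ j l₁) z
    rw [← hN] at h3
    calc _ ≤ N * (‖z‖ * (T / E₁)) := h3
      _ ≤ N * (β * (β * E₂ * ‖w‖) * (T / E₁)) := by gcongr
      _ = N * β ^ 2 * T * (E₂ / E₁) * ‖w‖ := by ring
      _ ≤ _ := by gcongr
  obtain ⟨t, ht⟩ := st3 w
  have h3 : ‖t‖ * δ ≤ (N * β ^ 2 * T * D + β * C₁) * ‖w‖ := by
    have e : F (t • v₁) (u₁ l₁) = F (g *ᵥ w) (u₁ l₁) - F (g *ᵥ w - t • v₁) (u₁ l₁) := by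
      rw [map_sub, LinearMap.sub_apply]; ring
    have h4 : ‖F (t • v₁) (u₁ l₁)‖ ≤ N * β ^ 2 * T * D * ‖w‖ + β * (C₁ * ‖w‖) * 1 := by
      rw [e]
      refine (norm_sub_le _ _).trans (add_le_add h2 ((hF.bd _ _).trans ?_))
      have := nu₁ l₁
      gcongr
    rw [hF.sm] at h4
    calc _ ≤ ‖t‖ * ‖F v₁ (u₁ l₁)‖ := by gcongr
      _ ≤ _ := h4
      _ = _ := by ring
  have h5 : ‖t‖ ≤ (N * β ^ 2 * T * D + β * C₁) / δ * ‖w‖ := by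
    rw [div_mul_eq_mul_div, le_div_iff₀ hδ]; exact h3
  calc ‖g *ᵥ w‖ = ‖t • v₁ + (g *ᵥ w - t • v₁)‖ := by congr 1; abel
    _ ≤ ‖t • v₁‖ + ‖g *ᵥ w - t • v₁‖ := norm_add_le _ _
    _ ≤ (N * β ^ 2 * T * D + β * C₁) / δ * ‖w‖ * 1 + C₁ * ‖w‖ := by
        rw [norm_smul]
        gcongr
    _ = _ := by ring

/-- **Bounded overlap**: if `k₁, k₂` are near the point wall, `k₁', k₂'` near the wall of type
`L`, with non-incident attracting data, and `k₁ k₂⁻¹ = k₁' k₂'⁻¹ = g`, then `g` is bounded. -/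
theorem ovlD (hF : Frm F β) {L : Type*} [Fintype L] [DecidableEq L] {p0 p1 : L} (hp : p0 ≠ p1)
    {T c δ : ℝ} (hT : 0 ≤ T) (hc : 0 < c) (hδ : 0 < δ) :
    ∃ C : ℝ, 0 ≤ C ∧ ∀ (k₁ k₂ k₁' k₂' g h : Matrix n n k), Is F k₁ → Is F k₂ → Is F k₁' →
      Is F k₂' → Is F g → Is F h → h * g = 1 → g * k₂ = k₁ → g * k₂' = k₁' →
      ∀ (v₁ v₂ : n → k) (u₁ u₂ : L → n → k) (E₁ E₂ : ℝ), 0 < E₁ → 0 < E₂ →
      ‖v₁‖ ≤ 1 → ‖v₂‖ ≤ 1 → (∀ l, ‖u₁ l‖ ≤ 1) → (∀ l, ‖u₂ l‖ ≤ 1) →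
      (∀ a : L → k, c * ‖a‖ ≤ ‖lc u₁ a‖) →
      (∀ a : L → k, c * ‖a‖ ≤ ‖lc u₂ a‖) →
      (∃ l, δ ≤ ‖F v₁ (u₁ l)‖) → (∃ l, δ ≤ ‖F v₂ (u₂ l)‖) →
      PWall T v₁ k₁ → PWall T v₂ k₂ → LW F T E₁ u₁ k₁' → LW F T E₂ u₂ k₂' →
      ∀ w, ‖g *ᵥ w‖ ≤ C * ‖w‖ := by
  obtain ⟨C, hC, H⟩ := coreD hF hp (T := T) (c := c) (δ := δ) hT hc hδ
  have hβ := hF.nn
  refine ⟨C + β * (β * C), by positivity, ?_⟩
  intro k₁ k₂ k₁' k₂' g h i₁ i₂ i₁' i₂' ig ih hgh hg hg' v₁ v₂ u₁ u₂ E₁ E₂ hE₁ hE₂ nv₁ nv₂ nu₁ nu₂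
    hu₁ hu₂ s₁ s₂ p₁ p₂ l₁ l₂ w
  rcases le_total E₁ E₂ with hE | hE
  · have := H k₁ k₂ k₁' k₂' g i₁ i₂ i₁' i₂' ig hg hg' v₁ v₂ u₁ u₂ E₁ E₂ hE₁ hE nv₁ nv₂ nu₁ nu₂
      hu₂ s₁ s₂ p₁ p₂ l₁ l₂ w
    have h2 : 0 ≤ β * (β * C) * ‖w‖ := by positivity
    calc _ ≤ _ := this
      _ ≤ _ := by nlinarith
  · have e1 : h * k₁ = k₂ := by rw [← hg, ← Matrix.mul_assoc, hgh, Matrix.one_mul]
    have e2 : h * k₁' = k₂' := by rw [← hg', ← Matrix.mul_assoc, hgh, Matrix.one_mul]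
    have := hF.bd_inv ih hC (g := g) (fun x => by rw [mulVec_mulVec, hgh, one_mulVec])
      (H k₂ k₁ k₂' k₁' h i₂ i₁ i₂' i₁' ih e1 e2 v₂ v₁ u₂ u₁ E₂ E₁ hE₂ hE nv₂ nv₁ nu₂ nu₁
        hu₁ s₂ s₁ p₂ p₁ l₂ l₁) w
    have h2 : 0 ≤ C * ‖w‖ := by positivity
    calc _ ≤ _ := this
      _ ≤ _ := by nlinarith

end Vale.Agent.P092.H923.PI
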