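import Vale.Agent.P092.H923.PJ1
import Vale.Agent.P092.H923.PI2

/-!
P092, rows [P2-I1] = [P3-I1] (helper923), part 2: near-wall elements (type `1` and type `d`) as
matrices, without any hypothesis on the determinant.
-/

set_option linter.unusedSectionVars false

namespace Vale.Agent.P092.H923.PI

open Matrix Topology
open scoped LinearAlgebra.Projectivization
open Vale.Agent.P092.H337.NG (en m2 mi SLn en_nonneg m2_nonneg entry_le en_le_of m2_le_of mi_le
  exists_piv norm_mulVec_le norm_det_le)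

variable {k : Type*} {n : ℕ} [NormedField k]

/-- `g` is an isometry of the form (columns). -/
def IsoM (σ : k →+* k) (J : Matrix (Fin n) (Fin n) k) (g : Matrix (Fin n) (Fin n) k) : Prop :=
  (g.map σ)ᵀ * J * g = J

section iso

variable {σ : k →+* k} {J J' : Matrix (Fin n) (Fin n) k} {g h : Matrix (Fin n) (Fin n) k}

theorem Iso.toM {g : SLn k n} (hg : Iso σ J g) : IsoM σ J g.1 := hg

theorem IsoM.app (hg : IsoM σ J g) (x y : Fin n → k) :
    bF σ J (g *ᵥ x) (g *ᵥ y) = bF σ J x y := by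
  rw [bF_apply, bF_apply]
  have e : (fun i => σ ((g *ᵥ x) i)) = (g.map σ) *ᵥ fun i => σ (x i) := by
    funext i
    simp [Matrix.mulVec, dotProduct]
  conv_rhs => rw [← hg]
  rw [e, ← mulVec_mulVec, ← mulVec_mulVec, Matrix.dotProduct_mulVec (fun i => σ (x i)),
    Matrix.vecMul_transpose]

theorem IsoM.left_inv (hJ : J' * J = 1) (hg : IsoM σ J g) :
    (J' * (g.map σ)ᵀ * J) * g = 1 := by
  calc (J' * (g.map σ)ᵀ * J) * g = J' * ((g.map σ)ᵀ * J * g) := by simp only [Matrix.mul_assoc]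
    _ = 1 := by rw [show (g.map σ)ᵀ * J * g = J from hg, hJ]

theorem IsoM.isUnit (hJ : J' * J = 1) (hg : IsoM σ J g) : IsUnit g :=
  isUnit_iff_exists.2 ⟨J' * (g.map σ)ᵀ * J, mul_eq_one_comm.1 (hg.left_inv hJ), hg.left_inv hJ⟩

theorem IsoM.is (hJ : J' * J = 1) (hg : IsoM σ J g) : Is (bF σ J) g :=
  ⟨hg.app, fun y => ⟨(J' * (g.map σ)ᵀ * J) *ᵥ y, by
    rw [mulVec_mulVec, mul_eq_one_comm.1 (hg.left_inv hJ), one_mulVec]⟩⟩

theorem IsoM.mul (hg : IsoM σ J g) (hh : IsoM σ J h) : IsoM σ J (g * h) := by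
  unfold IsoM at *
  rw [Matrix.map_mul, Matrix.transpose_mul]
  calc _ = (h.map σ)ᵀ * ((g.map σ)ᵀ * J * g) * h := by simp only [Matrix.mul_assoc]
    _ = J := by rw [hg, hh]

/-- If `h` is an isometry with inverse `h'` then `h'` is an isometry. -/
theorem IsoM.inv (hh : IsoM σ J h) {h' : Matrix (Fin n) (Fin n) k} (e : h * h' = 1) :
    IsoM σ J h' := by
  unfold IsoM at *
  have h2 : (h'.map σ)ᵀ * (h.map σ)ᵀ = 1 := by
    rw [← Matrix.transpose_mul, ← Matrix.map_mul, e, Matrix.map_one _ (map_zero σ) (map_one σ),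
      Matrix.transpose_one]
  calc (h'.map σ)ᵀ * J * h' = (h'.map σ)ᵀ * ((h.map σ)ᵀ * J * h) * h' := by rw [hh]
    _ = ((h'.map σ)ᵀ * (h.map σ)ᵀ) * J * (h * h') := by simp only [Matrix.mul_assoc]
    _ = J := by rw [e, h2, Matrix.one_mul, Matrix.mul_one]

theorem IsoM.en_pos [NeZero n] (hJ : J' * J = 1) (hg : IsoM σ J g) : 0 < en g := by
  have h1 : g ≠ 0 := (hg.isUnit hJ).ne_zero
  by_contra hc
  push Not at hc
  apply h1
  ext i j
  exact norm_le_zero_iff.1 ((entry_le g i j).trans hc)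

end iso

section walls

variable [NeZero n]

/-- The pivot entry. -/
noncomputable def peM (g : Matrix (Fin n) (Fin n) k) : k :=
  g (exists_piv g).choose.1 (exists_piv g).choose.2

theorem norm_peM (g : Matrix (Fin n) (Fin n) k) : ‖peM g‖ = en g := (exists_piv g).choose_spec

theorem peM_ne {g : Matrix (Fin n) (Fin n) k} (h : 0 < en g) : peM g ≠ 0 := by
  rw [← norm_pos_iff, norm_peM]; exact h

/-- A column divided by the pivot. -/
noncomputable def clM (g : Matrix (Fin n) (Fin n) k) (j : Fin n) : Fin n → k :=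
  (peM g)⁻¹ • fun i => g i j

theorem norm_clM_le (g : Matrix (Fin n) (Fin n) k) (h : 0 < en g) (j : Fin n) :
    ‖clM g j‖ ≤ 1 := by
  unfold clM
  rw [norm_smul, norm_inv, norm_peM, inv_mul_le_iff₀ h, mul_one,
    pi_norm_le_iff_of_nonneg (en_nonneg _)]
  exact fun i => entry_le _ _ _

/-- The attracting vector. -/
noncomputable def avM (g : Matrix (Fin n) (Fin n) k) : Fin n → k :=
  clM g (exists_piv g).choose.2

theorem norm_avM (g : Matrix (Fin n) (Fin n) k) (h : 0 < en g) : ‖avM g‖ = 1 := by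
  refine le_antisymm (norm_clM_le g h _) ?_
  have h1 := norm_le_pi_norm (avM g) (exists_piv g).choose.1
  have h2 : avM g (exists_piv g).choose.1 = 1 := by
    change (peM g)⁻¹ * peM g = 1
    exact inv_mul_cancel₀ (peM_ne h)
  rw [h2, norm_one] at h1
  exact h1

theorem pwallM {R : ℝ} (g : Matrix (Fin n) (Fin n) k) (h0 : 0 < en g) (h : m2 g ≤ R * en g) :
    PWall R (avM g) g := by
  have hR : m2 g / en g ≤ R := by rw [div_le_iff₀ h0]; exact h
  refine ⟨fun j => g (exists_piv g).choose.1 j, fun j => ?_⟩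
  have hR0 : 0 ≤ R := (div_nonneg (m2_nonneg _) (en_nonneg _)).trans hR
  rw [pi_norm_le_iff_of_nonneg hR0]
  intro i
  have hp := peM_ne h0
  have e : (g *ᵥ Pi.single j 1 - g (exists_piv g).choose.1 j • avM g) i =
      (peM g)⁻¹ * mi g (exists_piv g).choose.1 i (exists_piv g).choose.2 j := by
    rw [Pi.sub_apply, mulVec_single_one]
    unfold avM clM mi
    simp only [Pi.smul_apply, smul_eq_mul, Matrix.col_apply]
    change _ = (peM g)⁻¹ * (peM g * g i j - _)
    field_simp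
  rw [e, norm_mul, norm_inv, norm_peM, inv_mul_le_iff₀ h0]
  rw [div_le_iff₀ h0] at hR
  calc _ ≤ m2 g := mi_le _ _ _ _ _
    _ ≤ R * en g := hR
    _ = _ := mul_comm _ _

theorem lwM {σ : k →+* k} {J : Matrix (Fin n) (Fin n) k} {g : Matrix (Fin n) (Fin n) k}
    (hg : IsoM σ J g) {L : Type*} (j₀ : L → Fin n) :
    LW (bF σ J) (en J) (en g) (fun l => clM g (j₀ l)) g := by
  refine ⟨fun j => ?_, fun j l => ?_⟩
  · rw [pi_norm_le_iff_of_nonneg (en_nonneg _)]
    intro i
    rw [mulVec_single_one]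
    exact entry_le g i j
  · change ‖bF σ J (g *ᵥ Pi.single j 1) (clM g (j₀ l))‖ ≤ _
    have e : clM g (j₀ l) = (peM g)⁻¹ • (g *ᵥ Pi.single (j₀ l) 1) := by
      unfold clM
      rw [mulVec_single_one]
      rfl
    rw [e, LinearMap.map_smul, smul_eq_mul, norm_mul, norm_inv, norm_peM, hg.app, bF_single,
      mulVec_single_one, inv_mul_eq_div]
    exact div_le_div_of_nonneg_right (entry_le J j (j₀ l)) (en_nonneg _)

/-- The maximum of the norms of the `d × d` minors. -/
noncomputable def md (d : ℕ) (g : Matrix (Fin n) (Fin n) k) : ℝ :=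
  ‖(fun I j => (g.submatrix I j).det : (Fin d → Fin n) → (Fin d → Fin n) → k)‖

theorem md_nonneg (d : ℕ) (g : Matrix (Fin n) (Fin n) k) : 0 ≤ md d g := norm_nonneg _

theorem det_le_md {d : ℕ} (g : Matrix (Fin n) (Fin n) k) (I j : Fin d → Fin n) :
    ‖(g.submatrix I j).det‖ ≤ md d g :=
  (norm_le_pi_norm (fun j => (g.submatrix I j).det : (Fin d → Fin n) → k) j).trans
    (norm_le_pi_norm
      (fun I j => (g.submatrix I j).det : (Fin d → Fin n) → (Fin d → Fin n) → k) I)

theorem md_le_of {d : ℕ} {g : Matrix (Fin n) (Fin n) k} {C : ℝ} (hC : 0 ≤ C)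
    (h : ∀ I j : Fin d → Fin n, ‖(g.submatrix I j).det‖ ≤ C) : md d g ≤ C := by
  unfold md
  rw [pi_norm_le_iff_of_nonneg hC]
  intro i
  rw [pi_norm_le_iff_of_nonneg hC]
  exact h i

theorem md_two (g : Matrix (Fin n) (Fin n) k) : md 2 g = m2 g := by
  refine le_antisymm (md_le_of (m2_nonneg _) fun I j => ?_)
    (m2_le_of (md_nonneg _ _) fun i i' j j' => ?_)
  · have h := mi_le g (I 0) (I 1) (j 0) (j 1)
    refine le_trans (le_of_eq ?_) h
    rw [Matrix.det_fin_two]
    unfold mi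
    simp only [Matrix.submatrix_apply]
    congr 1
    ring
  · have h := det_le_md g ![i, i'] ![j, j']
    refine le_trans (le_of_eq ?_) h
    rw [Matrix.det_fin_two]
    unfold mi
    simp only [Matrix.submatrix_apply, Matrix.cons_val_zero, Matrix.cons_val_one]
    congr 1
    ring

theorem exists_md (d : ℕ) (g : Matrix (Fin n) (Fin n) k) :
    ∃ I j : Fin d → Fin n, ‖(g.submatrix I j).det‖ = md d g := by
  obtain ⟨p, hp⟩ := Finite.exists_max fun p : (Fin d → Fin n) × (Fin d → Fin n) =>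
    ‖(g.submatrix p.1 p.2).det‖
  refine ⟨p.1, p.2, le_antisymm (det_le_md g _ _) ?_⟩
  exact md_le_of (norm_nonneg _) fun I j => hp (I, j)

/-- The entries of the adjugate of a matrix with entries of norm `≤ 1`. -/
theorem adj_le {d : ℕ} {M : Matrix (Fin d) (Fin d) k} (h : ∀ i j, ‖M i j‖ ≤ 1) (i j : Fin d) :
    ‖M.adjugate i j‖ ≤ d.factorial := by
  rw [Matrix.adjugate_apply]
  have h1 := norm_det_le (M.updateRow j (Pi.single i 1)) (fun _ => 1) fun a b => by
    by_cases ha : a = j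
    · subst ha
      rw [Matrix.updateRow_self]
      exact (norm_le_pi_norm (Pi.single i (1 : k) : Fin d → k) b).trans (norm_single_le i)
    · rw [Matrix.updateRow_ne ha]
      exact h a b
  simpa using h1

theorem frame_lowD {d : ℕ} (hd : 0 < d) {R : ℝ} (hR : 0 < R) (g : Matrix (Fin n) (Fin n) k)
    (h0 : 0 < en g) (h : en g ^ d ≤ R * md d g) :
    ∃ j₀ : Fin d → Fin n, ∀ a : Fin d → k, (R * (d * d.factorial))⁻¹ * ‖a‖ ≤
      ‖lc (fun l => clM g (j₀ l)) a‖ := by
  obtain ⟨I, j₀, hm⟩ := exists_md d g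
  refine ⟨j₀, fun a => ?_⟩
  obtain ⟨x, hx⟩ : ∃ x, x = lc (fun l => clM g (j₀ l)) a := ⟨_, rfl⟩
  rw [← hx]
  obtain ⟨M, hM⟩ : ∃ M : Matrix (Fin d) (Fin d) k, M = (peM g)⁻¹ • g.submatrix I j₀ := ⟨_, rfl⟩
  have hMe : ∀ i j, ‖M i j‖ ≤ 1 := by
    intro i j
    rw [hM, Matrix.smul_apply, Matrix.submatrix_apply, smul_eq_mul, norm_mul, norm_inv, norm_peM,
      inv_mul_le_iff₀ h0, mul_one]
    exact entry_le _ _ _
  have hdet : ‖M.det‖ * en g ^ d = md d g := by
    rw [hM, Matrix.det_smul, norm_mul, norm_pow, norm_inv, norm_peM, hm, Fintype.card_fin,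
      inv_pow, mul_comm _ (md d g), mul_assoc, inv_mul_cancel₀ (pow_pos h0 d).ne', mul_one]
  have hdet' : 1 ≤ R * ‖M.det‖ := by
    have h1 : 0 < en g ^ d := pow_pos h0 d
    have h2 : 1 * en g ^ d ≤ R * ‖M.det‖ * en g ^ d := by
      rw [one_mul, mul_assoc, hdet]; exact h
    exact le_of_mul_le_mul_right h2 h1
  have hxM : (fun i => x (I i)) = M *ᵥ a := by
    funext i
    rw [hx, hM]
    unfold lc clM
    simp only [Finset.sum_apply, Pi.smul_apply, smul_eq_mul, Matrix.mulVec, dotProduct,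
      Matrix.smul_apply, Matrix.submatrix_apply]
    exact Finset.sum_congr rfl fun l _ => by ring
  have hadj : M.adjugate *ᵥ (fun i => x (I i)) = M.det • a := by
    rw [hxM, mulVec_mulVec, Matrix.adjugate_mul, Matrix.smul_mulVec, one_mulVec]
  have hxn : ‖(fun i => x (I i))‖ ≤ ‖x‖ := by
    rw [pi_norm_le_iff_of_nonneg (norm_nonneg _)]
    exact fun i => norm_le_pi_norm x (I i)
  have h2 := norm_mulVec_le M.adjugate (fun i => x (I i))
  have h3 : en M.adjugate ≤ d.factorial :=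
    en_le_of (Nat.cast_nonneg _) fun i j => adj_le hMe i j
  rw [hadj, norm_smul] at h2
  have hdf : (0 : ℝ) < d * d.factorial := by
    have : (0 : ℝ) < d := Nat.cast_pos.2 hd
    have : (0 : ℝ) < d.factorial := Nat.cast_pos.2 (Nat.factorial_pos d)
    positivity
  have h4 : ‖M.det‖ * ‖a‖ ≤ d * d.factorial * ‖x‖ := by
    calc _ ≤ _ := h2
      _ ≤ d * (d.factorial * ‖x‖) := by gcongr
      _ = _ := by ring
  rw [inv_mul_le_iff₀ (by positivity)]
  calc ‖a‖ = 1 * ‖a‖ := (one_mul _).symm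
    _ ≤ R * ‖M.det‖ * ‖a‖ := by gcongr
    _ = R * (‖M.det‖ * ‖a‖) := by ring
    _ ≤ R * (d * d.factorial * ‖x‖) := by gcongr
    _ = _ := by ring

end walls

end Vale.Agent.P092.H923.PI
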