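import Vale.Agent.P092.H923.PJ1
import Vale.Agent.P092.H337.NGc
import Vale.Agent.P092.H644.Gr3

/-!
P092, row [CL-I1] (helper923), part 4: forms and near-wall elements (type `1` and type `d`) on any
index type; expansion of `d`-frames in place of minors.
-/

set_option linter.unusedSectionVars false

namespace Vale.Agent.P092.H923.PJ

open Matrix Topology Module
open scoped LinearAlgebra.Projectivization
open Vale.Agent.P092.H923.PI
open Vale.Agent.P092.H100.Gr (Gr Fr sp ch ch_mn ch_compact exists_ch li_of_mn sp_cont eq_of_le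
  fr_val_cont)

variable {k : Type*} {ι : Type*} [Fintype ι] [DecidableEq ι] [NormedField k]

/-- The maximum of the norms of the entries. -/
noncomputable def en (A : Matrix ι ι k) : ℝ := ‖(fun i j => A i j : ι → ι → k)‖

/-- The `2 × 2` minor of the rows `i, i'` and the columns `j, j'`. -/
def mi (A : Matrix ι ι k) (i i' j j' : ι) : k := A i j * A i' j' - A i' j * A i j'

/-- The maximum of the norms of the `2 × 2` minors. -/
noncomputable def m2 (A : Matrix ι ι k) : ℝ :=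
  ‖(fun i i' j j' => mi A i i' j j' : ι → ι → ι → ι → k)‖

theorem en_nonneg (A : Matrix ι ι k) : 0 ≤ en A := norm_nonneg _

theorem m2_nonneg (A : Matrix ι ι k) : 0 ≤ m2 A := norm_nonneg _

theorem entry_le (A : Matrix ι ι k) (i j : ι) : ‖A i j‖ ≤ en A :=
  (norm_le_pi_norm (fun j => A i j : ι → k) j).trans
    (norm_le_pi_norm (fun i j => A i j : ι → ι → k) i)

theorem en_le_of {A : Matrix ι ι k} {C : ℝ} (hC : 0 ≤ C) (h : ∀ i j, ‖A i j‖ ≤ C) : en A ≤ C := by
  unfold en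
  rw [pi_norm_le_iff_of_nonneg hC]
  intro i
  rw [pi_norm_le_iff_of_nonneg hC]
  exact h i

theorem mi_le (A : Matrix ι ι k) (i i' j j' : ι) : ‖mi A i i' j j'‖ ≤ m2 A :=
  (norm_le_pi_norm (fun j' => mi A i i' j j' : ι → k) j').trans
    ((norm_le_pi_norm (fun j j' => mi A i i' j j' : ι → ι → k) j).trans
      ((norm_le_pi_norm (fun i' j j' => mi A i i' j j' : ι → ι → ι → k) i').trans
        (norm_le_pi_norm (fun i i' j j' => mi A i i' j j' : ι → ι → ι → ι → k) i)))

theorem norm_mulVec_le (A : Matrix ι ι k) (v : ι → k) :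
    ‖A *ᵥ v‖ ≤ Fintype.card ι * (en A * ‖v‖) := by
  have h0 := en_nonneg A
  rw [pi_norm_le_iff_of_nonneg (by positivity)]
  intro i
  calc ‖(A *ᵥ v) i‖ = ‖∑ j, A i j * v j‖ := rfl
    _ ≤ ∑ _j : ι, en A * ‖v‖ := by
        refine norm_sum_le_of_le _ fun j _ => ?_
        rw [norm_mul]
        exact mul_le_mul (entry_le A _ _) (norm_le_pi_norm v j) (norm_nonneg _) h0
    _ = _ := by simp

/-! ### The form -/

/-- `Σ σ(x_i) (J y)_i`. -/
noncomputable def bF (σ : k →+* k) (J : Matrix ι ι k) : (ι → k) →+ (ι → k) →ₗ[k] k where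
  toFun x := Matrix.toBilin' J (fun i => σ (x i))
  map_zero' := by
    have : (fun i => σ ((0 : ι → k) i)) = 0 := by funext i; simp
    rw [this, map_zero]
  map_add' x y := by
    have : (fun i => σ ((x + y) i)) = (fun i => σ (x i)) + fun i => σ (y i) := by
      funext i; simp
    rw [this, map_add]

theorem bF_apply (σ : k →+* k) (J : Matrix ι ι k) (x y : ι → k) :
    bF σ J x y = (fun i => σ (x i)) ⬝ᵥ (J *ᵥ y) := Matrix.toBilin'_apply' _ _ _

theorem bF_single (σ : k →+* k) (J : Matrix ι ι k) (j : ι) (y : ι → k) :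
    bF σ J (Pi.single j 1) y = (J *ᵥ y) j := by
  rw [bF_apply]
  have : (fun i => σ ((Pi.single j 1 : ι → k) i)) = Pi.single j 1 := by
    funext i
    by_cases h : i = j
    · subst h; simp
    · simp [h]
  rw [this, single_one_dotProduct]

theorem norm_dot_le (x y : ι → k) : ‖x ⬝ᵥ y‖ ≤ Fintype.card ι * (‖x‖ * ‖y‖) := by
  calc ‖∑ i, x i * y i‖ ≤ ∑ _i : ι, ‖x‖ * ‖y‖ := by
        refine norm_sum_le_of_le _ fun i _ => ?_
        rw [norm_mul]
        exact mul_le_mul (norm_le_pi_norm x i) (norm_le_pi_norm y i) (norm_nonneg _)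
          (norm_nonneg _)
    _ = _ := by simp

theorem frm_bF (σ : k →+* k) (hσ : ∀ x, ‖σ x‖ = ‖x‖) {J J' : Matrix ι ι k}
    (hJ : J' * J = 1) : ∃ β : ℝ, Frm (bF σ J) β := by
  have h0 := en_nonneg J
  have h1 := en_nonneg J'
  obtain ⟨N, hN⟩ : ∃ N : ℝ, N = Fintype.card ι := ⟨_, rfl⟩
  have hn : 0 ≤ N := by rw [hN]; positivity
  have hs : ∀ x : ι → k, ‖(fun i => σ (x i))‖ = ‖x‖ := fun x => by
    refine le_antisymm ?_ ?_
    · rw [pi_norm_le_iff_of_nonneg (norm_nonneg _)]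
      intro i
      rw [hσ]
      exact norm_le_pi_norm x i
    · rw [pi_norm_le_iff_of_nonneg (norm_nonneg _)]
      intro i
      rw [← hσ]
      exact norm_le_pi_norm (fun i => σ (x i)) i
  refine ⟨N * (N * en J) + N * en J', by positivity, fun a x y => ?_, fun x y => ?_,
    fun ε w hε h => ?_⟩
  · rw [bF_apply, bF_apply]
    have : (fun i => σ ((a • x) i)) = σ a • fun i => σ (x i) := by
      funext i; simp
    rw [this, smul_dotProduct, smul_eq_mul, norm_mul, hσ]
  · rw [bF_apply]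
    have h2 := norm_dot_le (fun i => σ (x i)) (J *ᵥ y)
    rw [hs, ← hN] at h2
    have h3 := norm_mulVec_le J y
    rw [← hN] at h3
    calc _ ≤ _ := h2
      _ ≤ N * (‖x‖ * (N * (en J * ‖y‖))) := by gcongr
      _ = N * (N * en J) * ‖x‖ * ‖y‖ := by ring
      _ ≤ _ := by gcongr; linarith [mul_nonneg hn h1]
  · have h2 : ‖J *ᵥ w‖ ≤ ε := by
      rw [pi_norm_le_iff_of_nonneg hε]
      intro j
      rw [← bF_single σ J]
      exact h j
    have h3 := norm_mulVec_le J' (J *ᵥ w)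
    rw [mulVec_mulVec, hJ, one_mulVec, ← hN] at h3
    calc _ ≤ _ := h3
      _ ≤ N * (en J' * ε) := by gcongr
      _ = N * en J' * ε := by ring
      _ ≤ _ := by gcongr; linarith [mul_nonneg hn (mul_nonneg hn h0)]

/-- `g` is an isometry of the form (columns). -/
def IsoM (σ : k →+* k) (J : Matrix ι ι k) (g : Matrix ι ι k) : Prop :=
  (g.map σ)ᵀ * J * g = J

section iso

variable {σ : k →+* k} {J J' : Matrix ι ι k} {g h : Matrix ι ι k}

theorem IsoM.app (hg : IsoM σ J g) (x y : ι → k) :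
    bF σ J (g *ᵥ x) (g *ᵥ y) = bF σ J x y := by
  rw [bF_apply, bF_apply]
  have e : (fun i => σ ((g *ᵥ x) i)) = (g.map σ) *ᵥ fun i => σ (x i) := by
    funext i
    simp [Matrix.mulVec, dotProduct]
  conv_rhs => rw [← hg]
  rw [e, ← mulVec_mulVec, ← mulVec_mulVec, Matrix.dotProduct_mulVec (fun i => σ (x i)),
    Matrix.vecMul_transpose]

theorem IsoM.left_inv (hJ : J' * J = 1) (hg : IsoM σ J g) :
    (J' * (g.map σ)ᵀ * J) * g = 1 := by
  calc (J' * (g.map σ)ᵀ * J) * g = J' * ((g.map σ)ᵀ * J * g) := by simp only [Matrix.mul_assoc]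
    _ = 1 := by rw [show (g.map σ)ᵀ * J * g = J from hg, hJ]

theorem IsoM.isUnit (hJ : J' * J = 1) (hg : IsoM σ J g) : IsUnit g :=
  isUnit_iff_exists.2 ⟨J' * (g.map σ)ᵀ * J, mul_eq_one_comm.1 (hg.left_inv hJ), hg.left_inv hJ⟩

theorem IsoM.is (hJ : J' * J = 1) (hg : IsoM σ J g) : Is (bF σ J) g :=
  ⟨hg.app, fun y => ⟨(J' * (g.map σ)ᵀ * J) *ᵥ y, by
    rw [mulVec_mulVec, mul_eq_one_comm.1 (hg.left_inv hJ), one_mulVec]⟩⟩

theorem IsoM.one : IsoM σ J 1 := by
  unfold IsoM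
  rw [Matrix.map_one _ (map_zero σ) (map_one σ), Matrix.transpose_one, Matrix.one_mul,
    Matrix.mul_one]

theorem IsoM.mul (hg : IsoM σ J g) (hh : IsoM σ J h) : IsoM σ J (g * h) := by
  unfold IsoM at *
  rw [Matrix.map_mul, Matrix.transpose_mul]
  calc _ = (h.map σ)ᵀ * ((g.map σ)ᵀ * J * g) * h := by simp only [Matrix.mul_assoc]
    _ = J := by rw [hg, hh]

/-- If `h` is an isometry with inverse `h'` then `h'` is an isometry. -/
theorem IsoM.inv (hh : IsoM σ J h) {h' : Matrix ι ι k} (e : h * h' = 1) :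
    IsoM σ J h' := by
  unfold IsoM at *
  have h2 : (h'.map σ)ᵀ * (h.map σ)ᵀ = 1 := by
    rw [← Matrix.transpose_mul, ← Matrix.map_mul, e, Matrix.map_one _ (map_zero σ) (map_one σ),
      Matrix.transpose_one]
  calc (h'.map σ)ᵀ * J * h' = (h'.map σ)ᵀ * ((h.map σ)ᵀ * J * h) * h' := by rw [hh]
    _ = ((h'.map σ)ᵀ * (h.map σ)ᵀ) * J * (h * h') := by simp only [Matrix.mul_assoc]
    _ = J := by rw [e, h2, Matrix.one_mul, Matrix.mul_one]

theorem IsoM.en_pos [Nonempty ι] (hJ : J' * J = 1) (hg : IsoM σ J g) : 0 < en g := by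
  have h1 : g ≠ 0 := (hg.isUnit hJ).ne_zero
  by_contra hc
  push Not at hc
  apply h1
  ext i j
  exact norm_le_zero_iff.1 ((entry_le g i j).trans hc)

end iso

/-! ### The pivot -/

section walls

variable [Nonempty ι]

theorem exists_piv (A : Matrix ι ι k) : ∃ p : ι × ι, ‖A p.1 p.2‖ = en A := by
  obtain ⟨p, hp⟩ := Finite.exists_max fun p : ι × ι => ‖A p.1 p.2‖
  exact ⟨p, le_antisymm (entry_le A _ _) (en_le_of (norm_nonneg _) fun i j => hp (i, j))⟩

/-- The pivot entry. -/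
noncomputable def pe (g : Matrix ι ι k) : k := g (exists_piv g).choose.1 (exists_piv g).choose.2

theorem norm_pe (g : Matrix ι ι k) : ‖pe g‖ = en g := (exists_piv g).choose_spec

theorem pe_ne {g : Matrix ι ι k} (h : 0 < en g) : pe g ≠ 0 := by
  rw [← norm_pos_iff, norm_pe]; exact h

/-- The attracting vector. -/
noncomputable def av (g : Matrix ι ι k) : ι → k :=
  (pe g)⁻¹ • fun i => g i (exists_piv g).choose.2

theorem norm_av (g : Matrix ι ι k) (h : 0 < en g) : ‖av g‖ = 1 := by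
  refine le_antisymm ?_ ?_
  · unfold av
    rw [norm_smul, norm_inv, norm_pe, inv_mul_le_iff₀ h, mul_one,
      pi_norm_le_iff_of_nonneg (en_nonneg _)]
    exact fun i => entry_le _ _ _
  · have h1 := norm_le_pi_norm (av g) (exists_piv g).choose.1
    have h2 : av g (exists_piv g).choose.1 = 1 := by
      change (pe g)⁻¹ * pe g = 1
      exact inv_mul_cancel₀ (pe_ne h)
    rw [h2, norm_one] at h1
    exact h1

theorem pwall {R : ℝ} (g : Matrix ι ι k) (h0 : 0 < en g) (h : m2 g ≤ R * en g) :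
    PWall R (av g) g := by
  have hR : m2 g / en g ≤ R := by rw [div_le_iff₀ h0]; exact h
  refine ⟨fun j => g (exists_piv g).choose.1 j, fun j => ?_⟩
  have hR0 : 0 ≤ R := (div_nonneg (m2_nonneg _) (en_nonneg _)).trans hR
  rw [pi_norm_le_iff_of_nonneg hR0]
  intro i
  have hp := pe_ne h0
  have e : (g *ᵥ Pi.single j 1 - g (exists_piv g).choose.1 j • av g) i =
      (pe g)⁻¹ * mi g (exists_piv g).choose.1 i (exists_piv g).choose.2 j := by
    rw [Pi.sub_apply, mulVec_single_one]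
    unfold av mi
    simp only [Pi.smul_apply, smul_eq_mul, Matrix.col_apply]
    change _ = (pe g)⁻¹ * (pe g * g i j - _)
    field_simp
  rw [e, norm_mul, norm_inv, norm_pe, inv_mul_le_iff₀ h0]
  rw [div_le_iff₀ h0] at hR
  calc _ ≤ m2 g := mi_le _ _ _ _ _
    _ ≤ R * en g := hR
    _ = _ := mul_comm _ _

end walls

/-! ### Expansion of frames -/

/-- `z` expands the combinations of some `d` vectors of norm `≤ 1`. -/
def ExpF (c : ℝ) (d : ℕ) (z : Matrix ι ι k) : Prop :=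
  ∃ w : Fin d → ι → k, (∀ l, ‖w l‖ ≤ 1) ∧ ∀ a : Fin d → k, c * ‖a‖ ≤ ‖z *ᵥ lc w a‖

/-- `z` expands some subspace of dimension `d` by `c` at least (helper899's `Xp`). -/
def Xp (c : ℝ) (d : ℕ) (z : Matrix ι ι k) : Prop :=
  ∃ V : Submodule k (ι → k), finrank k V = d ∧ ∀ v ∈ V, c * ‖v‖ ≤ ‖z *ᵥ v‖

theorem ExpF.mono {c c' : ℝ} (h : c' ≤ c) {d : ℕ} {z : Matrix ι ι k} (hX : ExpF c d z) :
    ExpF c' d z := by
  obtain ⟨w, h1, h2⟩ := hX
  exact ⟨w, h1, fun a => (mul_le_mul_of_nonneg_right h (norm_nonneg _)).trans (h2 a)⟩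

/-- The maximum of the norms of the `d × d` minors. -/
noncomputable def md (d : ℕ) (g : Matrix ι ι k) : ℝ :=
  ‖(fun I j => (g.submatrix I j).det : (Fin d → ι) → (Fin d → ι) → k)‖

theorem md_nonneg (d : ℕ) (g : Matrix ι ι k) : 0 ≤ md d g := norm_nonneg _

theorem det_le_md {d : ℕ} (g : Matrix ι ι k) (I j : Fin d → ι) :
    ‖(g.submatrix I j).det‖ ≤ md d g :=
  (norm_le_pi_norm (fun j => (g.submatrix I j).det : (Fin d → ι) → k) j).trans
    (norm_le_pi_norm
      (fun I j => (g.submatrix I j).det : (Fin d → ι) → (Fin d → ι) → k) I)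

theorem md_le_of {d : ℕ} {g : Matrix ι ι k} {C : ℝ} (hC : 0 ≤ C)
    (h : ∀ I j : Fin d → ι, ‖(g.submatrix I j).det‖ ≤ C) : md d g ≤ C := by
  unfold md
  rw [pi_norm_le_iff_of_nonneg hC]
  intro i
  rw [pi_norm_le_iff_of_nonneg hC]
  exact h i

theorem exists_md [Nonempty ι] (d : ℕ) (g : Matrix ι ι k) :
    ∃ I j : Fin d → ι, ‖(g.submatrix I j).det‖ = md d g := by
  obtain ⟨p, hp⟩ := Finite.exists_max fun p : (Fin d → ι) × (Fin d → ι) =>
    ‖(g.submatrix p.1 p.2).det‖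
  refine ⟨p.1, p.2, le_antisymm (det_le_md g _ _) ?_⟩
  exact md_le_of (norm_nonneg _) fun I j => hp (I, j)

/-- The entries of the adjugate of a matrix with entries of norm `≤ e`. -/
theorem adj_le {d : ℕ} {M : Matrix (Fin d) (Fin d) k} (h : ∀ i j, ‖M i j‖ ≤ 1) (i j : Fin d) :
    ‖M.adjugate i j‖ ≤ d.factorial := by
  rw [Matrix.adjugate_apply]
  have h1 := H337.NG.norm_det_le (M.updateRow j (Pi.single i 1)) (fun _ => 1) fun a b => by
    by_cases ha : a = j
    · subst ha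
      rw [Matrix.updateRow_self]
      exact (norm_le_pi_norm (Pi.single i (1 : k) : Fin d → k) b).trans (norm_single_le i)
    · rw [Matrix.updateRow_ne ha]
      exact h a b
  simpa using h1

/-- From minors to expansion. -/
theorem expF_of_md [Nonempty ι] {d : ℕ} (hd : 0 < d) {R : ℝ} (hR : 0 < R) (g : Matrix ι ι k)
    (h0 : 0 < en g) (h : en g ^ d ≤ R * md d g) :
    ExpF (en g / (R * (d * d.factorial))) d g := by
  obtain ⟨I, j₀, hm⟩ := exists_md d g
  refine ⟨fun l => Pi.single (j₀ l) 1, fun l => norm_single_le _, fun a => ?_⟩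
  obtain ⟨x, hx⟩ : ∃ x, x = (pe g)⁻¹ • (g *ᵥ lc (fun l => Pi.single (j₀ l) 1) a) := ⟨_, rfl⟩
  have hxg : ‖g *ᵥ lc (fun l => Pi.single (j₀ l) 1) a‖ = en g * ‖x‖ := by
    rw [hx, norm_smul, norm_inv, norm_pe, mul_inv_cancel_left₀ h0.ne']
  rw [hxg]
  obtain ⟨M, hM⟩ : ∃ M : Matrix (Fin d) (Fin d) k, M = (pe g)⁻¹ • g.submatrix I j₀ := ⟨_, rfl⟩
  have hMe : ∀ i j, ‖M i j‖ ≤ 1 := by
    intro i j
    rw [hM, Matrix.smul_apply, Matrix.submatrix_apply, smul_eq_mul, norm_mul, norm_inv, norm_pe,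
      inv_mul_le_iff₀ h0, mul_one]
    exact entry_le _ _ _
  have hdet : ‖M.det‖ * en g ^ d = md d g := by
    rw [hM, Matrix.det_smul, norm_mul, norm_pow, norm_inv, norm_pe, hm, Fintype.card_fin,
      inv_pow, mul_comm _ (md d g), mul_assoc, inv_mul_cancel₀ (pow_pos h0 d).ne', mul_one]
  have hdet' : 1 ≤ R * ‖M.det‖ := by
    have h1 : 0 < en g ^ d := pow_pos h0 d
    have h2 : 1 * en g ^ d ≤ R * ‖M.det‖ * en g ^ d := by
      rw [one_mul, mul_assoc, hdet]; exact h
    exact le_of_mul_le_mul_right h2 h1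
  have hxM : (fun i => x (I i)) = M *ᵥ a := by
    funext i
    rw [hx, hM]
    unfold lc
    rw [Matrix.mulVec_sum]
    simp only [Finset.sum_apply, Pi.smul_apply, smul_eq_mul, Matrix.mulVec_smul,
      mulVec_single_one, Matrix.col_apply]
    simp only [Matrix.mulVec, dotProduct, Matrix.smul_apply, Matrix.submatrix_apply, smul_eq_mul,
      Finset.mul_sum]
    exact Finset.sum_congr rfl fun l _ => by ring
  have hadj : M.adjugate *ᵥ (fun i => x (I i)) = M.det • a := by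
    rw [hxM, mulVec_mulVec, Matrix.adjugate_mul, Matrix.smul_mulVec, one_mulVec]
  have hxn : ‖(fun i => x (I i))‖ ≤ ‖x‖ := by
    rw [pi_norm_le_iff_of_nonneg (norm_nonneg _)]
    exact fun i => norm_le_pi_norm x (I i)
  have h2 := norm_mulVec_le M.adjugate (fun i => x (I i))
  have h3 : en M.adjugate ≤ d.factorial :=
    en_le_of (Nat.cast_nonneg _) fun i j => adj_le hMe i j
  rw [hadj, norm_smul, Fintype.card_fin] at h2
  have hdf : (0 : ℝ) < d * d.factorial := by
    have : (0 : ℝ) < d := Nat.cast_pos.2 hd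
    have : (0 : ℝ) < d.factorial := Nat.cast_pos.2 (Nat.factorial_pos d)
    positivity
  have h4 : ‖M.det‖ * ‖a‖ ≤ d * d.factorial * ‖x‖ := by
    calc _ ≤ _ := h2
      _ ≤ d * (d.factorial * ‖x‖) := by gcongr
      _ = _ := by ring
  have h5 : ‖a‖ ≤ R * (d * d.factorial) * ‖x‖ := by
    calc ‖a‖ = 1 * ‖a‖ := (one_mul _).symm
      _ ≤ R * ‖M.det‖ * ‖a‖ := by gcongr
      _ = R * (‖M.det‖ * ‖a‖) := by ring
      _ ≤ R * (d * d.factorial * ‖x‖) := by gcongr
      _ = _ := by ring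
  rw [div_mul_eq_mul_div, div_le_iff₀ (by positivity)]
  calc en g * ‖a‖ ≤ en g * (R * (d * d.factorial) * ‖x‖) := by gcongr
    _ = _ := by ring

end Vale.Agent.P092.H923.PJ
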