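import Vale.Agent.P092.H923.PJ4

/-!
P092, row [CL-I1] (helper923), part 5: separation, and the bound for near-wall elements with
non-incident attracting data, on any index type, with expansion of `d`-frames.
-/

set_option linter.unusedSectionVars false

namespace Vale.Agent.P092.H923.PJ

open Matrix Topology Module
open scoped LinearAlgebra.Projectivization
open Vale.Agent.P092.H923.PI
open Vale.Agent.P092.H100.Gr (Gr Fr sp ch ch_mn ch_compact exists_ch li_of_mn sp_cont eq_of_le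
  fr_val_cont)
open Vale.Agent.P092.H820 (pj pj_continuous)

section sep

variable {k : Type*} [NontriviallyNormedField k] [ProperSpace k] {ι : Type*} [Fintype ι]
  [DecidableEq ι] {d : ℕ}

theorem exists_norm_eq {v : ι → k} (hv : v ≠ 0) : ∃ i, ‖v i‖ = ‖v‖ := by
  obtain ⟨i₀, _⟩ : ∃ i, v i ≠ 0 := by
    by_contra hc
    push Not at hc
    exact hv (funext hc)
  have : Nonempty ι := ⟨i₀⟩
  obtain ⟨i, hi⟩ := Finite.exists_max fun i : ι => ‖v i‖
  exact ⟨i, le_antisymm (norm_le_pi_norm v i)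
    ((pi_norm_le_iff_of_nonneg (norm_nonneg _)).2 hi)⟩

/-- From an expanded subspace to an expanded frame. -/
theorem expF_of_xp {c : ℝ} (hc : 0 ≤ c) {z : Matrix ι ι k} (h : Xp c d z) : ExpF c d z := by
  obtain ⟨V, hV, H⟩ := h
  obtain ⟨I, f, hf1, hf2⟩ := exists_ch (⟨V, hV⟩ : Gr k ι d)
  have hfV : ∀ l, f.1 l ∈ V := fun l => by
    have h1 : f.1 l ∈ (sp f).1 := Submodule.subset_span ⟨l, rfl⟩
    rw [hf2] at h1
    exact h1
  refine ⟨f.1, fun l => (pi_norm_le_iff_of_nonneg zero_le_one).2 (hf1.2 l), fun a => ?_⟩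
  have h1 : lc f.1 a ∈ V := Submodule.sum_mem _ fun l _ => Submodule.smul_mem _ _ (hfV l)
  refine le_trans ?_ (H _ h1)
  refine mul_le_mul_of_nonneg_left ?_ hc
  rw [pi_norm_le_iff_of_nonneg (norm_nonneg _)]
  intro l
  have h2 : lc f.1 a (I l) = a l := by
    unfold lc
    simp only [Finset.sum_apply, Pi.smul_apply, smul_eq_mul]
    rw [Finset.sum_eq_single l]
    · rw [hf1.1 l l, Matrix.one_apply_eq, mul_one]
    · intro b _ hb
      rw [hf1.1 b l, Matrix.one_apply_ne hb, mul_zero]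
    · intro h; exact absurd (Finset.mem_univ l) h
  rw [← h2]
  exact norm_le_pi_norm _ _

theorem chF_compact (I : Fin d → ι) :
    IsCompact {v : Fr k ι d | v.1 ∈ ch (k := k) I} := by
  have h1 : IsEmbedding (fun v : Fr k ι d => v.1) := IsEmbedding.subtypeVal
  rw [h1.isCompact_iff]
  have e : (fun v : Fr k ι d => v.1) '' {v : Fr k ι d | v.1 ∈ ch (k := k) I} =
      ch (k := k) I := by
    ext v
    constructor
    · rintro ⟨w, hw, rfl⟩
      exact hw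
    · intro hv
      exact ⟨⟨v, li_of_mn (I := I) (by rw [ch_mn hv]; exact one_ne_zero)⟩, hv, rfl⟩
  rw [e]
  exact ch_compact I

theorem sph_compact : IsCompact {x : {v : ι → k // v ≠ 0} | ‖x.1‖ = 1} := by
  rw [IsEmbedding.subtypeVal.isCompact_iff]
  have e : Subtype.val '' {x : {v : ι → k // v ≠ 0} | ‖x.1‖ = 1} =
      Metric.sphere (0 : ι → k) 1 := by
    ext v
    constructor
    · rintro ⟨w, hw, rfl⟩
      exact mem_sphere_zero_iff_norm.2 hw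
    · intro hv
      rw [mem_sphere_zero_iff_norm] at hv
      refine ⟨⟨v, ?_⟩, hv, rfl⟩
      rw [← norm_pos_iff, hv]
      exact one_pos
  rw [e]
  exact isCompact_sphere _ _

/-- Vectors with a lower bound span the space in which they are. -/
theorem span_of_low {X : Gr k ι d} {c : ℝ} (hc : 0 < c) {u : Fin d → ι → k}
    (hu : ∀ l, u l ∈ X.1) (hl : ∀ a : Fin d → k, c * ‖a‖ ≤ ‖lc u a‖)
    {x : ι → k} (hx : x ∈ X.1) : ∃ a : Fin d → k, x = lc u a := by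
  have hli : LinearIndependent k u := by
    rw [Fintype.linearIndependent_iff]
    intro f hf
    have h1 := hl f
    rw [show lc u f = 0 from hf, norm_zero] at h1
    have h2 : ‖f‖ ≤ 0 := by
      by_contra h3
      push Not at h3
      have := mul_pos hc h3
      linarith
    have h3 := norm_le_zero_iff.1 h2
    intro i
    rw [h3]; rfl
  have h1 : (sp ⟨u, hli⟩ : Gr k ι d) = X := by
    refine eq_of_le ?_
    change Submodule.span k (Set.range u) ≤ X.1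
    rw [Submodule.span_le]
    rintro _ ⟨l, rfl⟩
    exact hu l
  rw [← h1] at hx
  change x ∈ Submodule.span k (Set.range u) at hx
  rw [Submodule.mem_span_range_iff_exists_fun] at hx
  obtain ⟨f, hf⟩ := hx
  exact ⟨f, hf.symm⟩

/-- the size of the form on a vector and a frame -/
noncomputable def phi (σ : k →+* k) (J : Matrix ι ι k)
    (p : {v : ι → k // v ≠ 0} × Fr k ι d) : ℝ :=
  ‖(fun l => bF σ J p.1.1 (p.2.1 l) : Fin d → k)‖

theorem phi_cont {σ : k →+* k} (hσ : ∀ x, ‖σ x‖ = ‖x‖) (J : Matrix ι ι k) :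
    Continuous (phi (k := k) (d := d) σ J) := by
  have h2 : Continuous fun p : {v : ι → k // v ≠ 0} × Fr k ι d => p.2.1 :=
    fr_val_cont.comp continuous_snd
  have h3 : Continuous fun p : {v : ι → k // v ≠ 0} × Fr k ι d => p.1.1 :=
    continuous_subtype_val.comp continuous_fst
  refine (continuous_pi fun l => ?_).norm
  have h4 : Continuous fun p : {v : ι → k // v ≠ 0} × Fr k ι d => p.2.1 l :=
    continuous_pi_iff.1 h2 l
  have h1 : Continuous σ := (AddMonoidHomClass.isometry_of_norm σ hσ).continuous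
  have h5 : Continuous fun p : {v : ι → k // v ≠ 0} × Fr k ι d =>
      (fun i => σ (p.1.1 i)) ⬝ᵥ (J *ᵥ p.2.1 l) :=
    Continuous.dotProduct (continuous_pi fun i => h1.comp (continuous_pi_iff.1 h3 i))
      (Continuous.matrix_mulVec continuous_const h4)
  exact h5.congr fun p => (bF_apply σ J p.1.1 (p.2.1 l)).symm

/-- the compact set of the chart `I` -/
def KI (A : Set (ℙ k (ι → k))) (B : Set (Gr k ι d)) (I : Fin d → ι) :
    Set ({v : ι → k // v ≠ 0} × Fr k ι d) :=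
  ({x : {v : ι → k // v ≠ 0} | ‖x.1‖ = 1} ×ˢ {v : Fr k ι d | v.1 ∈ ch (k := k) I}) ∩
    ((fun p : {v : ι → k // v ≠ 0} × Fr k ι d => (pj k ι p.1, sp p.2)) ⁻¹' (A ×ˢ B))

theorem KI_compact {A : Set (ℙ k (ι → k))} {B : Set (Gr k ι d)}
    (hA : IsClosed A) (hB : IsClosed B) (I : Fin d → ι) : IsCompact (KI A B I) := by
  refine (sph_compact.prod (chF_compact I)).inter_right ?_
  refine (hA.prod hB).preimage ?_
  exact (pj_continuous.comp continuous_fst).prodMk (sp_cont.comp continuous_snd)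

theorem phi_pos' {σ : k →+* k} (J : Matrix ι ι k) (x : {v : ι → k // v ≠ 0})
    (f : Fr k ι d) (h : ∃ y ∈ (sp f).1, bF σ J x.1 y ≠ 0) : 0 < phi σ J (x, f) := by
  obtain ⟨y, hy, hne⟩ := h
  have hy' : y ∈ Submodule.span k (Set.range f.1) := hy
  obtain ⟨g, hg⟩ := (Submodule.mem_span_range_iff_exists_fun k).1 hy'
  by_contra hle
  have hle' : ‖(fun l => bF σ J x.1 (f.1 l) : Fin d → k)‖ ≤ 0 := not_lt.1 hle
  have h0 := norm_le_zero_iff.1 hle'
  apply hne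
  rw [← hg, map_sum]
  refine Finset.sum_eq_zero fun l _ => ?_
  have h1 : bF σ J x.1 (f.1 l) = 0 := congrFun h0 l
  rw [LinearMap.map_smul, h1, smul_zero]

theorem phi_pos {σ : k →+* k} (J : Matrix ι ι k)
    {A : Set (ℙ k (ι → k))} {B : Set (Gr k ι d)}
    (hAB : ∀ (v : ι → k) (hv : v ≠ 0), Projectivization.mk k v hv ∈ A → ∀ X ∈ B,
      ∃ y ∈ X.1, bF σ J v y ≠ 0) {I : Fin d → ι}
    {p : {v : ι → k // v ≠ 0} × Fr k ι d} (hp : p ∈ KI A B I) : 0 < phi σ J p := by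
  obtain ⟨x, f⟩ := p
  have h3 : pj k ι x ∈ A := hp.2.1
  have h4 : sp f ∈ B := hp.2.2
  exact phi_pos' J x f (hAB x.1 x.2 h3 (sp f) h4)

theorem sepI {σ : k →+* k} (hσ : ∀ x, ‖σ x‖ = ‖x‖) (J : Matrix ι ι k)
    {A : Set (ℙ k (ι → k))} {B : Set (Gr k ι d)}
    (hA : IsClosed A) (hB : IsClosed B)
    (hAB : ∀ (v : ι → k) (hv : v ≠ 0), Projectivization.mk k v hv ∈ A → ∀ X ∈ B,
      ∃ y ∈ X.1, bF σ J v y ≠ 0) (I : Fin d → ι) :
    ∃ δ : ℝ, 0 < δ ∧ ∀ p ∈ KI A B I, δ ≤ phi σ J p := by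
  rcases Set.eq_empty_or_nonempty (KI A B I) with h | h
  · refine ⟨1, one_pos, fun p hp => ?_⟩
    rw [h] at hp
    exact absurd hp (by simp)
  · obtain ⟨p0, hp0, hp⟩ := (KI_compact hA hB I).exists_isMinOn h (phi_cont hσ J).continuousOn
    exact ⟨_, phi_pos J hAB hp0, fun p hq => hp hq⟩

theorem sep {σ : k →+* k} (hσ : ∀ x, ‖σ x‖ = ‖x‖) (J : Matrix ι ι k) {β : ℝ}
    (hF : Frm (bF σ J) β) {A : Set (ℙ k (ι → k))} {B : Set (Gr k ι d)}
    (hd : 0 < d) (hA : IsClosed A) (hB : IsClosed B)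
    (hAB : ∀ (v : ι → k) (hv : v ≠ 0), Projectivization.mk k v hv ∈ A → ∀ X ∈ B,
      ∃ y ∈ X.1, bF σ J v y ≠ 0) :
    ∃ δ : ℝ, 0 < δ ∧ ∀ (v : ι → k) (hv : v ≠ 0), Projectivization.mk k v hv ∈ A → ∀ X ∈ B,
      ∀ c : ℝ, 0 < c → ∀ u : Fin d → ι → k, (∀ l, u l ∈ X.1) →
      (∀ a : Fin d → k, c * ‖a‖ ≤ ‖lc u a‖) → ∃ l, c * δ * ‖v‖ ≤ ‖bF σ J v (u l)‖ := by
  have key := sepI hσ J hA hB hAB
  choose δ hδ H using key
  obtain ⟨e, he, he'⟩ : ∃ e : ℝ, 0 < e ∧ ∀ I, e ≤ δ I := by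
    by_cases hne : Nonempty (Fin d → ι)
    · obtain ⟨I, hI⟩ := Finite.exists_min δ
      exact ⟨δ I, hδ I, hI⟩
    · exact ⟨1, one_pos, fun I => absurd ⟨I⟩ hne⟩
  have hd' : (0 : ℝ) < d := Nat.cast_pos.2 hd
  refine ⟨e / (2 * d), by positivity, fun v hv hvA X hX c hc u hu hl => ?_⟩
  obtain ⟨i, hi⟩ := exists_norm_eq hv
  have hvn : 0 < ‖v‖ := norm_pos_iff.2 hv
  have hvi : v i ≠ 0 := by
    rw [← norm_pos_iff, hi]; exact hvn
  have hx0 : (v i)⁻¹ • v ≠ 0 := smul_ne_zero (inv_ne_zero hvi) hv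
  have hxn : ‖(v i)⁻¹ • v‖ = 1 := by
    rw [norm_smul, norm_inv, hi, inv_mul_cancel₀ hvn.ne']
  have hxA : pj k ι ⟨(v i)⁻¹ • v, hx0⟩ ∈ A := by
    have : pj k ι ⟨(v i)⁻¹ • v, hx0⟩ = Projectivization.mk k v hv := by
      rw [show pj k ι ⟨(v i)⁻¹ • v, hx0⟩ = Projectivization.mk k _ hx0 from rfl,
        Projectivization.mk_eq_mk_iff']
      exact ⟨(v i)⁻¹, rfl⟩
    rw [this]
    exact hvA
  obtain ⟨I, f, hf1, hf2⟩ := exists_ch X
  have hmem : ((⟨(v i)⁻¹ • v, hx0⟩, f) : {v : ι → k // v ≠ 0} × Fr k ι d) ∈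
      KI A B I := by
    refine ⟨⟨hxn, hf1⟩, hxA, ?_⟩
    change sp f ∈ B
    rw [hf2]
    exact hX
  have h1 := (he' I).trans (H I _ hmem)
  have hfl : ∀ l, ‖f.1 l‖ ≤ 1 := fun l => by
    rw [pi_norm_le_iff_of_nonneg zero_le_one]
    exact hf1.2 l
  have hfX : ∀ l, f.1 l ∈ X.1 := fun l => by
    rw [← hf2]
    exact Submodule.subset_span ⟨l, rfl⟩
  by_contra hcon
  push Not at hcon
  have h2 : phi σ J (⟨(v i)⁻¹ • v, hx0⟩, f) ≤ e / 2 := by
    unfold phi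
    rw [pi_norm_le_iff_of_nonneg (by positivity)]
    intro l
    change ‖bF σ J ((v i)⁻¹ • v) (f.1 l)‖ ≤ e / 2
    obtain ⟨a, hab⟩ := span_of_low hc hu hl (hfX l)
    have h3 := hl a
    rw [← hab] at h3
    have h4 : c * ‖a‖ ≤ 1 := h3.trans (hfl l)
    rw [hF.sm, norm_inv, hi, inv_mul_le_iff₀ hvn, hab]
    unfold lc
    rw [map_sum]
    have h5 := sum_le (fun l => bF σ J v (a l • u l)) a
      (ε := c * (e / (2 * d)) * ‖v‖) (by positivity) fun l => by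
        rw [LinearMap.map_smul, smul_eq_mul, norm_mul]
        exact mul_le_mul_of_nonneg_left (hcon l).le (norm_nonneg _)
    rw [Fintype.card_fin] at h5
    calc _ ≤ d * (‖a‖ * (c * (e / (2 * d)) * ‖v‖)) := h5
      _ = (c * ‖a‖) * (‖v‖ * (e / 2)) := by field_simp
      _ ≤ 1 * (‖v‖ * (e / 2)) := by gcongr
      _ = _ := one_mul _
  linarith

end sep

/-! ### The main bound -/

section main

variable {k : Type*} [NontriviallyNormedField k] [ProperSpace k] {ι : Type*} [Fintype ι]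
  [DecidableEq ι] {d : ℕ}

/-- The attracting point of `h` is in `A`, up to an error `1/T`. -/
def AtP (T : ℝ) (A : Set (ℙ k (ι → k))) (h : Matrix ι ι k) : Prop :=
  ∃ (v φ : ι → k) (hv : v ≠ 0), Projectivization.mk k v hv ∈ A ∧
    ∀ i j, ‖h i j - v i * φ j‖ ≤ en h / T

/-- The attracting `d`-space of `h` is in `B`, up to an error `1/T`. -/
def AtD (T : ℝ) (B : Set (Gr k ι d)) (h : Matrix ι ι k) : Prop :=
  ∃ X ∈ B, ∃ M : Matrix ι ι k, (∀ v, M *ᵥ v ∈ X.1) ∧ ∀ i j, ‖h i j - M i j‖ ≤ en h / T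

theorem lc_smul' (c : k) (w : Fin d → ι → k) (a : Fin d → k) :
    lc (fun l => c • w l) a = c • lc w a := by
  unfold lc
  rw [Finset.smul_sum]
  exact Finset.sum_congr rfl fun l _ => smul_comm _ _ _

theorem lc_mulVec (z : Matrix ι ι k) (w : Fin d → ι → k) (a : Fin d → k) :
    lc (fun l => z *ᵥ w l) a = z *ᵥ lc w a := by
  unfold lc
  rw [Matrix.mulVec_sum]
  exact Finset.sum_congr rfl fun l _ => (Matrix.mulVec_smul _ _ _).symm

/-- The frame of an expanding element. -/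
theorem lw_of {σ : k →+* k} {J : Matrix ι ι k} {β : ℝ} (hF : Frm (bF σ J) β)
    [Nonempty ι] {g : Matrix ι ι k} (hg : IsoM σ J g) (h0 : 0 < en g) {w : Fin d → ι → k}
    (hw : ∀ l, ‖w l‖ ≤ 1) : LW (bF σ J) β (en g) (fun l => (pe g)⁻¹ • g *ᵥ w l) g := by
  have hβ := hF.nn
  refine ⟨fun j => ?_, fun j l => ?_⟩
  · rw [pi_norm_le_iff_of_nonneg (en_nonneg _)]
    intro i
    rw [mulVec_single_one]
    exact entry_le g i j
  · change ‖bF σ J (g *ᵥ Pi.single j 1) ((pe g)⁻¹ • g *ᵥ w l)‖ ≤ _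
    rw [LinearMap.map_smul, smul_eq_mul, norm_mul, norm_inv, norm_pe, hg.app, inv_mul_eq_div]
    refine div_le_div_of_nonneg_right ?_ h0.le
    calc _ ≤ β * ‖(Pi.single j 1 : ι → k)‖ * ‖w l‖ := hF.bd _ _
      _ ≤ β * 1 * 1 := by
          have h1 := norm_single_le (k := k) j
          have h2 := hw l
          gcongr
      _ = β := by ring

/-- The data of a pair. -/
theorem pair_data {σ : k →+* k} (hσ : ∀ x, ‖σ x‖ = ‖x‖) {J J' : Matrix ι ι k}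
    (hJ : J' * J = 1) {β : ℝ} [Nonempty ι]
    (hF : Frm (bF σ J) β) {A : Set (ℙ k (ι → k))} {B : Set (Gr k ι d)}
    (hd : 0 < d) (hA : IsClosed A) (hB : IsClosed B)
    (hAB : ∀ (v : ι → k) (hv : v ≠ 0), Projectivization.mk k v hv ∈ A → ∀ X ∈ B,
      ∃ y ∈ X.1, bF σ J v y ≠ 0) {R : ℝ} (hR : 0 < R) :
    ∃ T₀ δ c : ℝ, 1 ≤ T₀ ∧ 0 < δ ∧ 0 < c ∧ ∀ T, T₀ ≤ T → ∀ g h : Matrix ι ι k,
      IsoM σ J g → IsoM σ J h → AtP T A g → AtD T B h → ExpF (en h / R) d h →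
      ∃ u : Fin d → ι → k, (∀ l, ‖u l‖ ≤ 1) ∧
        (∀ a : Fin d → k, c * ‖a‖ ≤ ‖lc u a‖) ∧
        LW (bF σ J) β (en h) u h ∧ ∃ l, δ ≤ ‖bF σ J (av g) (u l)‖ := by
  obtain ⟨δ, hδ, H⟩ := sep hσ J hF hd hA hB hAB
  have hβ := hF.nn
  have hd' : (0 : ℝ) < d := Nat.cast_pos.2 hd
  have hN : (0 : ℝ) < Fintype.card ι := Nat.cast_pos.2 Fintype.card_pos
  obtain ⟨N, hNe⟩ : ∃ N : ℝ, N = Fintype.card ι := ⟨_, rfl⟩
  rw [← hNe] at hN
  obtain ⟨c₀, hc1, hc2⟩ := NormedField.exists_norm_lt k (show 0 < 1 / (N + 1) by positivity)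
  have hc3 : N * ‖c₀‖ ≤ 1 := by
    have h1 : ‖c₀‖ * (N + 1) ≤ 1 := (le_div_iff₀ (by positivity)).1 hc2.le
    nlinarith [norm_nonneg c₀]
  have hc4 : ‖c₀‖ ≤ 1 := by
    refine hc2.le.trans ?_
    rw [div_le_one (by positivity)]
    linarith
  -- the constant of the frame
  obtain ⟨S, hS⟩ : ∃ S : ℝ, S = R / ‖c₀‖ := ⟨_, rfl⟩
  have hS0 : 0 < S := by rw [hS]; positivity
  obtain ⟨T₀, hT₀⟩ : ∃ T₀ : ℝ, T₀ = 2 + 2 * d * S + 24 * β * S / δ := ⟨_, rfl⟩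
  have hq : 0 ≤ 24 * β * S / δ := by positivity
  refine ⟨T₀, δ / (8 * S), S⁻¹, by rw [hT₀]; have : 0 ≤ 2 * d * S := by positivity
                                   linarith, by positivity, by positivity, ?_⟩
  intro T hT g h hg hh ⟨v, φ, hv, hvA, hvφ⟩ ⟨X, hX, M, hM, hMh⟩ ⟨w₀, hw₀, hexp⟩
  have eg := hg.en_pos hJ
  have eh := hh.en_pos hJ
  have hq2 : 0 ≤ 2 * d * S := by positivity
  have T1 : 2 ≤ T := by linarith
  have T2 : 2 * d * S ≤ T := by linarith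
  have T3 : 24 * β * S / δ ≤ T := by linarith
  have hT0 : 0 < T := by linarith
  obtain ⟨f, hf⟩ : ∃ f : Fin d → ι → k, f = fun l => c₀ • w₀ l := ⟨_, rfl⟩
  have hfn : ∀ l, ‖f l‖ ≤ ‖c₀‖ := fun l => by
    rw [hf]
    change ‖c₀ • w₀ l‖ ≤ _
    rw [norm_smul]
    calc _ ≤ ‖c₀‖ * 1 := mul_le_mul_of_nonneg_left (hw₀ l) (norm_nonneg _)
      _ = _ := mul_one _
  have hfn1 : ∀ l, ‖f l‖ ≤ 1 := fun l => (hfn l).trans hc4
  obtain ⟨u, hu⟩ : ∃ u : Fin d → ι → k, u = fun l => (pe h)⁻¹ • h *ᵥ f l := ⟨_, rfl⟩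
  have hun : ∀ l, ‖u l‖ ≤ 1 := fun l => by
    rw [hu]
    change ‖(pe h)⁻¹ • h *ᵥ f l‖ ≤ 1
    rw [norm_smul, norm_inv, norm_pe, inv_mul_le_iff₀ eh, mul_one]
    have h1 := norm_mulVec_le h (f l)
    rw [← hNe] at h1
    calc _ ≤ N * (en h * ‖f l‖) := h1
      _ ≤ N * (en h * ‖c₀‖) := by
          have := hfn l
          gcongr
      _ = en h * (N * ‖c₀‖) := by ring
      _ ≤ en h * 1 := by gcongr
      _ = en h := mul_one _
  have hlow : ∀ a : Fin d → k, S⁻¹ * ‖a‖ ≤ ‖lc u a‖ := by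
    intro a
    have e1 : lc u a = (pe h)⁻¹ • (c₀ • (h *ᵥ lc w₀ a)) := by
      rw [hu, lc_smul' (pe h)⁻¹ (fun l => h *ᵥ f l) a, lc_mulVec h f a, hf, lc_smul',
        Matrix.mulVec_smul]
    rw [e1, norm_smul, norm_smul, norm_inv, norm_pe]
    have h1 := hexp a
    have h2 : S⁻¹ * ‖a‖ = (en h)⁻¹ * (‖c₀‖ * (en h / R * ‖a‖)) := by
      rw [hS]
      field_simp
    rw [h2]
    gcongr
  refine ⟨u, hun, hlow, ?_, ?_⟩
  · rw [hu]; exact lw_of hF hh eh hfn1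
  -- the point
  obtain ⟨w, hw⟩ : ∃ w : ι → k, w = ((pe g)⁻¹ * φ (exists_piv g).choose.2) • v := ⟨_, rfl⟩
  have hwd : ‖av g - w‖ ≤ 1 / T := by
    rw [pi_norm_le_iff_of_nonneg (by positivity)]
    intro i
    have e : (av g - w) i = (pe g)⁻¹ * (g i (exists_piv g).choose.2 -
        v i * φ (exists_piv g).choose.2) := by
      rw [hw]
      unfold av
      simp only [Pi.sub_apply, Pi.smul_apply, smul_eq_mul]
      ring
    rw [e, norm_mul, norm_inv, norm_pe, inv_mul_le_iff₀ eg]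
    calc _ ≤ _ := hvφ i _
      _ = _ := by ring
  have h12 : 1 / T ≤ 1 / 2 := one_div_le_one_div_of_le (by norm_num) T1
  have hwn : 1 / 2 ≤ ‖w‖ := by
    have h1 : ‖av g‖ ≤ ‖av g - w‖ + ‖w‖ := by
      calc ‖av g‖ = ‖(av g - w) + w‖ := by congr 1; abel
        _ ≤ _ := norm_add_le _ _
    rw [norm_av g eg] at h1
    linarith
  have hwn' : ‖w‖ ≤ 2 := by
    have h1 : ‖w‖ ≤ ‖av g - w‖ + ‖av g‖ := by
      calc ‖w‖ = ‖av g - (av g - w)‖ := by congr 1; abel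
        _ ≤ ‖av g‖ + ‖av g - w‖ := norm_sub_le _ _
        _ = _ := add_comm _ _
    rw [norm_av g eg] at h1
    linarith
  have hw0 : w ≠ 0 := by
    rw [← norm_pos_iff]; linarith
  have hwA : Projectivization.mk k w hw0 ∈ A := by
    have : Projectivization.mk k w hw0 = Projectivization.mk k v hv := by
      rw [Projectivization.mk_eq_mk_iff']
      exact ⟨_, hw.symm⟩
    rw [this]
    exact hvA
  -- the `d`-space
  obtain ⟨u', hu'⟩ : ∃ u' : Fin d → ι → k, u' = fun l => (pe h)⁻¹ • M *ᵥ f l := ⟨_, rfl⟩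
  have hu'X : ∀ l, u' l ∈ X.1 := fun l => by rw [hu']; exact Submodule.smul_mem _ _ (hM _)
  have hMd : en (h - M) ≤ en h / T := en_le_of (by positivity) fun i j => hMh i j
  have hud : ∀ l, ‖u l - u' l‖ ≤ 1 / T := by
    intro l
    have e : u l - u' l = (pe h)⁻¹ • ((h - M) *ᵥ f l) := by
      rw [hu, hu']
      change (pe h)⁻¹ • h *ᵥ f l - (pe h)⁻¹ • M *ᵥ f l = _
      rw [← smul_sub, Matrix.sub_mulVec]
    rw [e, norm_smul, norm_inv, norm_pe, inv_mul_le_iff₀ eh]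
    have h1 := norm_mulVec_le (h - M) (f l)
    rw [← hNe] at h1
    calc _ ≤ N * (en (h - M) * ‖f l‖) := h1
      _ ≤ N * (en h / T * ‖c₀‖) := by
          have := hfn l
          have := en_nonneg (h - M)
          gcongr
      _ = en h / T * (N * ‖c₀‖) := by ring
      _ ≤ en h / T * 1 := by gcongr
      _ = _ := by ring
  have hlow' : ∀ a : Fin d → k, (2 * S)⁻¹ * ‖a‖ ≤ ‖lc u' a‖ := by
    intro a
    have hm : 0 ≤ ‖a‖ := norm_nonneg _
    have h1 := hlow a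
    have e : lc u a = lc u' a + ∑ l, a l • (u l - u' l) := by
      unfold lc
      rw [← Finset.sum_add_distrib]
      exact Finset.sum_congr rfl fun l _ => by rw [smul_sub]; abel
    rw [e] at h1
    have h2 : ‖∑ l, a l • (u l - u' l)‖ ≤ d * (‖a‖ * (1 / T)) := by
      have := sum_le (fun l => a l • (u l - u' l)) a (ε := 1 / T) (by positivity)
        fun l => by
          rw [norm_smul]
          exact mul_le_mul_of_nonneg_left (hud l) (norm_nonneg _)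
      rwa [Fintype.card_fin] at this
    have h3 := norm_add_le (lc u' a) (∑ l, a l • (u l - u' l))
    have h4 : d * (1 / T) ≤ (2 * S)⁻¹ := by
      rw [mul_one_div, div_le_iff₀ hT0, inv_mul_eq_div, le_div_iff₀ (by positivity)]
      linarith
    have h5 : S⁻¹ = (2 * S)⁻¹ + (2 * S)⁻¹ := by field_simp; norm_num
    have h6 : d * (1 / T) * ‖a‖ ≤ (2 * S)⁻¹ * ‖a‖ :=
      mul_le_mul_of_nonneg_right h4 hm
    have h7 : d * (‖a‖ * (1 / T)) = d * (1 / T) * ‖a‖ := by ring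
    rw [h5, add_mul] at h1
    linarith
  obtain ⟨l, hl⟩ := H w hw0 hwA X hX (2 * S)⁻¹ (by positivity) u' hu'X hlow'
  refine ⟨l, ?_⟩
  have e : bF σ J w (u' l) = bF σ J (av g) (u l) -
      (bF σ J (av g - w) (u l) + bF σ J w (u l - u' l)) := by
    rw [map_sub, LinearMap.sub_apply, map_sub]; ring
  have h1 : ‖bF σ J (av g - w) (u l)‖ ≤ β * (1 / T) * 1 := by
    refine (hF.bd _ _).trans ?_
    have := hun l
    gcongr
  have h2 : ‖bF σ J w (u l - u' l)‖ ≤ β * 2 * (1 / T) := by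
    refine (hF.bd _ _).trans ?_
    have := hud l
    gcongr
  have h3 : ‖bF σ J w (u' l)‖ ≤ ‖bF σ J (av g) (u l)‖ + 3 * β * (1 / T) := by
    rw [e]
    refine (norm_sub_le _ _).trans ?_
    have := norm_add_le (bF σ J (av g - w) (u l)) (bF σ J w (u l - u' l))
    linarith
  have h4 : (4 * S)⁻¹ * δ ≤ (2 * S)⁻¹ * δ * ‖w‖ := by
    have : (4 * S)⁻¹ * δ = (2 * S)⁻¹ * δ * (1 / 2) := by field_simp; norm_num
    rw [this]
    gcongr
  have h5 : 3 * β * (1 / T) ≤ δ / (8 * S) := by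
    rw [mul_one_div, div_le_div_iff₀ hT0 (by positivity)]
    rw [div_le_iff₀ hδ] at T3
    linarith
  have h6 : (4 * S)⁻¹ * δ = δ / (8 * S) + δ / (8 * S) := by field_simp; norm_num
  linarith

theorem norm_single' (j : ι) : ‖(Pi.single j (1 : k) : ι → k)‖ ≤ 1 := norm_single_le j

/-- **The bound.** -/
theorem bdd {σ : k →+* k} (hσ : ∀ x, ‖σ x‖ = ‖x‖) {J J' : Matrix ι ι k}
    (hJ : J' * J = 1) {A : Set (ℙ k (ι → k))} {B : Set (Gr k ι d)}
    (hd : 2 ≤ d) (hA : IsClosed A) (hB : IsClosed B)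
    (hAB : ∀ (v : ι → k) (hv : v ≠ 0), Projectivization.mk k v hv ∈ A → ∀ X ∈ B,
      ∃ y ∈ X.1, bF σ J v y ≠ 0) {R : ℝ} (hR : 0 < R) :
    ∃ T₀ C : ℝ, 1 ≤ T₀ ∧ 0 ≤ C ∧ ∀ T, T₀ ≤ T → ∀ g₁ g₂ h₁ h₂ x y : Matrix ι ι k,
      IsoM σ J g₁ → IsoM σ J g₂ → IsoM σ J h₁ → IsoM σ J h₂ → y * x = 1 → x * g₂ = g₁ →
      x * h₂ = h₁ → m2 g₁ ≤ R * en g₁ → m2 g₂ ≤ R * en g₂ →
      ExpF (en h₁ / R) d h₁ → ExpF (en h₂ / R) d h₂ →
      AtP T A g₁ → AtP T A g₂ → AtD T B h₁ → AtD T B h₂ → en x ≤ C := by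
  by_cases hne : Nonempty ι
  swap
  · refine ⟨1, 0, le_rfl, le_rfl, fun T _ g₁ g₂ h₁ h₂ x y _ _ _ _ _ _ _ _ _ _ _ _ _ _ _ => ?_⟩
    exact en_le_of le_rfl fun i => absurd ⟨i⟩ hne
  obtain ⟨β, hF⟩ := frm_bF σ hσ hJ
  obtain ⟨R', hR'⟩ : ∃ R', R' = max R 1 := ⟨_, rfl⟩
  have hR0 : 0 < R' := by rw [hR']; exact lt_max_of_lt_right one_pos
  have hRR : R ≤ R' := by rw [hR']; exact le_max_left _ _
  obtain ⟨T₀, δ, c, hT₀, hδ, hc, H⟩ := pair_data hσ hJ hF (by omega) hA hB hAB hR0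
  have hp : (⟨0, by omega⟩ : Fin d) ≠ ⟨1, by omega⟩ := by
    intro h
    have := congrArg Fin.val h
    simp at this
  obtain ⟨C, hC, HC⟩ := ovlD hF hp (T := max R' β) (c := c) (δ := δ)
    (le_max_of_le_left hR0.le) hc hδ
  refine ⟨T₀, C, hT₀, hC, ?_⟩
  intro T hT g₁ g₂ h₁ h₂ x y i₁ i₂ j₁ j₂ hyx q1 q2 n₁ n₂ m₁ m₂ a₁ a₂ b₁ b₂
  have up : ∀ h : Matrix ι ι k, IsoM σ J h → ExpF (en h / R) d h → ExpF (en h / R') d h :=
    fun h hi hh => hh.mono (div_le_div_of_nonneg_left (hi.en_pos hJ).le hR hRR)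
  have up' : ∀ g : Matrix ι ι k, m2 g ≤ R * en g → m2 g ≤ R' * en g := fun h hh =>
    hh.trans (mul_le_mul_of_nonneg_right hRR (en_nonneg _))
  obtain ⟨u₁, c₁, d₁, e₁, f₁⟩ := H T hT g₁ h₁ i₁ j₁ a₁ b₁ (up _ j₁ m₁)
  obtain ⟨u₂, c₂, d₂, e₂, f₂⟩ := H T hT g₂ h₂ i₂ j₂ a₂ b₂ (up _ j₂ m₂)
  have pw : ∀ {v : ι → k} {g : Matrix ι ι k}, PWall R' v g →
      PWall (max R' β) v g :=
    fun ⟨ψ, hψ⟩ => ⟨ψ, fun j => (hψ j).trans (le_max_left _ _)⟩
  have lw : ∀ {u : Fin d → ι → k} {h : Matrix ι ι k},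
      LW (bF σ J) β (en h) u h → LW (bF σ J) (max R' β) (en h) u h :=
    fun {u h} ⟨x, y⟩ => ⟨x, fun j l => (y j l).trans
      (div_le_div_of_nonneg_right (le_max_right _ _) (en_nonneg _))⟩
  have g₂i : g₂ * (J' * (g₂.map σ)ᵀ * J) = 1 := mul_eq_one_comm.1 (i₂.left_inv hJ)
  have ex : x = g₁ * (J' * (g₂.map σ)ᵀ * J) := by
    rw [← q1, Matrix.mul_assoc, g₂i, Matrix.mul_one]
  have iX : IsoM σ J x := by rw [ex]; exact i₁.mul (i₂.inv g₂i)
  have iY : IsoM σ J y := iX.inv (mul_eq_one_comm.1 hyx)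
  have hb := HC g₁ g₂ h₁ h₂ x y (i₁.is hJ) (i₂.is hJ) (j₁.is hJ) (j₂.is hJ)
    (iX.is hJ) (iY.is hJ) hyx q1 q2 (av g₁) (av g₂) u₁ u₂ (en h₁) (en h₂) (j₁.en_pos hJ)
    (j₂.en_pos hJ) (norm_av _ (i₁.en_pos hJ)).le (norm_av _ (i₂.en_pos hJ)).le c₁ c₂ d₁ d₂ f₁ f₂
    (pw (pwall g₁ (i₁.en_pos hJ) (up' _ n₁))) (pw (pwall g₂ (i₂.en_pos hJ) (up' _ n₂)))
    (lw e₁) (lw e₂)
  refine en_le_of hC fun i j => ?_
  have h1 := hb (Pi.single j 1)
  rw [mulVec_single_one] at h1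
  have h2 : C * ‖(Pi.single j (1 : k) : ι → k)‖ ≤ C * 1 :=
    mul_le_mul_of_nonneg_left (norm_single' j) hC
  have h3 := norm_le_pi_norm (x.col j) i
  calc _ = ‖x.col j i‖ := rfl
    _ ≤ _ := h3
    _ ≤ _ := h1
    _ ≤ _ := h2
    _ = C := mul_one C

end main

end Vale.Agent.P092.H923.PJ
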