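import Vale.Agent.P092.H923.PJ5

/-!
P092, row [CL-I1] (helper923), part 6: the count, for a map `q : Γ → G` which is a homomorphism
modulo scalars into a group `G` of isometries of any form.
-/

set_option linter.unusedSectionVars false

namespace Vale.Agent.P092.H923.PJ

open Matrix Topology Module
open scoped LinearAlgebra.Projectivization
open Vale.Agent.P092.H923.PI
open Vale.Agent.P092.H100.Gr (Gr)

variable {k : Type*} [NontriviallyNormedField k] {ι : Type*} [Fintype ι] [DecidableEq ι] {d : ℕ}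

/-! ### Scalars -/

theorem en_smul (c : k) (A : Matrix ι ι k) : en (c • A) = ‖c‖ * en A := by
  unfold en
  rw [← norm_smul]
  rfl

theorem m2_smul (c : k) (A : Matrix ι ι k) : m2 (c • A) = ‖c * c‖ * m2 A := by
  unfold m2
  rw [← norm_smul]
  congr 1
  funext i i' j j'
  simp only [mi, Matrix.smul_apply, Pi.smul_apply, smul_eq_mul]
  ring

/-- `x` and `y` are equal modulo a scalar of norm one -/
def Eqv (x y : Matrix ι ι k) : Prop := ∃ c : k, ‖c‖ = 1 ∧ x = c • y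

variable {x y : Matrix ι ι k}

theorem Eqv.en (h : Eqv x y) : PJ.en x = PJ.en y := by
  obtain ⟨c, hc, e⟩ := h
  rw [e, en_smul, hc, one_mul]

theorem Eqv.m2 (h : Eqv x y) : PJ.m2 x = PJ.m2 y := by
  obtain ⟨c, hc, e⟩ := h
  rw [e, m2_smul, norm_mul, hc, one_mul, one_mul]

/-- near the wall of type `1`, attracting point in `A` -/
def P1 (R T : ℝ) (A : Set (ℙ k (ι → k))) (g : Matrix ι ι k) : Prop :=
  m2 g ≤ R * en g ∧ AtP T A g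

/-- near the wall of type `d`, attracting `d`-space in `B` -/
def Pd (R T : ℝ) (B : Set (Gr k ι d)) (g : Matrix ι ι k) : Prop :=
  ExpF (en g / R) d g ∧ AtD T B g

theorem Eqv.p1 (h : Eqv x y) {R T : ℝ} {A : Set (ℙ k (ι → k))} (hx : P1 R T A x) :
    P1 R T A y := by
  have hn := h.en
  have hm := h.m2
  obtain ⟨c, hc, e⟩ := h
  obtain ⟨h1, v, φ, hv, hA, H⟩ := hx
  have hc0 : c ≠ 0 := by rw [← norm_pos_iff, hc]; exact one_pos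
  refine ⟨by rw [← hn, ← hm]; exact h1, v, c⁻¹ • φ, hv, hA, fun i j => ?_⟩
  have h1 := H i j
  have h2 : y i j - v i * (c⁻¹ • φ) j = c⁻¹ * (x i j - v i * φ j) := by
    rw [e]
    simp only [Pi.smul_apply, Matrix.smul_apply, smul_eq_mul]
    field_simp
  rw [h2, norm_mul, norm_inv, hc, inv_one, one_mul, ← hn]
  exact h1

theorem Eqv.pd (h : Eqv x y) {R T : ℝ} {B : Set (Gr k ι d)} (hx : Pd R T B x) :
    Pd R T B y := by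
  have hn := h.en
  obtain ⟨c, hc, e⟩ := h
  obtain ⟨⟨w, hw, hexp⟩, X, hX, M, hM, H⟩ := hx
  have hc0 : c ≠ 0 := by rw [← norm_pos_iff, hc]; exact one_pos
  refine ⟨⟨w, hw, fun a => ?_⟩, X, hX, c⁻¹ • M, fun v => ?_, fun i j => ?_⟩
  · have h1 := hexp a
    rw [e, Matrix.smul_mulVec, norm_smul, hc, one_mul, ← e, hn] at h1
    exact h1
  · rw [Matrix.smul_mulVec]
    exact Submodule.smul_mem _ _ (hM v)
  · have h1 := H i j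
    have h2 : y i j - (c⁻¹ • M) i j = c⁻¹ * (x i j - M i j) := by
      rw [e]
      simp only [Matrix.smul_apply, smul_eq_mul]
      field_simp
    rw [h2, norm_mul, norm_inv, hc, inv_one, one_mul, ← hn]
    exact h1

theorem P1.mono {R R' T : ℝ} (h : R ≤ R') {A : Set (ℙ k (ι → k))} {g : Matrix ι ι k}
    (hg : P1 R T A g) : P1 R' T A g :=
  ⟨hg.1.trans (mul_le_mul_of_nonneg_right h (en_nonneg _)), hg.2⟩

theorem Pd.mono {R R' T : ℝ} (hR : 0 < R) (h : R ≤ R') {B : Set (Gr k ι d)} {g : Matrix ι ι k}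
    (hg : Pd R T B g) : Pd R' T B g :=
  ⟨hg.1.mono (div_le_div_of_nonneg_left (en_nonneg _) hR h), hg.2⟩

variable [ProperSpace k]

/-- **The bound**, in terms of `P1` and `Pd`. -/
theorem bddP {σ : k →+* k} (hσ : ∀ x, ‖σ x‖ = ‖x‖) {J J' : Matrix ι ι k}
    (hJ : J' * J = 1) {A : Set (ℙ k (ι → k))} {B : Set (Gr k ι d)}
    (hd : 2 ≤ d) (hA : IsClosed A) (hB : IsClosed B)
    (hAB : ∀ (v : ι → k) (hv : v ≠ 0), Projectivization.mk k v hv ∈ A → ∀ X ∈ B,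
      ∃ y ∈ X.1, bF σ J v y ≠ 0) {R R' : ℝ} (hR : 0 < R) (hR' : 0 < R') :
    ∃ T₀ C : ℝ, 1 ≤ T₀ ∧ 0 ≤ C ∧ ∀ T, T₀ ≤ T → ∀ g₁ g₂ h₁ h₂ x y : Matrix ι ι k,
      IsoM σ J g₁ → IsoM σ J g₂ → IsoM σ J h₁ → IsoM σ J h₂ → y * x = 1 → x * g₂ = g₁ →
      x * h₂ = h₁ → P1 R T A g₁ → P1 R T A g₂ → Pd R' T B h₁ → Pd R' T B h₂ → en x ≤ C := by
  obtain ⟨T₀, C, h1, h2, H⟩ := bdd hσ hJ hd hA hB hAB (R := max R R') (lt_max_of_lt_left hR)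
  refine ⟨T₀, C, h1, h2, fun T hT g₁ g₂ h₁ h₂ x y i₁ i₂ j₁ j₂ e1 e2 e3 a₁ a₂ b₁ b₂ => ?_⟩
  have a₁' := a₁.mono (le_max_left R R')
  have a₂' := a₂.mono (le_max_left R R')
  have b₁' := b₁.mono hR' (le_max_right R R')
  have b₂' := b₂.mono hR' (le_max_right R R')
  exact H T hT g₁ g₂ h₁ h₂ x y i₁ i₂ j₁ j₂ e1 e2 e3 a₁'.1 a₂'.1 b₁'.1 b₂'.1 a₁'.2 a₂'.2 b₁'.2
    b₂'.2

section cnt

variable {Γ G : Type*} [Group Γ] [Group G] {ρ : G → Matrix ι ι k} {σ : k →+* k}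
  {J J' : Matrix ι ι k} {Z : Subgroup G} {q : Γ → G}

/-- The scalars of an isometry group have norm one. -/
theorem norm_sc [Nonempty ι] (hσ : ∀ x, ‖σ x‖ = ‖x‖) (hJ : J' * J = 1) {c : k}
    (h : IsoM σ J (c • (1 : Matrix ι ι k))) : ‖c‖ = 1 := by
  have h1 : (σ c * c) • J = J := by
    have h2 := h
    unfold IsoM at h2
    have e : (c • (1 : Matrix ι ι k)).map σ = σ c • (1 : Matrix ι ι k) := by
      ext i j
      by_cases hij : i = j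
      · subst hij; simp
      · simp [hij]
    rw [e, Matrix.transpose_smul, Matrix.transpose_one, Matrix.smul_mul, Matrix.one_mul,
      Matrix.mul_smul, Matrix.mul_one, smul_smul] at h2
    rw [mul_comm]
    exact h2
  have h3 := congrArg en h1
  rw [en_smul, norm_mul, hσ] at h3
  have hJ0 : 0 < en J := by
    by_contra hc
    push Not at hc
    have h4 : J = 0 := by
      ext i j
      exact norm_le_zero_iff.1 ((entry_le J i j).trans hc)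
    rw [h4, Matrix.mul_zero] at hJ
    exact zero_ne_one hJ
  have h5 : ‖c‖ * ‖c‖ = 1 := mul_right_cancel₀ hJ0.ne' (by rw [h3, one_mul])
  nlinarith [norm_nonneg c]

theorem eqv_of [Nonempty ι] (hσ : ∀ x, ‖σ x‖ = ‖x‖) (hJ : J' * J = 1)
    (hρ : ∀ g h, ρ (g * h) = ρ g * ρ h) (hiso : ∀ g, IsoM σ J (ρ g))
    (hz : ∀ z ∈ Z, ∃ c : k, ρ z = c • 1)
    (hq : ∀ γ γ', ∃ z ∈ Z, q (γ * γ') = z * (q γ * q γ')) (γ η : Γ) :
    Eqv (ρ (q (γ * η))) (ρ (q γ * q η)) := by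
  obtain ⟨z, hzZ, e⟩ := hq γ η
  obtain ⟨c, hc⟩ := hz z hzZ
  refine ⟨c, norm_sc hσ hJ (by rw [← hc]; exact hiso z), ?_⟩
  rw [e, hρ, hc, Matrix.smul_mul, Matrix.one_mul]

/-- **The count, points first.** -/
theorem cnt12 [Nonempty ι] (hσ : ∀ x, ‖σ x‖ = ‖x‖) (hJ : J' * J = 1) (hρ1 : ρ 1 = 1)
    (hρ : ∀ g h, ρ (g * h) = ρ g * ρ h) (hiso : ∀ g, IsoM σ J (ρ g))
    (hz : ∀ z ∈ Z, ∃ c : k, ρ z = c • 1)
    (hq : ∀ γ γ', ∃ z ∈ Z, q (γ * γ') = z * (q γ * q γ'))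
    (hud : ∀ C : ℝ, ∃ N : ℕ, ∀ T : Finset Γ,
      (∀ γ ∈ T, ∀ γ' ∈ T, en (ρ (q γ' * (q γ)⁻¹)) ≤ C) → T.card ≤ N)
    {A : Set (ℙ k (ι → k))} {B : Set (Gr k ι d)} (hd : 2 ≤ d) (hA : IsClosed A)
    (hB : IsClosed B) (hAB : ∀ (v : ι → k) (hv : v ≠ 0), Projectivization.mk k v hv ∈ A →
      ∀ X ∈ B, ∃ y ∈ X.1, bF σ J v y ≠ 0) {R R' : ℝ} (hR : 0 < R) (hR' : 0 < R') :
    ∃ T₀ : ℝ, 1 ≤ T₀ ∧ ∃ N : ℕ, ∀ T, T₀ ≤ T → ∀ (η : Γ) (S : Finset Γ),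
      (∀ γ ∈ S, P1 R T A (ρ (q γ)) ∧ Pd R' T B (ρ (q (γ * η)))) → S.card ≤ N := by
  obtain ⟨T₀, C, h1, h2, H⟩ := bddP hσ hJ hd hA hB hAB hR hR'
  obtain ⟨N, hN⟩ := hud C
  refine ⟨T₀, h1, N, fun T hT η S hS => hN S fun γ hγ γ' hγ' => ?_⟩
  obtain ⟨a1, a2⟩ := hS γ hγ
  obtain ⟨b1, b2⟩ := hS γ' hγ'
  have e := eqv_of hσ hJ hρ hiso hz hq γ η
  have e' := eqv_of hσ hJ hρ hiso hz hq γ' η
  refine H T hT (ρ (q γ')) (ρ (q γ)) (ρ (q γ' * q η)) (ρ (q γ * q η))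
    (ρ (q γ' * (q γ)⁻¹)) (ρ (q γ * (q γ')⁻¹)) (hiso _) (hiso _) (hiso _) (hiso _) ?_ ?_ ?_ b1 a1
    (e'.pd b2) (e.pd a2)
  · rw [← hρ, ← hρ1]
    congr 1
    group
  · rw [← hρ]
    congr 1
    group
  · rw [← hρ]
    congr 1
    group

/-- **The count, maximal subspaces first.** -/
theorem cnt21 [Nonempty ι] (hσ : ∀ x, ‖σ x‖ = ‖x‖) (hJ : J' * J = 1) (hρ1 : ρ 1 = 1)
    (hρ : ∀ g h, ρ (g * h) = ρ g * ρ h) (hiso : ∀ g, IsoM σ J (ρ g))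
    (hz : ∀ z ∈ Z, ∃ c : k, ρ z = c • 1)
    (hq : ∀ γ γ', ∃ z ∈ Z, q (γ * γ') = z * (q γ * q γ'))
    (hud : ∀ C : ℝ, ∃ N : ℕ, ∀ T : Finset Γ,
      (∀ γ ∈ T, ∀ γ' ∈ T, en (ρ (q γ' * (q γ)⁻¹)) ≤ C) → T.card ≤ N)
    {A : Set (ℙ k (ι → k))} {B : Set (Gr k ι d)} (hd : 2 ≤ d) (hA : IsClosed A)
    (hB : IsClosed B) (hAB : ∀ (v : ι → k) (hv : v ≠ 0), Projectivization.mk k v hv ∈ A →
      ∀ X ∈ B, ∃ y ∈ X.1, bF σ J v y ≠ 0) {R R' : ℝ} (hR : 0 < R) (hR' : 0 < R') :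
    ∃ T₀ : ℝ, 1 ≤ T₀ ∧ ∃ N : ℕ, ∀ T, T₀ ≤ T → ∀ (η : Γ) (S : Finset Γ),
      (∀ γ ∈ S, Pd R' T B (ρ (q γ)) ∧ P1 R T A (ρ (q (γ * η)))) → S.card ≤ N := by
  obtain ⟨T₀, C, h1, h2, H⟩ := bddP hσ hJ hd hA hB hAB hR hR'
  obtain ⟨N, hN⟩ := hud C
  refine ⟨T₀, h1, N, fun T hT η S hS => hN S fun γ hγ γ' hγ' => ?_⟩
  obtain ⟨a1, a2⟩ := hS γ hγ
  obtain ⟨b1, b2⟩ := hS γ' hγ'
  have e := eqv_of hσ hJ hρ hiso hz hq γ η
  have e' := eqv_of hσ hJ hρ hiso hz hq γ' η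
  refine H T hT (ρ (q γ' * q η)) (ρ (q γ * q η)) (ρ (q γ')) (ρ (q γ))
    (ρ (q γ' * (q γ)⁻¹)) (ρ (q γ * (q γ')⁻¹)) (hiso _) (hiso _) (hiso _) (hiso _) ?_ ?_ ?_
    (e'.p1 b2) (e.p1 a2) b1 a1
  · rw [← hρ, ← hρ1]
    congr 1
    group
  · rw [← hρ]
    congr 1
    group
  · rw [← hρ]
    congr 1
    group

end cnt

end Vale.Agent.P092.H923.PJ
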