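import Vale.Agent.P092.CL.Defs
import Vale.Agent.P092.H486.EngJ

/-!
P092, row [CL-I1] (helper923), part 7: the fields `i11`, `i12` of `CL.LegP` (exact incidence at an
incident pair of the source), from the families `UFamE` of the engine (helper486) and the bounded
overlap of the cones.
-/

set_option linter.all false

open scoped InnerProductSpace
open Filter Topology ContinuousLinearMap MeasureTheory

namespace Vale.Agent.P092.H923.CLI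

open Vale.Agent.P092.RC (Pic Moore)
open Vale.Agent.P092.H486.Eng (Ovl UFamE ufam_inc)
open Vale.Agent.P092.H859.CL
open Vale.Agent.P092.SD (Ms)
open Vale.Agent.P092.H232 (Nin)
open Vale.Agent.P092.CL

variable {S P M V₁ V₂ : Type} [Group S] [MeasurableSpace V₁] [MeasurableSpace V₂]
  [TopologicalSpace S] [MulAction S P] [TopologicalSpace P] [CompactSpace P]
  [ContinuousConstSMul S P] [MulAction S M] [TopologicalSpace M] [CompactSpace M]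
  [ContinuousConstSMul S M] [NormedAddCommGroup V₁] [NormedAddCommGroup V₂]
  {L : Lt S P M V₁ V₂}
  {E Γ K : Type} [Group E] [TopologicalSpace E] [Group Γ] [NormedAddCommGroup K]
  [InnerProductSpace ℂ K] [CompleteSpace K] {ι : S →* E}

/-- Conjugates of the root group `u1` form a Moore set. -/
theorem moore_u1 (hG : Geo L) (hA : Adm L ι) (g : S) :
    Moore (ι '' Set.range fun s => g * L.u1 s * g⁻¹) := by
  refine hA.moore _ fun C => ?_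
  obtain ⟨s, hs⟩ := hG.unbu g C
  exact ⟨_, ⟨s, rfl⟩, hs⟩

theorem contr_ι (hA : Adm L ι) {b n : S}
    (h : Tendsto (fun N : ℕ => (b ^ N)⁻¹ * n * b ^ N) atTop (𝓝 1)) (g : S) :
    Tendsto (fun N : ℕ => (ι b ^ N)⁻¹ * ((ι g)⁻¹ * ι (g * n * g⁻¹) * ι g) * ι b ^ N) atTop
      (𝓝 1) := by
  have h1 := (hA.cι.tendsto 1).comp h
  rw [map_one] at h1
  refine h1.congr fun N => ?_
  have e : (ι g)⁻¹ * ι (g * n * g⁻¹) * ι g = ι n := by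
    rw [map_mul, map_mul, map_inv]
    group
  rw [e]
  simp only [Function.comp_apply, map_mul, map_inv, map_pow]

variable {π : E →* (K →L[ℂ] K)} {lam : Γ →* (K →L[ℂ] K)} {W : Set (K →L[ℂ] K)} {Ω : K}
  {mp : (Γ → ℝ) → (K →L[ℂ] K)} {Bd Bd' : Set K} {Br Br' : ℝ → Set Γ} {ms ms' : E → Set Γ → ℝ}
  {A A' : Subgroup E} {𝒰 𝒰' : Ultrafilter ℕ} {G1 G2 H1 H2 : Γ → ℝ} {bp : Γ → P} {bp' : Γ → M}

/-- Exact incidence at two places `ι g • z0`, `ι g • z0'`, for two walls `b`, `b'` of the source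
which contract `u1`; point functions at the first place, functions of the maximal subspaces at the
second. -/
theorem inc_at {X X' : Type} [MulAction E X] [MulAction E X'] [MulAction Γ P] [MulAction Γ M]
    (hG : Geo L) (hA : Adm L ι) {b b' : S}
    (hb : ∀ s, Tendsto (fun N : ℕ => (b ^ N)⁻¹ * L.u1 s * b ^ N) atTop (𝓝 1))
    (hb' : ∀ s, Tendsto (fun N : ℕ => (b' ^ N)⁻¹ * L.u1 s * b' ^ N) atTop (𝓝 1))
    {z0 : X} {z0' : X'} {NA : ℝ → ℝ → Set P → Set Γ} {NA' : ℝ → ℝ → Set M → Set Γ}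
    {U : X → (C(P, ℂ) →ₗ[ℂ] (K →L[ℂ] K))} {U' : X' → (C(M, ℂ) →ₗ[ℂ] (K →L[ℂ] K))}
    {p p' : ℝ} (h𝒰 : (𝒰 : Filter ℕ) ≤ atTop) (h𝒰' : (𝒰' : Filter ℕ) ≤ atTop)
    (hP : Pic π lam W Ω) (hM : Ms lam W Ω (st mp))
    (h : H859.CN.SysF mp (fun g => π g) Bd ms A Br G1 G2)
    (h' : H859.CN.SysF mp (fun g => π g) Bd' ms' A' Br' H1 H2)
    (hL : Leg mp (fun g => π g) (fun γ => lam γ) W) (hSl : Slow mp (fun g => π g) Bd)
    (hSl' : Slow mp (fun g => π g) Bd')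
    (he : Esc (st mp) (fun g => π g) Bd A (pw (ι b)⁻¹))
    (he' : Esc (st mp) (fun g => π g) Bd' A' (pw (ι b')⁻¹))
    (hfG : ∀ r, (FF G1 G2 r).Finite) (hfH : ∀ r, (FF H1 H2 r).Finite)
    (hU : UFamE mp π lam W (ι b) G1 G2 bp 𝒰 NA z0 U p)
    (hU' : UFamE mp π lam W (ι b') H1 H2 bp' 𝒰' NA' z0' U' p')
    (ov : ∀ (A : Set P) (B : Set M), IsClosed A → IsClosed B → (∀ x ∈ A, ∀ l ∈ B, ¬ L.In x l) →
      Ovl G1 G2 bp H1 H2 bp' A B) (g : S) {u : C(P, ℂ)} {v : C(M, ℂ)} (huv : Nin L.In u v) :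
    U (ι g • z0) u * U' (ι g • z0') v = 0 ∧ U' (ι g • z0') v * U (ι g • z0) u = 0 := by
  refine ufam_inc h𝒰 h𝒰' hP hM h h' hL hSl hSl' he he' hfG hfH hU hU' (ι g) (ι g)
    (moore_u1 hG hA g) ?_ ?_ u v
    (ov _ _ (isClosed_tsupport u) (isClosed_tsupport v) huv)
  · rintro _ ⟨_, ⟨s, rfl⟩, rfl⟩
    exact contr_ι hA (hb s) g
  · rintro _ ⟨_, ⟨s, rfl⟩, rfl⟩
    exact contr_ι hA (hb' s) g

variable [MulAction E P] [MulAction E M] [MulAction Γ P] [MulAction Γ M]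

/-- **[CL-I1], straight types**: field `i11` of `CL.LegP`. -/
theorem i11 (hG : Geo L) (hA : Adm L ι)
    (haP : ∀ (g : S) (x : P), ι g • x = g • x) (haM : ∀ (g : S) (l : M), ι g • l = g • l)
    {NA : ℝ → ℝ → Set P → Set Γ} {NA' : ℝ → ℝ → Set M → Set Γ}
    {U : P → (C(P, ℂ) →ₗ[ℂ] (K →L[ℂ] K))} {U' : M → (C(M, ℂ) →ₗ[ℂ] (K →L[ℂ] K))}
    {p p' : ℝ} (h𝒰 : (𝒰 : Filter ℕ) ≤ atTop) (h𝒰' : (𝒰' : Filter ℕ) ≤ atTop)
    (hP : Pic π lam W Ω) (hM : Ms lam W Ω (st mp))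
    (h : H859.CN.SysF mp (fun g => π g) Bd ms A Br G1 G2)
    (h' : H859.CN.SysF mp (fun g => π g) Bd' ms' A' Br' H1 H2)
    (hL : Leg mp (fun g => π g) (fun γ => lam γ) W) (hSl : Slow mp (fun g => π g) Bd)
    (hSl' : Slow mp (fun g => π g) Bd')
    (he : Esc (st mp) (fun g => π g) Bd A (pw (ι L.b1)⁻¹))
    (he' : Esc (st mp) (fun g => π g) Bd' A' (pw (ι L.b2)⁻¹))
    (hfG : ∀ r, (FF G1 G2 r).Finite) (hfH : ∀ r, (FF H1 H2 r).Finite)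
    (hU : UFamE mp π lam W (ι L.b1) G1 G2 bp 𝒰 NA L.p0 U p)
    (hU' : UFamE mp π lam W (ι L.b2) H1 H2 bp' 𝒰' NA' L.m0 U' p')
    (ov : ∀ (A : Set P) (B : Set M), IsClosed A → IsClosed B → (∀ x ∈ A, ∀ l ∈ B, ¬ L.In x l) →
      Ovl G1 G2 bp H1 H2 bp' A B) :
    ∀ c l, L.In c l → ∀ f g, Nin L.In f g → U c f * U' l g = 0 := by
  intro c l hcl f g hfg
  obtain ⟨s, hs1, hs2⟩ := hG.flag c l hcl
  have h1 := (inc_at hG hA hG.con1 hG.con2 h𝒰 h𝒰' hP hM h h' hL hSl hSl' he he' hfG hfH hU hU' ov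
    s hfg).1
  rwa [haP, haM, hs1, hs2] at h1

/-- **[CL-I1], flipped types**: field `i12` of `CL.LegP`. -/
theorem i12 (hG : Geo L) (hA : Adm L ι)
    (haP : ∀ (g : S) (x : P), ι g • x = g • x) (haM : ∀ (g : S) (l : M), ι g • l = g • l)
    {NA : ℝ → ℝ → Set P → Set Γ} {NA' : ℝ → ℝ → Set M → Set Γ}
    {U : M → (C(P, ℂ) →ₗ[ℂ] (K →L[ℂ] K))} {U' : P → (C(M, ℂ) →ₗ[ℂ] (K →L[ℂ] K))}
    {p p' : ℝ} (h𝒰 : (𝒰 : Filter ℕ) ≤ atTop) (h𝒰' : (𝒰' : Filter ℕ) ≤ atTop)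
    (hP : Pic π lam W Ω) (hM : Ms lam W Ω (st mp))
    (h : H859.CN.SysF mp (fun g => π g) Bd ms A Br G1 G2)
    (h' : H859.CN.SysF mp (fun g => π g) Bd' ms' A' Br' H1 H2)
    (hL : Leg mp (fun g => π g) (fun γ => lam γ) W) (hSl : Slow mp (fun g => π g) Bd)
    (hSl' : Slow mp (fun g => π g) Bd')
    (he : Esc (st mp) (fun g => π g) Bd A (pw (ι L.b2)⁻¹))
    (he' : Esc (st mp) (fun g => π g) Bd' A' (pw (ι L.b1)⁻¹))
    (hfG : ∀ r, (FF G1 G2 r).Finite) (hfH : ∀ r, (FF H1 H2 r).Finite)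
    (hU : UFamE mp π lam W (ι L.b2) G1 G2 bp 𝒰 NA L.m0 U p)
    (hU' : UFamE mp π lam W (ι L.b1) H1 H2 bp' 𝒰' NA' L.p0 U' p')
    (ov : ∀ (A : Set P) (B : Set M), IsClosed A → IsClosed B → (∀ x ∈ A, ∀ l ∈ B, ¬ L.In x l) →
      Ovl G1 G2 bp H1 H2 bp' A B) :
    ∀ c l, L.In c l → ∀ f g, Nin L.In f g → U l f * U' c g = 0 := by
  intro c l hcl f g hfg
  obtain ⟨s, hs1, hs2⟩ := hG.flag c l hcl
  have h1 := (inc_at hG hA hG.con2 hG.con1 h𝒰 h𝒰' hP hM h h' hL hSl hSl' he he' hfG hfH hU hU' ov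
    s hfg).1
  rwa [haP, haM, hs1, hs2] at h1

/-- The bounded overlap from the count, with the conversion of cones to near-wall sets. -/
theorem ovl_of {Y Y' : Type} {G1 G2 H1 H2 : Γ → ℝ} {bp : Γ → Y} {bp' : Γ → Y'}
    {NA : ℝ → ℝ → Set Y → Set Γ} {NA' : ℝ → ℝ → Set Y' → Set Γ}
    (c1 : ∀ r : ℝ, ∃ R : ℝ, 0 < R ∧ ∀ T : ℝ, 1 ≤ T → ∃ t : ℝ, ∀ (γ : Γ) (A : Set Y), t ≤ G1 γ →
      G2 γ ≤ r → bp γ ∈ A → γ ∈ NA R T A)
    (c2 : ∀ r : ℝ, ∃ R : ℝ, 0 < R ∧ ∀ T : ℝ, 1 ≤ T → ∃ t : ℝ, ∀ (γ : Γ) (B : Set Y'), t ≤ H1 γ →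
      H2 γ ≤ r → bp' γ ∈ B → γ ∈ NA' R T B) {A : Set Y} {B : Set Y'}
    (cnt : ∀ R R' : ℝ, 0 < R → 0 < R' → ∃ T₀ : ℝ, 1 ≤ T₀ ∧ ∃ N : ℕ, ∀ T, T₀ ≤ T →
      ∀ (η : Γ) (S : Finset Γ), (∀ γ ∈ S, γ ∈ NA R T A ∧ γ * η ∈ NA' R' T B) → S.card ≤ N) :
    Ovl G1 G2 bp H1 H2 bp' A B := by
  intro r
  obtain ⟨R, hR, h1⟩ := c1 r
  obtain ⟨R', hR', h2⟩ := c2 r
  obtain ⟨T₀, hT, N, H⟩ := cnt R R' hR hR'
  obtain ⟨t, ht⟩ := h1 T₀ hT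
  obtain ⟨t', ht'⟩ := h2 T₀ hT
  refine ⟨max t t', N, fun ζ S' hS => H T₀ le_rfl ζ S' fun γ hγ => ?_⟩
  obtain ⟨⟨a1, a2, a3⟩, b1, b2, b3⟩ := hS γ hγ
  exact ⟨ht γ A ((le_max_left _ _).trans a1) a2 a3,
    ht' _ B ((le_max_right _ _).trans b1) b2 b3⟩

end Vale.Agent.P092.H923.CLI
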