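import Vale.Agent.P092.H923.PJ6
import Vale.Agent.P092.H923.PJ7
import Vale.Agent.P092.CL.Lt

/-!
P092, row [CL-I1] (helper923), part 8: the count of (I1) in the letters of CL/Lt (all forms
`hyp (s + 2) ε J₀` of Witt index exactly `s + 2`, every local field).
-/

set_option linter.all false

open scoped Matrix LinearAlgebra.Projectivization
open Matrix Module Set MeasureTheory Topology

namespace Vale.Agent.P092.H923.CLI

open Vale.Agent.P092.CL (ta nmM NW1 NWr AttS scal V2 Lt lt)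
open Vale.Agent.P092.H303 (FormGroup Idx hyp)
open Vale.Agent.P092.H714.Cl
open Vale.Agent.P092.H370.Po (SGr Inc Sing WI Ort sing_sup_span finrank_sup_span singG_closed)
open Vale.Agent.P092.H100.Gr (Gr)
open Vale.Agent.P092.H644.Gr3 (p1 p1_cont p1_mk p1_surj)
open Vale.Agent.P092.H486.Eng (Ovl)
open Vale.Agent.P092.H923.PJ (P1 Pd IsoM bF AtP AtD)

section gen

variable {k : Type} [NontriviallyNormedField k] {n : Type} [Fintype n] [DecidableEq n]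
  {σ : k →+* k} {ε : k} {J : Matrix n n k}

theorem bF_hf (x y : n → k) : bF σ Jᵀ x y = hf σ J y x := by
  rw [PJ.bF_apply]
  unfold hf
  rw [Matrix.mulVec_transpose, dotProduct_comm, ← Matrix.dotProduct_mulVec]

theorem isoM_ta {g : SpecialLinearGroup n k} (hg : g ∈ FormGroup σ J) : IsoM σ Jᵀ (ta g) := by
  have h1 : (g⁻¹).1 * J * ((g⁻¹).1.map σ)ᵀ = J := inv_mem hg
  unfold PJ.IsoM ta
  have h2 : ((((g⁻¹).1)ᵀ).map σ)ᵀ = (g⁻¹).1.map σ := by
    ext i j; rfl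
  rw [h2]
  have h3 := congrArg Matrix.transpose h1
  rw [Matrix.transpose_mul, Matrix.transpose_mul, Matrix.transpose_transpose] at h3
  rw [Matrix.mul_assoc]
  exact h3

theorem ta_mul (g h : SpecialLinearGroup n k) : ta (g * h) = ta g * ta h := by
  unfold ta
  rw [_root_.mul_inv_rev, ← Matrix.transpose_mul]
  rfl

theorem ta_one : ta (1 : SpecialLinearGroup n k) = 1 := by
  unfold ta
  rw [inv_one]
  exact Matrix.transpose_one

theorem ta_scal {z : SpecialLinearGroup n k} (hz : z ∈ scal k n) : ∃ c : k, ta z = c • 1 := by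
  obtain ⟨c, hc⟩ := (scal k n).inv_mem hz
  refine ⟨c, ?_⟩
  unfold ta
  rw [hc, Matrix.transpose_smul, Matrix.transpose_one]

theorem exists_inv (hF : Frm σ ε J) : ∃ J' : Matrix n n k, J' * Jᵀ = 1 := by
  have h1 : J.det ≠ 0 := by
    intro h0
    obtain ⟨v, hv, hvJ⟩ := Matrix.exists_vecMul_eq_zero_iff.2 h0
    obtain ⟨y, hy⟩ := hF.nondeg v hv
    apply hy
    unfold hf
    rw [Matrix.dotProduct_mulVec, hvJ, zero_dotProduct]
  refine ⟨(Jᵀ)⁻¹, Matrix.nonsing_inv_mul _ ?_⟩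
  rw [Matrix.det_transpose]
  exact isUnit_iff_ne_zero.2 h1

/-- the set of singular points as a set of points of the projective space -/
def imP (A : Set (SGr σ J 1)) : Set (ℙ k (n → k)) := p1 ⁻¹' (Subtype.val '' A)

/-- the set of singular spaces as a set of spaces -/
def imM {j : ℕ} (B : Set (SGr σ J j)) : Set (Gr k n j) := Subtype.val '' B

theorem imM_closed [ProperSpace k] (hσ : Continuous σ) {j : ℕ} {B : Set (SGr σ J j)}
    (hB : IsClosed B) : IsClosed (imM B) :=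
  (singG_closed (J := J) (j := j) hσ).isClosedEmbedding_subtypeVal.isClosedMap _ hB

theorem imP_closed [ProperSpace k] (hσ : Continuous σ) {A : Set (SGr σ J 1)}
    (hA : IsClosed A) : IsClosed (imP A) :=
  (imM_closed hσ hA).preimage p1_cont

theorem p1_of_mem {A : Set (SGr σ J 1)} {v : n → k} {hv : v ≠ 0}
    (h : Projectivization.mk k v hv ∈ imP A) : ∃ X ∈ A, X.S = Submodule.span k {v} := by
  obtain ⟨X, hX, e⟩ := h
  refine ⟨X, hX, ?_⟩
  have h1 := congrArg Subtype.val e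
  rw [p1_mk] at h1
  exact h1

/-- non-incidence in terms of the form -/
theorem sep_of {r : ℕ} (hF : Frm σ ε J) (hW : WI σ J r) {A : Set (SGr σ J 1)}
    {B : Set (SGr σ J r)} (hAB : ∀ x ∈ A, ∀ l ∈ B, ¬ Inc x l) :
    ∀ (v : n → k) (hv : v ≠ 0), Projectivization.mk k v hv ∈ imP A → ∀ X ∈ imM B,
      ∃ y ∈ X.1, bF σ Jᵀ v y ≠ 0 := by
  intro v hv hvA X₁ hX₁
  obtain ⟨X₀, hX, rfl⟩ := hX₁
  obtain ⟨X, hXX⟩ : ∃ X : SGr σ J r, X = X₀ := ⟨X₀, rfl⟩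
  subst hXX
  obtain ⟨P, hP, hPv⟩ := p1_of_mem hvA
  by_contra hc
  push Not at hc
  have hc' : ∀ y ∈ X.S, hf σ J y v = 0 := fun y hy => by rw [← bF_hf]; exact hc y hy
  have hvv : hf σ J v v = 0 := P.sing.zero (by rw [hPv]; exact Submodule.mem_span_singleton_self v)
  have h1 := sing_sup_span hF X.sing hvv hc'
  have h2 := hW.2 _ h1
  have h3 : v ∈ X.S := by
    by_contra hn
    rw [finrank_sup_span hn, X.dim] at h2
    omega
  exact hAB P hP X hX (by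
    change P.S ≤ X.S
    rw [hPv, Submodule.span_singleton_le_iff_mem]
    exact h3)

theorem atP_of {T : ℝ} {A : Set (SGr σ J 1)} {h : Matrix n n k} (H : AttS T A h) :
    AtP T (imP A) h := by
  obtain ⟨X, hX, D, hD, hDh⟩ := H
  obtain ⟨p, hp⟩ := p1_surj X.1
  induction p using Projectivization.ind with
  | h v hv =>
    have hXv : X.S = Submodule.span k {v} := by
      have h1 := congrArg Subtype.val hp
      rw [p1_mk] at h1
      exact h1.symm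
    have h2 : ∀ j, ∃ c : k, c • v = D *ᵥ Pi.single j 1 := fun j => by
      have h3 := hD (Pi.single j 1)
      rw [hXv] at h3
      exact Submodule.mem_span_singleton.1 h3
    choose φ hφ using h2
    refine ⟨v, φ, hv, ⟨X, hX, hp.symm⟩, fun i j => ?_⟩
    have h4 : v i * φ j = D i j := by
      have h5 := congrFun (hφ j) i
      rw [mulVec_single_one] at h5
      rw [mul_comm]
      exact h5
    rw [h4]
    exact hDh i j

theorem p1_of {R T : ℝ} (hR : 0 < R) {A : Set (SGr σ J 1)} {h : Matrix n n k}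
    (H1 : NW1 R h) (H2 : AttS T A h) : P1 R T (imP A) h := by
  refine ⟨?_, atP_of H2⟩
  have h0 : 0 ≤ R * PJ.en h := mul_nonneg hR.le (PJ.en_nonneg _)
  unfold PJ.m2
  rw [pi_norm_le_iff_of_nonneg h0]
  intro i
  rw [pi_norm_le_iff_of_nonneg h0]
  intro i'
  rw [pi_norm_le_iff_of_nonneg h0]
  intro j
  rw [pi_norm_le_iff_of_nonneg h0]
  exact fun j' => H1 i i' j j'

theorem pd_of [ProperSpace k] {r : ℕ} {R T : ℝ} (hR : 0 < R) {B : Set (SGr σ J r)}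
    {h : Matrix n n k} (H1 : NWr r R h) (H2 : AttS T B h) : Pd R T (imM B) h := by
  have H3 : PJ.Xp (PJ.en h / R) r h := by
    obtain ⟨V, hV, H⟩ := H1
    refine ⟨V, hV, fun v hv => ?_⟩
    rw [div_mul_eq_mul_div, div_le_iff₀ hR, mul_comm _ R]
    exact H v hv
  refine ⟨PJ.expF_of_xp (div_nonneg (PJ.en_nonneg _) hR.le) H3, ?_⟩
  obtain ⟨X, hX, D, hD, hDh⟩ := H2
  exact ⟨X.1, ⟨X, hX, rfl⟩, D, hD, hDh⟩

end gen

section lt

variable {k : Type} [NontriviallyNormedField k] [ProperSpace k] {ι : Type} [Fintype ι]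
  [DecidableEq ι] {s : ℕ} {σ : k →+* k} {ε : k} {J₀ : Matrix ι ι k} [MeasurableSpace k]
  {hF : Frm σ ε (hyp (s + 2) ε J₀)} {w : k} {hw : w ≠ 0} {hσ : σ w = w} {μ₁ : Measure k}
  {μ₂ : Measure (V2 σ ε)} {Γ : Type} [Group Γ]
  {q : Γ → FormGroup σ (hyp (s + 2) ε J₀)}

/-- **[CL-I1], the count, points first.** -/
theorem cnt12 (hi : ∀ x, ‖σ x‖ = ‖x‖) (hW : WI σ (hyp (s + 2) ε J₀) (s + 2))
    (hq : (lt hF hw hσ μ₁ μ₂).PH q) (hud : (lt hF hw hσ μ₁ μ₂).UD q)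
    {A : Set (SGr σ (hyp (s + 2) ε J₀) 1)} {B : Set (SGr σ (hyp (s + 2) ε J₀) (s + 2))}
    (hA : IsClosed A) (hB : IsClosed B)
    (hAB : ∀ x ∈ A, ∀ l ∈ B, ¬ (lt hF hw hσ μ₁ μ₂).In x l) {R R' : ℝ} (hR : 0 < R)
    (hR' : 0 < R') :
    ∃ T₀ : ℝ, 1 ≤ T₀ ∧ ∃ N : ℕ, ∀ T, T₀ ≤ T → ∀ (η : Γ) (S : Finset Γ),
      (∀ γ ∈ S, γ ∈ (lt hF hw hσ μ₁ μ₂).na1 q R T A ∧ γ * η ∈ (lt hF hw hσ μ₁ μ₂).na2 q R' T B) →
        S.card ≤ N := by
  have hσc : Continuous σ := (AddMonoidHomClass.isometry_of_norm σ hi).continuous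
  haveI : Nonempty (Idx (s + 2) ι) := ⟨Sum.inl (Sum.inl 0)⟩
  obtain ⟨J', hJ'⟩ := exists_inv hF
  obtain ⟨T₀, h1, N, H⟩ := PJ.cnt12 (ρ := fun g : FormGroup σ (hyp (s + 2) ε J₀) => ta g.1)
    (Z := (lt hF hw hσ μ₁ μ₂).Z) (q := q) hi hJ' ta_one (fun g h => ta_mul g.1 h.1)
    (fun g => isoM_ta g.2) (fun z hz => ta_scal hz) hq hud (d := s + 2) (by omega)
    (imP_closed hσc hA) (imM_closed hσc hB) (sep_of hF hW hAB) hR hR'
  refine ⟨T₀, h1, N, fun T hT η S hS => H T hT η S fun γ hγ => ?_⟩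
  obtain ⟨⟨a1, a2⟩, a3, a4⟩ := hS γ hγ
  exact ⟨p1_of hR a1 a2, pd_of hR' a3 a4⟩

/-- **[CL-I1], the count, maximal spaces first.** -/
theorem cnt21 (hi : ∀ x, ‖σ x‖ = ‖x‖) (hW : WI σ (hyp (s + 2) ε J₀) (s + 2))
    (hq : (lt hF hw hσ μ₁ μ₂).PH q) (hud : (lt hF hw hσ μ₁ μ₂).UD q)
    {A : Set (SGr σ (hyp (s + 2) ε J₀) 1)} {B : Set (SGr σ (hyp (s + 2) ε J₀) (s + 2))}
    (hA : IsClosed A) (hB : IsClosed B)
    (hAB : ∀ x ∈ A, ∀ l ∈ B, ¬ (lt hF hw hσ μ₁ μ₂).In x l) {R R' : ℝ} (hR : 0 < R)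
    (hR' : 0 < R') :
    ∃ T₀ : ℝ, 1 ≤ T₀ ∧ ∃ N : ℕ, ∀ T, T₀ ≤ T → ∀ (η : Γ) (S : Finset Γ),
      (∀ γ ∈ S, γ ∈ (lt hF hw hσ μ₁ μ₂).na2 q R' T B ∧ γ * η ∈ (lt hF hw hσ μ₁ μ₂).na1 q R T A) →
        S.card ≤ N := by
  have hσc : Continuous σ := (AddMonoidHomClass.isometry_of_norm σ hi).continuous
  haveI : Nonempty (Idx (s + 2) ι) := ⟨Sum.inl (Sum.inl 0)⟩
  obtain ⟨J', hJ'⟩ := exists_inv hF
  obtain ⟨T₀, h1, N, H⟩ := PJ.cnt21 (ρ := fun g : FormGroup σ (hyp (s + 2) ε J₀) => ta g.1)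
    (Z := (lt hF hw hσ μ₁ μ₂).Z) (q := q) hi hJ' ta_one (fun g h => ta_mul g.1 h.1)
    (fun g => isoM_ta g.2) (fun z hz => ta_scal hz) hq hud (d := s + 2) (by omega)
    (imP_closed hσc hA) (imM_closed hσc hB) (sep_of hF hW hAB) hR hR'
  refine ⟨T₀, h1, N, fun T hT η S hS => H T hT η S fun γ hγ => ?_⟩
  obtain ⟨⟨a1, a2⟩, a3, a4⟩ := hS γ hγ
  exact ⟨pd_of hR' a1 a2, p1_of hR a3 a4⟩

end lt

end Vale.Agent.P092.H923.CLI
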